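import Mathlib.Analysis.InnerProductSpace.Dual
import Mathlib.Analysis.InnerProductSpace.Calculus
import Mathlib.Analysis.Complex.CauchyIntegral
import Mathlib.Analysis.Analytic.Uniqueness
import Mathlib.Analysis.Normed.Module.HahnBanach

/-!
# P284 (helper812): Calabi rigidity

Two holomorphic maps into Hilbert spaces with the same norm differ by a partial isometry.
-/

open scoped Topology ComplexConjugate InnerProductSpace
open Filter Set Metric

noncomputable section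

namespace Vale.Agent.P284.H812

variable {H H' : Type*} [NormedAddCommGroup H] [InnerProductSpace ℂ H]
  [NormedAddCommGroup H'] [InnerProductSpace ℂ H']

theorem smul_apply' (a v : ℂ) :
    (a • (ContinuousLinearMap.id ℂ ℂ) : ℂ →L[ℂ] ℂ) v = a * v := by
  rw [smul_apply]; rfl

/-- `t ↦ ⟪φ (conj t), φ t⟫_ℂ` is holomorphic. -/
theorem differentiableAt_polar {φ : ℂ → H} {t : ℂ} (h1 : DifferentiableAt ℂ φ t)
    (h2 : DifferentiableAt ℂ φ (conj t)) :
    DifferentiableAt ℂ (fun s => ⟪φ (conj s), φ s⟫_ℂ) t := by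
  have e1 : HasFDerivAt (fun s : ℂ => conj s) (Complex.conjCLE : ℂ →L[ℝ] ℂ) t :=
    Complex.conjCLE.hasFDerivAt
  have e2 : HasFDerivAt φ ((fderiv ℂ φ (conj t)).restrictScalars ℝ) (conj t) :=
    h2.hasFDerivAt.restrictScalars ℝ
  have e3 := e2.comp t e1
  have e4 : HasFDerivAt φ ((fderiv ℂ φ t).restrictScalars ℝ) t := h1.hasFDerivAt.restrictScalars ℝ
  have e5 := e3.inner ℂ e4
  set L : ℂ →L[ℝ] ℂ := (fderivInnerCLM ℂ ((φ ∘ fun s => conj s) t, φ t)).comp
    ((((fderiv ℂ φ (conj t)).restrictScalars ℝ).comp (Complex.conjCLE : ℂ →L[ℝ] ℂ)).prod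
      ((fderiv ℂ φ t).restrictScalars ℝ)) with hL
  have hv : ∀ v : ℂ, L v = v * L 1 := by
    intro v
    have hv1 : fderiv ℂ φ (conj t) (conj v) = conj v • fderiv ℂ φ (conj t) 1 := by
      rw [← map_smul, smul_eq_mul, mul_one]
    have hv2 : fderiv ℂ φ t v = v • fderiv ℂ φ t 1 := by
      rw [← map_smul, smul_eq_mul, mul_one]
    simp only [hL, ContinuousLinearMap.comp_apply, ContinuousLinearMap.prod_apply,
      ContinuousLinearMap.coe_restrictScalars', fderivInnerCLM_apply, Function.comp_apply,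
      ContinuousLinearEquiv.coe_coe, Complex.conjCLE_apply, map_one]
    rw [hv1, hv2, inner_smul_left, inner_smul_right]
    simp only [Complex.conj_conj]
    ring
  have e6 : HasFDerivAt (fun s => ⟪φ (conj s), φ s⟫_ℂ)
      ((L 1) • (ContinuousLinearMap.id ℂ ℂ) : ℂ →L[ℂ] ℂ) t := by
    refine hasFDerivAt_of_restrictScalars ℝ e5 ?_
    refine ContinuousLinearMap.ext fun v => ?_
    show ((L 1) • (ContinuousLinearMap.id ℂ ℂ) : ℂ →L[ℂ] ℂ) v = L v
    rw [hv v, smul_apply', mul_comm]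
  exact e6.differentiableAt

/-- If `‖φ‖ = ‖ψ‖` at the real points near `0`, the polarised functions agree. -/
theorem polar_eq {φ : ℂ → H} {ψ : ℂ → H'} {Ω : Set ℂ} (hΩ : IsOpen Ω) (hc : IsPreconnected Ω)
    (hs : ∀ t ∈ Ω, conj t ∈ Ω) (h0 : (0 : ℂ) ∈ Ω) (hφ : DifferentiableOn ℂ φ Ω)
    (hψ : DifferentiableOn ℂ ψ Ω) (h : ∀ᶠ t : ℝ in 𝓝 0, ‖φ t‖ = ‖ψ t‖) {t : ℂ} (ht : t ∈ Ω) :
    ⟪φ (conj t), φ t⟫_ℂ = ⟪ψ (conj t), ψ t⟫_ℂ := by
  have d1 : DifferentiableOn ℂ (fun s => ⟪φ (conj s), φ s⟫_ℂ) Ω := fun s hs' =>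
    (differentiableAt_polar ((hφ s hs').differentiableAt (hΩ.mem_nhds hs'))
      ((hφ _ (hs s hs')).differentiableAt (hΩ.mem_nhds (hs s hs')))).differentiableWithinAt
  have d2 : DifferentiableOn ℂ (fun s => ⟪ψ (conj s), ψ s⟫_ℂ) Ω := fun s hs' =>
    (differentiableAt_polar ((hψ s hs').differentiableAt (hΩ.mem_nhds hs'))
      ((hψ _ (hs s hs')).differentiableAt (hΩ.mem_nhds (hs s hs')))).differentiableWithinAt
  have hfr : ∃ᶠ s in 𝓝[≠] (0 : ℂ), ⟪φ (conj s), φ s⟫_ℂ = ⟪ψ (conj s), ψ s⟫_ℂ := by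
    have hT : Tendsto (fun x : ℝ => (x : ℂ)) (𝓝[≠] 0) (𝓝[≠] 0) := by
      refine tendsto_nhdsWithin_of_tendsto_nhds_of_eventually_within _ ?_ ?_
      · have : Tendsto (fun x : ℝ => (x : ℂ)) (𝓝 0) (𝓝 ((0 : ℝ) : ℂ)) :=
          Complex.continuous_ofReal.tendsto 0
        rw [Complex.ofReal_zero] at this
        exact this.mono_left nhdsWithin_le_nhds
      · filter_upwards [self_mem_nhdsWithin] with x hx
        simpa using hx
    refine hT.frequently (Eventually.frequently ?_)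
    filter_upwards [nhdsWithin_le_nhds h] with x hx
    rw [Complex.conj_ofReal, inner_self_eq_norm_sq_to_K, inner_self_eq_norm_sq_to_K, hx]
  exact (d1.analyticOnNhd hΩ).eqOn_of_preconnected_of_frequently_eq (d2.analyticOnNhd hΩ) hc h0
    hfr ht

section ball
variable {E : Type*} [NormedAddCommGroup E] [NormedSpace ℂ E]

/-- the set of parameters `t` with `m + t q ∈ B` and `m + t̄ q ∈ B` -/
def parSet (B : Set E) (m q : E) : Set ℂ := {t | m + t • q ∈ B ∧ m + (conj t) • q ∈ B}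

omit [NormedAddCommGroup H] [InnerProductSpace ℂ H] [NormedAddCommGroup H'] [InnerProductSpace ℂ H'] in
theorem parSet_props {B : Set E} (hB : IsOpen B) (hc : Convex ℝ B) (m q : E) (hm : m ∈ B) :
    IsOpen (parSet B m q) ∧ IsPreconnected (parSet B m q) ∧
      (∀ t ∈ parSet B m q, conj t ∈ parSet B m q) ∧ (0 : ℂ) ∈ parSet B m q := by
  refine ⟨?_, ?_, ?_, ?_⟩
  · refine IsOpen.inter (hB.preimage ?_) (hB.preimage ?_)
    · fun_prop
    · exact continuous_const.add (Complex.continuous_conj.smul continuous_const)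
  · refine Convex.isPreconnected ?_
    intro s hs t ht a b ha hb hab
    refine ⟨?_, ?_⟩
    · have := hc hs.1 ht.1 ha hb hab
      convert this using 1
      have e : m = (a : ℝ) • m + (b : ℝ) • m := by rw [← add_smul, hab, one_smul]
      rw [smul_add, smul_add, add_smul, smul_assoc, smul_assoc]
      nth_rewrite 1 [e]
      abel
    · have := hc hs.2 ht.2 ha hb hab
      convert this using 1
      have e : m = (a : ℝ) • m + (b : ℝ) • m := by rw [← add_smul, hab, one_smul]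
      have e2 : (conj (a • s + b • t) : ℂ) = a • conj s + b • conj t := by
        simp only [map_add, Complex.real_smul, map_mul, Complex.conj_ofReal]
      rw [e2, smul_add, smul_add, add_smul, smul_assoc, smul_assoc]
      nth_rewrite 1 [e]
      abel
  · intro t ht
    exact ⟨ht.2, by rw [Complex.conj_conj]; exact ht.1⟩
  · refine ⟨?_, ?_⟩ <;> simpa using hm

theorem diff_line {B : Set E} (hB : IsOpen B) {f : E → H} (hf : DifferentiableOn ℂ f B) (m q : E) :
    DifferentiableOn ℂ (fun t : ℂ => f (m + t • q)) (parSet B m q) := by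
  intro t ht
  have h1 : DifferentiableAt ℂ f (m + t • q) := (hf _ ht.1).differentiableAt (hB.mem_nhds ht.1)
  have h2 : DifferentiableAt ℂ (fun t : ℂ => m + t • q) t := by fun_prop
  exact (DifferentiableAt.comp t h1 h2).differentiableWithinAt

/-- equality of norms propagates -/
theorem norm_eq_of_eventually {B : Set E} (hB : IsOpen B) (hc : Convex ℝ B) {f : E → H} {g : E → H'}
    (hf : DifferentiableOn ℂ f B) (hg : DifferentiableOn ℂ g B) {c : E} (hcB : c ∈ B)
    (h : ∀ᶠ z in 𝓝 c, ‖f z‖ = ‖g z‖) {z : E} (hz : z ∈ B) : ‖f z‖ = ‖g z‖ := by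
  obtain ⟨p1, p2, p3, p4⟩ := parSet_props hB hc c (z - c) hcB
  have hev : ∀ᶠ t : ℝ in 𝓝 0, ‖f (c + (t : ℂ) • (z - c))‖ = ‖g (c + (t : ℂ) • (z - c))‖ := by
    have hT : Tendsto (fun t : ℝ => c + (t : ℂ) • (z - c)) (𝓝 0) (𝓝 c) := by
      have : Continuous fun t : ℝ => c + (t : ℂ) • (z - c) := by fun_prop
      have h2 := this.tendsto 0
      simpa using h2
    exact hT.eventually h
  have h1 : (1 : ℂ) ∈ parSet B c (z - c) := by
    refine ⟨?_, ?_⟩ <;> simpa using hz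
  have := polar_eq (φ := fun t : ℂ => f (c + t • (z - c))) (ψ := fun t : ℂ => g (c + t • (z - c)))
    p1 p2 p3 p4 (diff_line hB hf c (z - c)) (diff_line hB hg c (z - c)) hev h1
  simp only [map_one, one_smul, add_sub_cancel] at this
  rw [inner_self_eq_norm_sq_to_K, inner_self_eq_norm_sq_to_K] at this
  have h3 : ‖f z‖ ^ 2 = ‖g z‖ ^ 2 := by exact_mod_cast this
  exact (sq_eq_sq₀ (norm_nonneg _) (norm_nonneg _)).1 h3

/-- polarisation -/
theorem inner_eq_of_norm_eq {B : Set E} (hB : IsOpen B) (hc : Convex ℝ B) {f : E → H} {g : E → H'}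
    (hf : DifferentiableOn ℂ f B) (hg : DifferentiableOn ℂ g B)
    (h : ∀ z ∈ B, ‖f z‖ = ‖g z‖) {z w : E} (hz : z ∈ B) (hw : w ∈ B) :
    ⟪f w, f z⟫_ℂ = ⟪g w, g z⟫_ℂ := by
  set m : E := (1 / 2 : ℝ) • z + (1 / 2 : ℝ) • w with hm
  set q : E := (-Complex.I / 2) • (z - w) with hq
  have hmB : m ∈ B := hc hz hw (by norm_num) (by norm_num) (by norm_num)
  obtain ⟨p1, p2, p3, p4⟩ := parSet_props hB hc m q hmB
  have hmc : m = (1 / 2 : ℂ) • z + (1 / 2 : ℂ) • w := by
    rw [hm]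
    have : ∀ x : E, (1 / 2 : ℝ) • x = (1 / 2 : ℂ) • x := by
      intro x
      rw [← Complex.coe_smul]; norm_num
    rw [this, this]
  have e1 : m + Complex.I • q = z := by
    rw [hmc, hq, smul_smul]
    have : Complex.I * (-Complex.I / 2) = 1 / 2 := by
      rw [mul_div_assoc', mul_neg, Complex.I_mul_I]; norm_num
    rw [this, smul_sub]
    have : (1 / 2 : ℂ) • z + (1 / 2 : ℂ) • w + ((1 / 2 : ℂ) • z - (1 / 2 : ℂ) • w) =
      ((1 / 2 : ℂ) + (1 / 2 : ℂ)) • z := by rw [add_smul]; abel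
    rw [this]; norm_num
  have e2 : m + (conj Complex.I) • q = w := by
    rw [hmc, hq, smul_smul, Complex.conj_I]
    have : -Complex.I * (-Complex.I / 2) = -(1 / 2) := by
      rw [mul_div_assoc', neg_mul_neg, Complex.I_mul_I]; norm_num
    rw [this, neg_smul, smul_sub]
    have : (1 / 2 : ℂ) • z + (1 / 2 : ℂ) • w + -((1 / 2 : ℂ) • z - (1 / 2 : ℂ) • w) =
      ((1 / 2 : ℂ) + (1 / 2 : ℂ)) • w := by rw [add_smul]; abel
    rw [this]; norm_num
  have hI : Complex.I ∈ parSet B m q := ⟨by rw [e1]; exact hz, by rw [e2]; exact hw⟩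
  have hev : ∀ᶠ t : ℝ in 𝓝 0, ‖f (m + (t : ℂ) • q)‖ = ‖g (m + (t : ℂ) • q)‖ := by
    have hT : Tendsto (fun t : ℝ => m + (t : ℂ) • q) (𝓝 0) (𝓝 m) := by
      have : Continuous fun t : ℝ => m + (t : ℂ) • q := by fun_prop
      have h2 := this.tendsto 0
      simpa using h2
    filter_upwards [hT.eventually (hB.mem_nhds hmB)] with t ht using h _ ht
  have := polar_eq (φ := fun t : ℂ => f (m + t • q)) (ψ := fun t : ℂ => g (m + t • q))
    p1 p2 p3 p4 (diff_line hB hf m q) (diff_line hB hg m q) hev hI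
  simp only [e1, e2] at this
  exact this

/-- Calabi rigidity, in terms of linear functionals. -/
theorem calabi [CompleteSpace H'] {B : Set E} (hB : IsOpen B) (hc : Convex ℝ B) {f : E → H}
    {g : E → H'} (hf : DifferentiableOn ℂ f B) (hg : DifferentiableOn ℂ g B)
    (h : ∀ z ∈ B, ‖f z‖ = ‖g z‖) (l : H) :
    ∃ l' : H', ‖l'‖ ≤ ‖l‖ ∧ ∀ z ∈ B, ⟪l, f z⟫_ℂ = ⟪l', g z⟫_ℂ := by
  classical
  set Tf : (B →₀ ℂ) →ₗ[ℂ] H := Finsupp.linearCombination ℂ fun z : B => f z with hTf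
  set Tg : (B →₀ ℂ) →ₗ[ℂ] H' := Finsupp.linearCombination ℂ fun z : B => g z with hTg
  have hin : ∀ a b : B →₀ ℂ, ⟪Tf a, Tf b⟫_ℂ = ⟪Tg a, Tg b⟫_ℂ := by
    intro a b
    simp only [hTf, hTg, Finsupp.linearCombination_apply, Finsupp.sum, sum_inner, inner_sum,
      inner_smul_left, inner_smul_right]
    refine Finset.sum_congr rfl fun i _ => congrArg (b i * ·) (Finset.sum_congr rfl fun j _ => ?_)
    rw [inner_eq_of_norm_eq hB hc hf hg h i.2 j.2]
  have hno : ∀ a : B →₀ ℂ, ‖Tf a‖ = ‖Tg a‖ := by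
    intro a
    have := hin a a
    rw [inner_self_eq_norm_sq_to_K, inner_self_eq_norm_sq_to_K] at this
    have h3 : ‖Tf a‖ ^ 2 = ‖Tg a‖ ^ 2 := by exact_mod_cast this
    exact (sq_eq_sq₀ (norm_nonneg _) (norm_nonneg _)).1 h3
  obtain ⟨u, hu⟩ := Tg.rangeRestrict.exists_rightInverse_of_surjective Tg.range_rangeRestrict
  have hu' : ∀ y : LinearMap.range Tg, Tg (u y) = y := by
    intro y
    have := LinearMap.congr_fun hu y
    exact congrArg Subtype.val this
  set lam : LinearMap.range Tg →ₗ[ℂ] ℂ := (innerSL ℂ l).toLinearMap ∘ₗ Tf ∘ₗ u with hlam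
  have hb : ∀ y, ‖lam y‖ ≤ ‖l‖ * ‖y‖ := by
    intro y
    have h1 : lam y = ⟪l, Tf (u y)⟫_ℂ := rfl
    rw [h1]
    refine (norm_inner_le_norm _ _).trans (mul_le_mul_of_nonneg_left ?_ (norm_nonneg _))
    rw [hno, hu' y]; exact le_rfl
  set lamc : LinearMap.range Tg →L[ℂ] ℂ := lam.mkContinuous ‖l‖ hb with hlamc
  obtain ⟨L, hL1, hL2⟩ := exists_extension_norm_eq (LinearMap.range Tg) lamc
  refine ⟨(InnerProductSpace.toDual ℂ H').symm L, ?_, ?_⟩
  · rw [LinearIsometryEquiv.norm_map, hL2]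
    exact lam.mkContinuous_norm_le (norm_nonneg _) hb
  · intro z hz
    rw [InnerProductSpace.toDual_symm_apply]
    have e1 : g z = Tg (Finsupp.single ⟨z, hz⟩ 1) := by simp [hTg]
    have e2 : f z = Tf (Finsupp.single ⟨z, hz⟩ 1) := by simp [hTf]
    have e3 := hL1 ⟨Tg (Finsupp.single ⟨z, hz⟩ 1), LinearMap.mem_range_self _ _⟩
    rw [e1]
    refine Eq.trans ?_ e3.symm
    show _ = ⟪l, Tf (u _)⟫_ℂ
    have h4 : Tf (u ⟨Tg (Finsupp.single ⟨z, hz⟩ 1), LinearMap.mem_range_self _ _⟩) =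
        Tf (Finsupp.single ⟨z, hz⟩ 1) := by
      rw [← sub_eq_zero, ← map_sub, ← norm_eq_zero, hno, map_sub, hu', sub_self, norm_zero]
    rw [h4, e2]

end ball

end Vale.Agent.P284.H812
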