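import Vale.Agent.P284.H812.Imm2
import Vale.Agent.P284.H619.NS0S
import Mathlib.Analysis.Normed.Module.HahnBanach
import Mathlib.Analysis.Calculus.InverseFunctionTheorem.FDeriv
import Mathlib.Analysis.Calculus.InverseFunctionTheorem.Analytic

/-!
# P284 (helper812): the local immersion theorem `ImmStmt`
-/

open scoped InnerProductSpace Topology
open Filter Set Metric

noncomputable section

namespace Vale.Agent.P284.H812.Imm

open Vale.Agent.P284.H619 Vale.Agent.P284.H573

section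
variable {H : Type*} [NormedAddCommGroup H] [InnerProductSpace ℂ H] (S : TH H) {r : ℕ}

/-- vectors dual to an injective map from a finite dimensional space -/
theorem exists_dual [CompleteSpace H] {R : ℕ} (L : (Fin R → ℂ) →L[ℂ] H)
    (hL : Function.Injective L) :
    ∃ f : Fin R → H, ∀ a b, ⟪f a, L (ee R b)⟫_ℂ = if a = b then 1 else 0 := by
  have hL' : Function.Injective (L : (Fin R → ℂ) →ₗ[ℂ] H) := hL
  set e := LinearEquiv.ofInjective (L : (Fin R → ℂ) →ₗ[ℂ] H) hL' with he
  have hfd : FiniteDimensional ℂ (LinearMap.range (L : (Fin R → ℂ) →ₗ[ℂ] H)) := inferInstance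
  have h1 : ∀ a : Fin R, ∃ g : H →L[ℂ] ℂ, ∀ b, g (L (ee R b)) = if a = b then 1 else 0 := by
    intro a
    obtain ⟨g, hg, -⟩ := exists_extension_norm_eq (LinearMap.range (L : (Fin R → ℂ) →ₗ[ℂ] H))
      (LinearMap.toContinuousLinearMap ((LinearMap.proj a).comp
        (e.symm : LinearMap.range (L : (Fin R → ℂ) →ₗ[ℂ] H) →ₗ[ℂ] (Fin R → ℂ))))
    refine ⟨g, fun b => ?_⟩
    have h2 := hg ⟨L (ee R b), ⟨ee R b, rfl⟩⟩
    have h3 : e (ee R b) = ⟨L (ee R b), ⟨ee R b, rfl⟩⟩ := rfl
    rw [show g (L (ee R b)) = g ((⟨L (ee R b), ⟨ee R b, rfl⟩⟩ :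
      LinearMap.range (L : (Fin R → ℂ) →ₗ[ℂ] H)) : H) from rfl, h2, ← h3]
    simp [ee, Pi.single_apply]
  choose g hg using h1
  refine ⟨fun a => (InnerProductSpace.toDual ℂ H).symm (g a), fun a b => ?_⟩
  rw [InnerProductSpace.toDual_symm_apply, hg]

variable {F Ft : (Fin (r + 1) → ℂ) → H} {y : (Fin (r + 1) → ℂ) → (Fin (r + 1) → ℂ)}
  {z₀ : Fin (r + 1) → ℂ}

/-- the matrix of the derivative of a change of coordinates -/
def Am (y : (Fin (r + 1) → ℂ) → (Fin (r + 1) → ℂ)) (z : Fin (r + 1) → ℂ) :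
    Matrix (Fin (r + 1)) (Fin (r + 1)) ℂ :=
  Matrix.of fun i j => fderiv ℂ y z (ee (r + 1) i) j

theorem Am_spec (z : Fin (r + 1) → ℂ) (i : Fin (r + 1)) :
    fderiv ℂ y z (ee (r + 1) i) = ∑ j, Am y z i j • ee (r + 1) j := by
  ext l
  simp [Am, ee, Finset.sum_apply, Pi.single_apply]

/-- naturality of the sections `G k` under a change of coordinates -/
theorem Gk_natural [CompleteSpace H] (hy : AnalyticAt ℂ y z₀) (hFt : AnalyticAt ℂ Ft (y z₀))
    (hF : F =ᶠ[𝓝 z₀] fun z => Ft (y z)) (k : ℕ) :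
    ∀ᶠ z in 𝓝 z₀, Gk S F k z = (Am y z).det ^ mu k • Gk S Ft k (y z) := by
  -- good points
  have hg : ∀ᶠ z in 𝓝 z₀, AnalyticAt ℂ y z ∧ AnalyticAt ℂ Ft (y z) ∧
      fderiv ℂ F z = (fderiv ℂ Ft (y z)).comp (fderiv ℂ y z) := by
    filter_upwards [hy.eventually_analyticAt,
      hy.continuousAt.eventually hFt.eventually_analyticAt, hF.fderiv (𝕜 := ℂ)] with z h1 h2 h3
    refine ⟨h1, h2, ?_⟩
    rw [h3]
    exact fderiv_comp z (g := Ft) h2.differentiableAt h1.differentiableAt
  have hs0 : ∀ᶠ z in 𝓝 z₀, S.s0 (fun y => fderiv ℂ F y) z (ee (r + 1)) =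
      (Am y z).det • S.s0 (fun y => fderiv ℂ Ft y) (y z) (ee (r + 1)) := by
    filter_upwards [hg] with z hz
    rw [← S.s0_mul, s0_eq, s0_eq]
    refine Finset.sum_congr rfl fun σ _ => ?_
    congr 2
    funext i
    rw [hz.2.2, ← Am_spec]
    rfl
  induction k with
  | zero =>
    filter_upwards [hs0] with z hz
    simpa [Gk, TH.G, mu] using hz
  | succ k ih =>
    filter_upwards [hg, hs0, ih.eventually_nhds] with z hz hz0 hzk
    have hk := hzk.self_of_nhds
    set J := (Am y z).det with hJ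
    -- derivative of `G k`
    have hJa : AnalyticAt ℂ (fun z => (Am y z).det ^ mu k) z := by
      have h1 : AnalyticAt ℂ (fun z => (Am y z).det) z := by
        simp only [Matrix.det_apply]
        refine Finset.analyticAt_fun_sum _ fun σ _ => ?_
        have h2 : AnalyticAt ℂ (fun z => ∏ i, Am y z (σ i) i) z := by
          refine Finset.analyticAt_fun_prod _ fun i _ => ?_
          have h3 := an_app hz.1.fderiv (ee (r + 1) (σ i))
          exact ((ContinuousLinearMap.proj (R := ℂ) (φ := fun _ : Fin (r + 1) => ℂ) i).analyticAt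
            _).comp h3
        simp only [Units.smul_def, zsmul_eq_mul]
        exact analyticAt_const.mul h2
      exact h1.pow _
    have hGa : AnalyticAt ℂ (fun z' => Gk S Ft k z') (y z) :=
      G_an S hz.2.1.fderiv k (ee (r + 1))
    have hder : ∀ ξ, fderiv ℂ (fun z => Gk S F k z) z ξ =
        J ^ mu k • fderiv ℂ (fun z' => Gk S Ft k z') (y z) (fderiv ℂ y z ξ) +
          (fderiv ℂ (fun z => (Am y z).det ^ mu k) z ξ) • Gk S Ft k (y z) := by
      intro ξ
      have h1 : (fun z => Gk S F k z) =ᶠ[𝓝 z]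
          fun z => (Am y z).det ^ mu k • Gk S Ft k (y z) := hzk
      have h2 : HasFDerivAt (fun z => Gk S Ft k (y z))
          ((fderiv ℂ (fun z' => Gk S Ft k z') (y z)).comp (fderiv ℂ y z)) z :=
        hGa.differentiableAt.hasFDerivAt.comp z hz.1.differentiableAt.hasFDerivAt
      have h3 := (hJa.differentiableAt.hasFDerivAt.smul h2).fderiv
      have h4 : fderiv ℂ (fun z => (Am y z).det ^ mu k • Gk S Ft k (y z)) z = _ := h3
      rw [h1.fderiv_eq, h4]
      simp [hJ]
    have hal : ∀ ξ, S.al (S.G (fun y => fderiv ℂ F y) k) z (ee (r + 1)) ξ =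
        J ^ (2 * mu k) • S.al (S.G (fun y => fderiv ℂ Ft y) k) (y z) (ee (r + 1))
          (fderiv ℂ y z ξ) := by
      intro ξ
      rw [S.al_apply, S.al_apply]
      show S.T (Gk S F k z) (fderiv ℂ (fun z => Gk S F k z) z ξ) -
          S.T (fderiv ℂ (fun z => Gk S F k z) z ξ) (Gk S F k z) =
        J ^ (2 * mu k) • (S.T (Gk S Ft k (y z)) (fderiv ℂ (fun z => Gk S Ft k z) (y z)
          (fderiv ℂ y z ξ)) - S.T (fderiv ℂ (fun z => Gk S Ft k z) (y z)
          (fderiv ℂ y z ξ)) (Gk S Ft k (y z)))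
      rw [hder, hk, two_mul, pow_add]
      simp only [map_add, map_smul, _root_.smul_apply, _root_.add_apply, smul_sub, smul_smul,
        smul_add]
      rw [mul_comm (fderiv ℂ (fun z => (Am y z).det ^ mu k) z ξ)]
      abel
    have hdv : S.dv (fun y => fderiv ℂ F y) (S.G (fun y => fderiv ℂ F y) k) z (ee (r + 1)) =
        J ^ (2 * mu k + 1) • S.dv (fun y => fderiv ℂ Ft y) (S.G (fun y => fderiv ℂ Ft y) k) (y z)
          (ee (r + 1)) := by
      have h1 : S.dv (fun y => fderiv ℂ F y) (S.G (fun y => fderiv ℂ F y) k) z (ee (r + 1)) =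
          J ^ (2 * mu k) • S.wdg (Fin.cons (S.al (S.G (fun y => fderiv ℂ Ft y) k) (y z)
            (ee (r + 1)) : (Fin (r + 1) → ℂ) →ₗ[ℂ] H)
            (fun _ => (fderiv ℂ Ft (y z) : (Fin (r + 1) → ℂ) →ₗ[ℂ] H)))
            (fun i => ∑ j, Am y z i j • ee (r + 1) j) := by
        rw [dv_eq, S.wdg_apply, Finset.smul_sum]
        refine Finset.sum_congr rfl fun σ _ => ?_
        rw [smul_comm (J ^ (2 * mu k)), S.tp_succ]
        congr 1
        simp only [Fin.cons_zero, ← Am_spec, hal, map_smul, _root_.smul_apply]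
        congr 2
        congr 1
        funext i
        rw [hz.2.2]
        rfl
      rw [h1, alt_mul, smul_smul, ← pow_succ]
      rfl
    rw [Gk_succ, Gk_succ, hdv, hz0, hk, mu, smul_add]
    simp only [map_smul, _root_.smul_apply, smul_smul]
    congr 2
    ring

end

/-- **Local immersion theorem.** -/
theorem immStmt : ImmStmt := by
  intro H _ _ _ S r F z₀ hF hinj hc
  obtain ⟨f, hf⟩ := exists_dual (fderiv ℂ F z₀) hinj
  -- the coordinates
  set y : (Fin (r + 1) → ℂ) → (Fin (r + 1) → ℂ) := fun z a => ⟪f a, F z⟫_ℂ with hy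
  have hya : AnalyticAt ℂ y z₀ := by
    rw [analyticAt_pi_iff]
    exact fun a => ((innerSL ℂ (f a)).analyticAt _).comp hF
  have hyd : fderiv ℂ y z₀ =
      ((ContinuousLinearEquiv.refl ℂ (Fin (r + 1) → ℂ)) : (Fin (r + 1) → ℂ) →L[ℂ] _) := by
    have h1 : ∀ a ξ, fderiv ℂ y z₀ ξ a = ⟪f a, fderiv ℂ F z₀ ξ⟫_ℂ := by
      intro a ξ
      have h2 : HasFDerivAt y (ContinuousLinearMap.pi fun a =>
          (innerSL ℂ (f a)).comp (fderiv ℂ F z₀)) z₀ := by
        rw [hasFDerivAt_pi]
        exact fun a => (innerSL ℂ (f a)).hasFDerivAt.comp z₀ hF.differentiableAt.hasFDerivAt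
      rw [h2.fderiv]; rfl
    refine ContinuousLinearMap.ext fun η => funext fun a => ?_
    rw [h1]
    have h2 : fderiv ℂ F z₀ η = ∑ b, η b • fderiv ℂ F z₀ (ee (r + 1) b) := by
      conv_lhs => rw [show η = ∑ b, η b • ee (r + 1) b from by
        ext i; simp [ee, Finset.sum_apply, Pi.single_apply]]
      rw [map_sum]; simp
    rw [h2, inner_sum]
    simp only [inner_smul_right, hf]
    simp
  have hys : HasStrictFDerivAt y ((ContinuousLinearEquiv.refl ℂ (Fin (r + 1) → ℂ)) :
      (Fin (r + 1) → ℂ) →L[ℂ] (Fin (r + 1) → ℂ)) z₀ := by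
    rw [← hyd]; exact hya.hasStrictFDerivAt
  set e := hys.toOpenPartialHomeomorph y with he
  have hsrc : z₀ ∈ e.source := hys.mem_toOpenPartialHomeomorph_source
  have hecoe : (e : (Fin (r + 1) → ℂ) → (Fin (r + 1) → ℂ)) = y :=
    hys.toOpenPartialHomeomorph_coe
  set g : (Fin (r + 1) → ℂ) → (Fin (r + 1) → ℂ) := ⇑e.symm with hg
  have hga : AnalyticAt ℂ g (y z₀) := by
    have := e.analyticAt_symm' (i := ContinuousLinearEquiv.refl ℂ (Fin (r + 1) → ℂ)) hsrc
      (by rw [hecoe]; exact hya) (by rw [hecoe]; exact hyd)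
    rwa [hecoe] at this
  have hleft : ∀ᶠ z in 𝓝 z₀, g (y z) = z := by
    filter_upwards [e.open_source.mem_nhds hsrc] with z hz
    rw [← hecoe]; exact e.left_inv hz
  have hright : ∀ᶠ x in 𝓝 (y z₀), y (g x) = x := by
    have ht : y z₀ ∈ e.target := by rw [← hecoe]; exact e.map_source hsrc
    filter_upwards [e.open_target.mem_nhds ht] with x hx
    rw [← hecoe]; exact e.right_inv hx
  have hgz : g (y z₀) = z₀ := hleft.self_of_nhds
  set Ft : (Fin (r + 1) → ℂ) → H := fun x => F (g x) with hFt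
  have hFta : AnalyticAt ℂ Ft (y z₀) := by
    have : AnalyticAt ℂ F (g (y z₀)) := by rw [hgz]; exact hF
    exact this.comp hga
  have hFe : F =ᶠ[𝓝 z₀] fun z => Ft (y z) := by
    filter_upwards [hleft] with z hz
    rw [hFt]; simp only [hz]
  have hnrm : Nrm Ft (y z₀) f := by
    filter_upwards [hright.eventually_nhds, hFta.eventually_analyticAt] with x hx hxa a b
    have h1 : HasFDerivAt (fun x => ⟪f a, Ft x⟫_ℂ) ((innerSL ℂ (f a)).comp (fderiv ℂ Ft x)) x :=
      (innerSL ℂ (f a)).hasFDerivAt.comp x hxa.differentiableAt.hasFDerivAt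
    have h2 : (fun x => ⟪f a, Ft x⟫_ℂ) =ᶠ[𝓝 x] fun x => x a := by
      filter_upwards [hx] with x' hx'
      exact congrFun hx' a
    have h3 : HasFDerivAt (fun x : Fin (r + 1) → ℂ => x a)
        (ContinuousLinearMap.proj (R := ℂ) (φ := fun _ : Fin (r + 1) => ℂ) a) x :=
      (ContinuousLinearMap.proj (R := ℂ) (φ := fun _ : Fin (r + 1) => ℂ) a).hasFDerivAt
    have h4 := h1.unique (h3.congr_of_eventuallyEq h2)
    have h5 := congrArg (fun L => L (ee (r + 1) b)) h4
    simp only [ContinuousLinearMap.coe_comp', Function.comp_apply,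
      ContinuousLinearMap.proj_apply, ee, Pi.single_apply, innerSL_apply_apply] at h5
    exact h5
  have hinjt : Function.Injective (fderiv ℂ Ft (y z₀)) := by
    refine (injective_iff_map_eq_zero _).2 fun η hη => ?_
    ext a
    have h1 : fderiv ℂ Ft (y z₀) η = ∑ b, η b • fderiv ℂ Ft (y z₀) (ee (r + 1) b) := by
      conv_lhs => rw [show η = ∑ b, η b • ee (r + 1) b from by
        ext i; simp [ee, Finset.sum_apply, Pi.single_apply]]
      rw [map_sum]; simp
    have h2 : ⟪f a, fderiv ℂ Ft (y z₀) η⟫_ℂ = η a := by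
      rw [h1, inner_sum]
      simp only [inner_smul_right, hnrm.self_of_nhds a]
      simp
    rw [← h2, hη, inner_zero_right]; rfl
  have hct : ∀ c : H, (∀ᶠ x in 𝓝 (y z₀), ∃ ξ, fderiv ℂ Ft x ξ = c) → c = 0 := by
    intro c hcx
    refine hc c ?_
    filter_upwards [hya.continuousAt.eventually hcx, hleft,
      hya.continuousAt.eventually hga.eventually_analyticAt, hF.eventually_analyticAt]
      with z ⟨ξ, hξ⟩ h2 h3 h4
    refine ⟨fderiv ℂ g (y z) ξ, ?_⟩
    have h5 : fderiv ℂ Ft (y z) = (fderiv ℂ F (g (y z))).comp (fderiv ℂ g (y z)) :=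
      fderiv_comp (y z) (g := F) (by rw [h2]; exact h4.differentiableAt) h3.differentiableAt
    rw [← hξ, h5, h2]; rfl
  obtain ⟨k, hk0, hk⟩ := imm_norm S hFta hinjt hnrm hct
  refine ⟨k, ?_⟩
  have hnat := Gk_natural S hya hFta hFe k
  have hJ1 : (Am y z₀).det = 1 := by
    have : Am y z₀ = 1 := by
      ext i j
      rw [Am, Matrix.of_apply, hyd, Matrix.one_apply]
      simp [ee, Pi.single_apply, eq_comm]
    rw [this, Matrix.det_one]
  have hval : Gk S F k z₀ = Gk S Ft k (y z₀) := by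
    rw [hnat.self_of_nhds, hJ1, one_pow, one_smul]
  have hGa : AnalyticAt ℂ (fun z' => Gk S Ft k z') (y z₀) := G_an S hFta.fderiv k (ee (r + 1))
  have hJa : AnalyticAt ℂ (fun z => (Am y z).det ^ mu k) z₀ := by
    have h1 : AnalyticAt ℂ (fun z => (Am y z).det) z₀ := by
      simp only [Matrix.det_apply]
      refine Finset.analyticAt_fun_sum _ fun σ _ => ?_
      have h2 : AnalyticAt ℂ (fun z => ∏ i, Am y z (σ i) i) z₀ := by
        refine Finset.analyticAt_fun_prod _ fun i _ => ?_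
        have h3 := an_app hya.fderiv (ee (r + 1) (σ i))
        exact ((ContinuousLinearMap.proj (R := ℂ) (φ := fun _ : Fin (r + 1) => ℂ) i).analyticAt
          _).comp h3
      simp only [Units.smul_def, zsmul_eq_mul]
      exact analyticAt_const.mul h2
    exact h1.pow _
  refine ⟨?_, fun η c hη => ?_⟩
  · show Gk S F k z₀ ≠ 0
    rw [hval]; exact hk0
  · have hη' : fderiv ℂ (fun z => Gk S F k z) z₀ η = c • Gk S F k z₀ := hη
    have h1 : (fun z => Gk S F k z) =ᶠ[𝓝 z₀]
        fun z => (Am y z).det ^ mu k • Gk S Ft k (y z) := hnat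
    have h2 : HasFDerivAt (fun z => Gk S Ft k (y z))
        ((fderiv ℂ (fun z' => Gk S Ft k z') (y z₀)).comp (fderiv ℂ y z₀)) z₀ :=
      hGa.differentiableAt.hasFDerivAt.comp z₀ hya.differentiableAt.hasFDerivAt
    have h3 := (hJa.differentiableAt.hasFDerivAt.smul h2).fderiv
    have h4 : fderiv ℂ (fun z => (Am y z).det ^ mu k • Gk S Ft k (y z)) z₀ = _ := h3
    rw [h1.fderiv_eq, h4, hyd] at hη'
    refine hk η (c - fderiv ℂ (fun z => (Am y z).det ^ mu k) z₀ η) ?_
    rw [sub_smul, ← hval, ← hη', hval]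
    simp [hJ1]

end Vale.Agent.P284.H812.Imm
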