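import Vale.Agent.P272.KOD.Defs

/-!
# P284 (helper812): Keller–Osserman with branches, definitions and statement

`N` is a (singular) weight on `K_Z^m` which is locally the squared norm of a Hilbert space valued
holomorphic function.  A *branch* at `ζ ∈ ℂⁿ` of an entire Hilbert space valued function `V` is a
holomorphic germ `q : (ℂⁿ, ζ) → Z` with `|q^* Γ_Z|² = |V|²`; it is written `q = e.symm ∘ f` in a chart
`e` of `Z`.  No unitary operators, no group and no discreteness appear.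
-/

open scoped Manifold ContDiff Topology ComplexOrder
open Filter

noncomputable section

namespace Vale.Agent.P284.H812

open Vale.Agent.P272.K Vale.Agent.P272.KOD

/-- `N` is a weight on the `m`-th power of the canonical bundle of `Z` which is locally the squared
norm of a holomorphic function with values in the Hilbert space `H`. -/
structure HMet (n m : ℕ) (Z : Type*) [TopologicalSpace Z] [ChartedSpace (Cm n) Z] (H : Type*)
    [NormedAddCommGroup H] [InnerProductSpace ℂ H] (N : Chart n Z → Cm n → ℝ) : Prop where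
  loc : ∀ e x, At e x → ∃ v : Cm n → H, AnalyticAt ℂ v (e x) ∧ ∀ᶠ z in 𝓝 (e x), N e z = ‖v z‖ ^ 2
  change : ∀ e e' x, At e x → At e' x →
    N e (e x) = N e' (e' x) * (‖(jacM e e' x).det‖ ^ 2) ^ m

/-- Where `N ≠ 0`, the projectivised local map `[v]` is an immersion. -/
def HImm (n : ℕ) (Z : Type*) [TopologicalSpace Z] [ChartedSpace (Cm n) Z] (H : Type*)
    [NormedAddCommGroup H] [InnerProductSpace ℂ H] (N : Chart n Z → Cm n → ℝ) : Prop :=
  ∀ e x, At e x → N e (e x) ≠ 0 → ∃ v : Cm n → H, AnalyticAt ℂ v (e x) ∧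
    (∀ᶠ z in 𝓝 (e x), N e z = ‖v z‖ ^ 2) ∧
    ∀ (ξ : Cm n) (c : ℂ), fderiv ℂ v (e x) ξ = c • v (e x) → ξ = 0

/-- `e.symm ∘ f` is a branch at `ζ`: `f` is a holomorphic germ at `ζ` with values in the target of
the chart `e` and `N(f) |det f'|^{2m} = ‖V‖²` near `ζ`. -/
structure IsBranch {n : ℕ} (m : ℕ) {Z : Type*} [TopologicalSpace Z] [ChartedSpace (Cm n) Z]
    {H' : Type*} [NormedAddCommGroup H'] (N : Chart n Z → Cm n → ℝ) (V : Cm n → H')
    (ζ : Cm n) (e : Chart n Z) (f : Cm n → Cm n) : Prop where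
  mem : e ∈ atlas (Cm n) Z
  tgt : f ζ ∈ e.target
  an : AnalyticAt ℂ f ζ
  eq : ∀ᶠ z in 𝓝 ζ, N e (f z) * (‖(fderiv ℂ f z).det‖ ^ 2) ^ m = ‖V z‖ ^ 2

/-- The Keller–Osserman theorem: under the bound `T^m ≤ C ρ^(M+2)`, where
`T = |τ|² e^{-M w}`, `ρ = N e^{-m w}` (the output of the Kodaira lemma), an entire function `V` has
no branch at a point where `V ≠ 0`. -/
def KOStmt : Prop :=
  ∀ (n m M : ℕ) (_ : 1 ≤ n) (_ : 1 ≤ m) (Z : Type) [TopologicalSpace Z] [T2Space Z]
    [CompactSpace Z] [ConnectedSpace Z] [ChartedSpace (Cm n) Z] [IsManifold 𝓘(ℂ, Cm n) ω Z]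
    (w : Chart n Z → Cm n → ℝ) (_ : IsCanonicalMetric w)
    (_ : ∀ e x, At e x → (cHess (w e) (e x)).PosDef)
    (τ : PSec n M Z) (_ : ∃ e x, At e x ∧ τ.coeff e (e x) ≠ 0)
    (H : Type) [NormedAddCommGroup H] [InnerProductSpace ℂ H] [CompleteSpace H]
    (N : Chart n Z → Cm n → ℝ) (_ : HMet n m Z H N) (_ : HImm n Z H N) (C : ℝ)
    (_ : ∀ e x, At e x → (‖τ.coeff e (e x)‖ ^ 2 * Real.exp (-(M : ℝ) * w e (e x))) ^ m ≤
      C * (N e (e x) * Real.exp (-(m : ℝ) * w e (e x))) ^ (M + 2))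
    (H' : Type) [NormedAddCommGroup H'] [InnerProductSpace ℂ H'] [CompleteSpace H']
    (V : Cm n → H') (_ : Differentiable ℂ V)
    (ζ : Cm n) (e : Chart n Z) (f : Cm n → Cm n) (_ : IsBranch m N V ζ e f) (_ : V ζ ≠ 0), False

end Vale.Agent.P284.H812
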