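import Vale.Agent.P284.H812.Br

/-!
# P284 (helper812): uniform extension of branches, global form
-/

open scoped Manifold Topology ComplexConjugate InnerProductSpace ContDiff
open Filter Set Metric

noncomputable section

namespace Vale.Agent.P284.H812

open Vale.Agent.P272.K Vale.Agent.P272.KOD

section
variable {n m : ℕ} {Z : Type*} [TopologicalSpace Z] [ChartedSpace (Cm n) Z]
  {H : Type*} [NormedAddCommGroup H] [InnerProductSpace ℂ H] {N : Chart n Z → Cm n → ℝ}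
  {w : Chart n Z → Cm n → ℝ}

/-- the invariant ratio `N e^{-m w}` -/
def ratio (m : ℕ) (N w : Chart n Z → Cm n → ℝ) (x : Z) : ℝ :=
  N (chartAt (Cm n) x) (chartAt (Cm n) x x) * Real.exp (-(m : ℝ) * w (chartAt (Cm n) x)
    (chartAt (Cm n) x x))

theorem at_chartAt (x : Z) : At (chartAt (Cm n) x) x := ⟨chart_mem_atlas _ x, mem_chart_source _ x⟩

theorem ratio_eq [IsManifold 𝓘(ℂ, Cm n) ω Z]
    (hN : ∀ e e' x, At e x → At e' x → N e (e x) = N e' (e' x) * (‖(jacM e e' x).det‖ ^ 2) ^ m)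
    (hw : IsCanonicalMetric w) {e : Chart n Z} {x : Z} (h : At e x) :
    ratio m N w x = N e (e x) * Real.exp (-(m : ℝ) * w e (e x)) := by
  have h' : At (chartAt (Cm n) x) x := at_chartAt x
  have hd := jacM_det_ne_zero h h'
  rw [ratio, hN e _ x h h', hw.change e _ x h h', mul_add, Real.exp_add]
  have : Real.exp (-(m : ℝ) * Real.log (‖(jacM e (chartAt (Cm n) x) x).det‖ ^ 2)) =
      ((‖(jacM e (chartAt (Cm n) x) x).det‖ ^ 2) ^ m)⁻¹ := by
    rw [neg_mul, Real.exp_neg, mul_comm, Real.exp_mul, Real.exp_log (by positivity)]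
    norm_cast
  rw [this]
  have h0 : (‖(jacM e (chartAt (Cm n) x) x).det‖ ^ 2) ^ m ≠ 0 := by positivity
  field_simp

theorem HMet.continuousAt (hN : HMet n m Z H N) {e : Chart n Z} {x : Z} (h : At e x) :
    ContinuousAt (N e) (e x) := by
  obtain ⟨v, hv, hv2⟩ := hN.loc e x h
  exact (hv.continuousAt.norm.pow 2).congr (by filter_upwards [hv2] with z hz using hz.symm)

theorem HMet.nonneg (hN : HMet n m Z H N) {e : Chart n Z} {x : Z} (h : At e x) :
    0 ≤ N e (e x) := by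
  obtain ⟨v, -, hv2⟩ := hN.loc e x h
  rw [hv2.self_of_nhds]; positivity

theorem continuous_ratio [IsManifold 𝓘(ℂ, Cm n) ω Z] (hN : HMet n m Z H N)
    (hw : IsCanonicalMetric w) : Continuous (ratio m N w) := by
  rw [continuous_iff_continuousAt]
  intro x
  have h : At (chartAt (Cm n) x) x := at_chartAt x
  have h1 : ContinuousAt (fun y => N (chartAt (Cm n) x) (chartAt (Cm n) x y) *
      Real.exp (-(m : ℝ) * w (chartAt (Cm n) x) (chartAt (Cm n) x y))) x := by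
    have hc : ContinuousAt (chartAt (Cm n) x) x := (chartAt (Cm n) x).continuousAt h.2
    refine ContinuousAt.mul (ContinuousAt.comp (hN.continuousAt h) hc) ?_
    refine Real.continuous_exp.continuousAt.comp (continuousAt_const.mul ?_)
    exact ContinuousAt.comp (hw.smooth _ x h).continuousAt hc
  refine h1.congr ?_
  filter_upwards [(chartAt (Cm n) x).open_source.mem_nhds h.2] with y hy
  exact (ratio_eq hN.change hw ⟨h.1, hy⟩).symm

variable (m N) in
/-- local extension property at `x` -/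
def LExt (H' : Type*) [NormedAddCommGroup H'] [NormedSpace ℂ H'] (x : Z) (r κ : ℝ) : Prop :=
  0 < r ∧ 0 < κ ∧ ∀ (V : Cm n → H') (ζ : Cm n) (s : ℝ) (f : Cm n → Cm n), 0 < s →
    DifferentiableOn ℂ V (ball ζ s) → IsBranch m N V ζ (chartAt (Cm n) x) f →
    f ζ ∈ ball (chartAt (Cm n) x x) r → V ζ ≠ 0 →
    (∀ z ∈ ball ζ s, ‖V z - V ζ‖ ≤ κ * ‖V ζ‖) →
    ∃ F : Cm n → Cm n, DifferentiableOn ℂ F (ball ζ s) ∧
      (∀ z ∈ ball ζ s, IsBranch m N V z (chartAt (Cm n) x) F) ∧ F =ᶠ[𝓝 ζ] f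

theorem exists_lExt [CompleteSpace H] (hI : HImm n Z H N) (H' : Type*) [NormedAddCommGroup H']
    [InnerProductSpace ℂ H'] [CompleteSpace H'] (x : Z)
    (hx : N (chartAt (Cm n) x) (chartAt (Cm n) x x) ≠ 0) :
    ∃ r κ, LExt m N H' x r κ := by
  set e := chartAt (Cm n) x with he
  have h : At e x := at_chartAt x
  obtain ⟨v, hv, hv2, him⟩ := hI e x h hx
  obtain ⟨ρ₂, hρ₂, hρ₂2⟩ := Metric.eventually_nhds_iff_ball.1
    ((hv.eventually_analyticAt.and hv2).and h.nhds_target)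
  have h0 : v (e x) ≠ 0 := by
    intro h0
    apply hx
    rw [hv2.self_of_nhds, h0]; simp
  obtain ⟨r, κ, hr, hrρ, hκ, hext⟩ := ext_patch m hρ₂ (fun y hy => (hρ₂2 y hy).1.1) h0 him H'
  refine ⟨r, κ, hr, hκ, ?_⟩
  intro V ζ s f hs hV hb hfζ hVζ hκV
  have hev : ∀ᶠ z in 𝓝 ζ, ‖v (f z)‖ ^ 2 * (‖(fderiv ℂ f z).det‖ ^ 2) ^ m = ‖V z‖ ^ 2 := by
    have h1 : ∀ᶠ z in 𝓝 ζ, f z ∈ ball (e x) ρ₂ := hb.an.continuousAt.eventually
      (isOpen_ball.mem_nhds (ball_subset_ball hrρ hfζ))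
    filter_upwards [hb.eq, h1] with z hz hz2
    rw [← hz, (hρ₂2 _ hz2).1.2]
  obtain ⟨F, hF1, hF2, hF3, hF4⟩ := hext V ζ s f hs hV hb.an hfζ hev hVζ hκV
  refine ⟨F, hF1, fun z hz => ⟨h.1, (hρ₂2 _ (hF3 hz)).2, analyticAt_of_diffOn isOpen_ball hF1 hz,
    ?_⟩, hF2⟩
  filter_upwards [isOpen_ball.mem_nhds hz] with y hy
  rw [(hρ₂2 _ (hF3 hy)).1.2, hF4 y hy]

/-- Uniform extension of branches, global form. -/
theorem ext_global [CompleteSpace H] [IsManifold 𝓘(ℂ, Cm n) ω Z] [CompactSpace Z] (hN : HMet n m Z H N)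
    (hI : HImm n Z H N) (hw : IsCanonicalMetric w) {c : ℝ} (hc : 0 < c) (H' : Type*)
    [NormedAddCommGroup H'] [InnerProductSpace ℂ H'] [CompleteSpace H'] :
    ∃ κ : ℝ, 0 < κ ∧ ∀ (V : Cm n → H') (ζ : Cm n) (s : ℝ) (e : Chart n Z) (f : Cm n → Cm n),
      0 < s → DifferentiableOn ℂ V (ball ζ s) → IsBranch m N V ζ e f → V ζ ≠ 0 →
      c ≤ N e (f ζ) * Real.exp (-(m : ℝ) * w e (f ζ)) →
      (∀ z ∈ ball ζ s, ‖V z - V ζ‖ ≤ κ * ‖V ζ‖) →
      ∃ (e' : Chart n Z) (F : Cm n → Cm n), DifferentiableOn ℂ F (ball ζ s) ∧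
        (∀ z ∈ ball ζ s, IsBranch m N V z e' F) ∧ At e' (e.symm (f ζ)) ∧ F =ᶠ[𝓝 ζ] brT e e' f := by
  classical
  set K : Set Z := {x | c ≤ ratio m N w x} with hK
  have hKc : IsCompact K := (isClosed_le continuous_const (continuous_ratio hN hw)).isCompact
  have hloc : ∀ x, x ∈ K → ∃ r κ, LExt m N H' x r κ := by
    intro x hx
    refine exists_lExt hI H' x fun h0 => ?_
    have : c ≤ ratio m N w x := hx
    rw [ratio, h0, zero_mul] at this
    linarith
  choose! r κ hrκ using hloc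
  obtain ⟨t, htK, htU⟩ := hKc.elim_nhds_subcover
    (fun x => (chartAt (Cm n) x).source ∩ chartAt (Cm n) x ⁻¹' ball (chartAt (Cm n) x x) (r x))
    (fun x hx => by
      refine inter_mem ((chartAt (Cm n) x).open_source.mem_nhds (mem_chart_source _ x)) ?_
      exact ((chartAt (Cm n) x).continuousAt (mem_chart_source _ x)).preimage_mem_nhds
        (ball_mem_nhds _ (hrκ x hx).1))
  rcases t.eq_empty_or_nonempty with ht | ht
  · refine ⟨1, one_pos, ?_⟩
    intro V ζ s e f hs hV hb hVζ hcb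
    exfalso
    have hx : e.symm (f ζ) ∈ K := by
      show c ≤ _
      rw [ratio_eq hN.change hw (At.of_target hb.mem hb.tgt), e.right_inv hb.tgt]
      exact hcb
    have := htU hx
    simp [ht] at this
  · obtain ⟨x₀, hx₀, hmin⟩ := t.exists_min_image κ ht
    refine ⟨κ x₀, (hrκ x₀ (htK x₀ hx₀)).2.1, ?_⟩
    intro V ζ s e f hs hV hb hVζ hcb hκV
    have hx : e.symm (f ζ) ∈ K := by
      show c ≤ _
      rw [ratio_eq hN.change hw (At.of_target hb.mem hb.tgt), e.right_inv hb.tgt]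
      exact hcb
    obtain ⟨x, hxt, hxU⟩ := Set.mem_iUnion₂.1 (htU hx)
    have hat : At (chartAt (Cm n) x) (e.symm (f ζ)) := ⟨chart_mem_atlas _ x, hxU.1⟩
    obtain ⟨-, hκx, hL⟩ := hrκ x (htK x hxt)
    obtain ⟨F, hF1, hF2, hF3⟩ := hL V ζ s (brT e (chartAt (Cm n) x) f) hs hV
      (hb.change hN.change hat) hxU.2 hVζ fun z hz => (hκV z hz).trans
        (mul_le_mul_of_nonneg_right (hmin x hxt) (norm_nonneg _))
    exact ⟨chartAt (Cm n) x, F, hF1, hF2, hat, hF3⟩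

end

end Vale.Agent.P284.H812
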