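import Vale.Agent.P284.H812.Tr
import Vale.Agent.P284.H812.Glob
import Vale.Agent.P272.K.C2.Wirt

/-!
# P284 (helper812): the curvature of a branch, global form
-/

open scoped Manifold Topology ComplexConjugate InnerProductSpace ContDiff ComplexOrder
open Filter Set Metric

noncomputable section

namespace Vale.Agent.P284.H812

open Vale.Agent.P272.K Vale.Agent.P272.KOD

section
variable {n : ℕ} {Z : Type*} [TopologicalSpace Z] [ChartedSpace (Cm n) Z]
  {M : ℕ} {τ : PSec n M Z} {w : Chart n Z → Cm n → ℝ}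

variable (τ w) in
/-- the curvature inequality near `x`, with constant `c` on the ball of radius `r` -/
def TrLoc (x : Z) (r c : ℝ) : Prop :=
  0 < r ∧ 0 < c ∧ ∀ (f : Cm n → Cm n) (z : Cm n), AnalyticAt ℂ f z →
    f z ∈ ball (chartAt (Cm n) x x) r → Pv τ w (chartAt (Cm n) x) f z ≠ 0 →
    ContDiffAt ℝ 2 (uF τ w (chartAt (Cm n) x) f) z ∧
      c * Real.exp (uF τ w (chartAt (Cm n) x) f z / n) ≤
        (Matrix.trace (cHess (uF τ w (chartAt (Cm n) x) f) z)).re

theorem exists_trLoc (hn : 1 ≤ n) (hw : IsCanonicalMetric w)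
    (hp : ∀ e x, At e x → (cHess (w e) (e x)).PosDef) (x : Z) : ∃ r c, TrLoc τ w x r c := by
  set e := chartAt (Cm n) x with he
  have h : At e x := at_chartAt x
  obtain ⟨r, hr, hrt⟩ : ∃ r > 0, closedBall (e x) r ⊆ e.target := by
    obtain ⟨r, hr, hrt⟩ := Metric.isOpen_iff.1 e.open_target (e x) h.mem_target
    exact ⟨r / 2, half_pos hr, (closedBall_subset_ball (half_lt_self hr)).trans hrt⟩
  have hat : ∀ y ∈ closedBall (e x) r, At e (e.symm y) ∧ e (e.symm y) = y := fun y hy =>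
    ⟨At.of_target h.1 (hrt hy), e.right_inv (hrt hy)⟩
  have hsm : ∀ y ∈ closedBall (e x) r, ContDiffAt ℝ ∞ (w e) y := fun y hy => by
    have := hw.smooth e _ (hat y hy).1
    rwa [(hat y hy).2] at this
  have hτa : ∀ y ∈ closedBall (e x) r, AnalyticAt ℂ (τ.coeff e) y := fun y hy => by
    have := τ.holo e _ (hat y hy).1
    rwa [(hat y hy).2] at this
  have hpd : ∀ y ∈ closedBall (e x) r, (cHess (w e) y).PosDef := fun y hy => by
    have := hp e _ (hat y hy).1
    rwa [(hat y hy).2] at this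
  have hK : IsCompact (closedBall (e x) r) := isCompact_closedBall _ _
  have hc1 : ∀ i j, ContinuousOn (fun y => cHess (w e) y i j) (closedBall (e x) r) := by
    intro i j y hy
    have : ContDiffAt ℝ 0 (fun y => cHess (w e) y i j) y :=
      C2.contDiffAt_cHess (m := 0) (k := 2)
        ((hsm y hy).of_le (WithTop.coe_le_coe.2 le_top : ((2 : ℕ∞) : WithTop ℕ∞) ≤ ((⊤ : ℕ∞) : WithTop ℕ∞)))
        (by norm_num) i j
    exact this.continuousAt.continuousWithinAt
  obtain ⟨C, hC, hC2⟩ := exists_quad_lower hK (fun y => cHess (w e) y)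
    (fun _ => (1 : Matrix (Fin n) (Fin n) ℂ)) hc1 (fun _ _ => continuousOn_const) hpd
  have hq1 : ∀ ξ : Cm n, (quad (1 : Matrix (Fin n) (Fin n) ℂ) ξ).re = ∑ p, ‖ξ p‖ ^ 2 := by
    intro ξ
    rw [quad, Complex.re_sum]
    refine Finset.sum_congr rfl fun i _ => ?_
    rw [Finset.sum_eq_single i]
    · rw [Matrix.one_apply_eq, one_mul]
      show (ξ i * (starRingEnd ℂ) (ξ i)).re = _
      rw [Complex.mul_conj, Complex.normSq_eq_norm_sq]
      norm_cast
    · intro j _ hj
      rw [Matrix.one_apply_ne hj.symm, zero_mul]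
    · intro hi; exact absurd (Finset.mem_univ i) hi
  have hc2 : ContinuousOn (fun y => ‖τ.coeff e y‖ ^ 2 * Real.exp (w e y)) (closedBall (e x) r) := by
    intro y hy
    exact (((hτa y hy).continuousAt.norm.pow 2).mul
      (Real.continuous_exp.continuousAt.comp (hsm y hy).continuousAt)).continuousWithinAt
  obtain ⟨B, hB⟩ := hK.exists_bound_of_continuousOn hc2
  have hF2 : (0 : ℝ) < (n.factorial : ℝ) ^ 2 := by
    have := Nat.factorial_pos n
    positivity
  refine ⟨r, C⁻¹ / ((M + 1) * (max 1 B * (n.factorial : ℝ) ^ 2)), hr, by positivity, ?_⟩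
  intro f z hf hfz hP
  have hfz' : f z ∈ closedBall (e x) r := ball_subset_closedBall hfz
  refine trace_local hn (inv_pos.2 hC) (le_max_left 1 B) hf (hτa _ hfz') (hsm _ hfz') ?_ ?_ hP
  · intro ξ
    have := hC2 _ hfz' ξ
    rw [hq1] at this
    rw [inv_mul_le_iff₀ hC]
    exact this
  · exact ((le_abs_self _).trans (hB _ hfz')).trans (le_max_right _ _)

/-- Curvature inequality for branches. -/
theorem trace_global [IsManifold 𝓘(ℂ, Cm n) ω Z] [CompactSpace Z] (hn : 1 ≤ n)
    (hw : IsCanonicalMetric w) (hp : ∀ e x, At e x → (cHess (w e) (e x)).PosDef) :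
    ∃ c : ℝ, 0 < c ∧ ∀ (e : Chart n Z) (f : Cm n → Cm n) (z : Cm n), e ∈ atlas (Cm n) Z →
      f z ∈ e.target → AnalyticAt ℂ f z → Pv τ w e f z ≠ 0 →
      ContDiffAt ℝ 2 (uF τ w e f) z ∧
        c * Real.exp (uF τ w e f z / n) ≤ (Matrix.trace (cHess (uF τ w e f) z)).re := by
  classical
  choose r c hrc using fun x : Z => exists_trLoc (τ := τ) hn hw hp x
  obtain ⟨t, -, htU⟩ := (isCompact_univ (X := Z)).elim_nhds_subcover
    (fun x => (chartAt (Cm n) x).source ∩ chartAt (Cm n) x ⁻¹' ball (chartAt (Cm n) x x) (r x))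
    (fun x _ => by
      refine inter_mem ((chartAt (Cm n) x).open_source.mem_nhds (mem_chart_source _ x)) ?_
      exact ((chartAt (Cm n) x).continuousAt (mem_chart_source _ x)).preimage_mem_nhds
        (ball_mem_nhds _ (hrc x).1))
  rcases t.eq_empty_or_nonempty with ht | ht
  · refine ⟨1, one_pos, ?_⟩
    intro e f z _ _ _ _
    have := htU (mem_univ (e.symm (f z)))
    simp [ht] at this
  · obtain ⟨x₀, hx₀, hmin⟩ := t.exists_min_image c ht
    refine ⟨c x₀, (hrc x₀).2.1, ?_⟩
    intro e f z he hfz hf hP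
    obtain ⟨x, hxt, hxU⟩ := Set.mem_iUnion₂.1 (htU (mem_univ (e.symm (f z))))
    have hat : At (chartAt (Cm n) x) (e.symm (f z)) := ⟨chart_mem_atlas _ x, hxU.1⟩
    obtain ⟨-, hcx, hL⟩ := hrc x
    set e' := chartAt (Cm n) x with he'
    have hev : uF τ w e f =ᶠ[𝓝 z] uF τ w e' (brT e e' f) := by
      filter_upwards [br_ev he hf hfz hat] with y hy
      rw [uF, uF, Pv_change τ hw hy.1 hy.2.2.1 hy.2.1 hy.2.2.2]
    have hPc := Pv_change τ hw hf (At.of_target he hfz) hfz hat
    obtain ⟨h1, h2⟩ := hL (brT e e' f) z (brT_analytic hf (At.of_target he hfz) hfz hat) hxU.2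
      (by rw [hPc]; exact hP)
    refine ⟨h1.congr_of_eventuallyEq hev, ?_⟩
    rw [cHess_congr hev, hev.self_of_nhds]
    exact (mul_le_mul_of_nonneg_right (hmin x hxt) (Real.exp_pos _).le).trans h2

end

end Vale.Agent.P284.H812
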