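import Vale.Agent.P284.H812.Bar
import Vale.Agent.P284.H812.Tr2
import Vale.Agent.P284.H812.KOS
import Vale.Agent.P272.K.N.MaxP

/-!
# P284 (helper812): Keller–Osserman with branches: preparations
-/

open scoped Manifold Topology ContDiff ComplexOrder
open Filter Set Metric

noncomputable section

namespace Vale.Agent.P284.H812

open Vale.Agent.P272.K Vale.Agent.P272.KOD

/-! ### identity theorem for sections -/

section ident
variable {n M : ℕ} {Z : Type*} [TopologicalSpace Z] [ChartedSpace (Cm n) Z]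

theorem zero_change (τ : PSec n M Z) {e e' : Chart n Z} {x : Z} (h : At e x) (h' : At e' x)
    (h0 : ∀ᶠ z in 𝓝 (e x), τ.coeff e z = 0) : ∀ᶠ z in 𝓝 (e' x), τ.coeff e' z = 0 := by
  have h1 := h'.nhds_at h
  have h2 : Tendsto (fun z => e (e'.symm z)) (𝓝 (e' x)) (𝓝 (e x)) := by
    have k1 : Tendsto e'.symm (𝓝 (e' x)) (𝓝 x) := by
      have := e'.continuousAt_symm h'.mem_target
      rw [ContinuousAt, h'.left_inv] at this
      exact this
    exact (e.continuousAt h.2).tendsto.comp k1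
  filter_upwards [h1, h2.eventually h0] with z hz hz0
  have := τ.change e' e _ hz.2.1 hz.2.2
  rw [e'.right_inv hz.1, hz0, zero_mul] at this
  exact this

theorem ident [ConnectedSpace Z] (τ : PSec n M Z) {e : Chart n Z} {x : Z} (h : At e x)
    (h0 : ∀ᶠ z in 𝓝 (e x), τ.coeff e z = 0) {e' : Chart n Z} {x' : Z} (h' : At e' x') :
    τ.coeff e' (e' x') = 0 := by
  set A : Set Z := {y | ∀ᶠ z in 𝓝 (chartAt (Cm n) y y), τ.coeff (chartAt (Cm n) y) z = 0} with hA
  have hmem : ∀ {f : Chart n Z} {y : Z}, At f y → (y ∈ A ↔ ∀ᶠ z in 𝓝 (f y), τ.coeff f z = 0) :=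
    fun hf => ⟨fun hy => zero_change τ (Vale.Agent.P284.H812.at_chartAt _) hf hy,
      fun hy => zero_change τ hf (Vale.Agent.P284.H812.at_chartAt _) hy⟩
  have hopen : IsOpen A := by
    rw [isOpen_iff_mem_nhds]
    intro y hy
    have hc : At (chartAt (Cm n) y) y := Vale.Agent.P284.H812.at_chartAt y
    have h1 : ∀ᶠ z in 𝓝 (chartAt (Cm n) y y), ∀ᶠ z' in 𝓝 z, τ.coeff (chartAt (Cm n) y) z' = 0 :=
      eventually_eventually_nhds.2 hy
    filter_upwards [((chartAt (Cm n) y).continuousAt hc.2).eventually h1,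
      (chartAt (Cm n) y).open_source.mem_nhds hc.2] with y' hy' hs
    exact (hmem ⟨hc.1, hs⟩).2 hy'
  have hclosed : IsClosed A := by
    rw [← isOpen_compl_iff, isOpen_iff_mem_nhds]
    intro y hy
    have hc : At (chartAt (Cm n) y) y := Vale.Agent.P284.H812.at_chartAt y
    set c := chartAt (Cm n) y with hcdef
    obtain ⟨r, hr, hrt⟩ := Metric.isOpen_iff.1 c.open_target (c y) hc.mem_target
    have han : AnalyticOnNhd ℂ (τ.coeff c) (ball (c y) r) := fun z hz => by
      have := τ.holo c _ (At.of_target hc.1 (hrt hz))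
      rwa [c.right_inv (hrt hz)] at this
    filter_upwards [(c.continuousAt hc.2).preimage_mem_nhds (ball_mem_nhds _ hr),
      c.open_source.mem_nhds hc.2] with y' hy' hs
    intro hyA
    apply hy
    have h1 : τ.coeff c =ᶠ[𝓝 (c y')] 0 := (hmem (f := c) ⟨hc.1, hs⟩).1 hyA
    have h2 := han.eqOn_zero_of_preconnected_of_eventuallyEq_zero
      (convex_ball _ _).isPreconnected hy' h1
    rw [hmem hc]
    filter_upwards [ball_mem_nhds (c y) hr] with z hz
    exact h2 hz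
  have huniv : A = univ := IsClopen.eq_univ ⟨hclosed, hopen⟩ ⟨x, (hmem h).2 h0⟩
  have : x' ∈ A := huniv ▸ mem_univ x'
  exact ((hmem h').1 this).self_of_nhds

end ident

/-! ### pointwise bounds -/

section bounds
variable {n m M : ℕ} {Z : Type*} [TopologicalSpace Z] [ChartedSpace (Cm n) Z]
  {H : Type*} [NormedAddCommGroup H] [InnerProductSpace ℂ H] {N : Chart n Z → Cm n → ℝ}
  {w : Chart n Z → Cm n → ℝ} {τ : PSec n M Z} {H' : Type*} [NormedAddCommGroup H']
  {V : Cm n → H'} {e : Chart n Z} {f : Cm n → Cm n} {z : Cm n} {C : ℝ}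

theorem Pv_bound
    (hC : ∀ e x, At e x → (‖τ.coeff e (e x)‖ ^ 2 * Real.exp (-(M : ℝ) * w e (e x))) ^ m ≤
      C * (N e (e x) * Real.exp (-(m : ℝ) * w e (e x))) ^ (M + 2))
    (hb : IsBranch m N V z e f) :
    Pv τ w e f z ^ m ≤ C * (N e (f z) * Real.exp (-(m : ℝ) * w e (f z))) *
      (‖V z‖ ^ 2) ^ (M + 1) := by
  have h1 := hC e _ (At.of_target hb.mem hb.tgt)
  rw [e.right_inv hb.tgt] at h1
  rw [← hb.eq.self_of_nhds, Pv]
  set t := ‖τ.coeff e (f z)‖ ^ 2
  set D := ‖(fderiv ℂ f z).det‖ ^ 2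
  set y := w e (f z)
  set Nn := N e (f z)
  have hD : 0 ≤ D := by positivity
  have e1 : Real.exp (-(M : ℝ) * y) * Real.exp y ^ M = 1 := by
    rw [← Real.exp_nat_mul, ← Real.exp_add, neg_mul, neg_add_cancel, Real.exp_zero]
  have e2 : Real.exp (-(m : ℝ) * y) * Real.exp y ^ m = 1 := by
    rw [← Real.exp_nat_mul, ← Real.exp_add, neg_mul, neg_add_cancel, Real.exp_zero]
  have e3 : (t * Real.exp y * D ^ (M + 1)) ^ m =
      (t * Real.exp (-(M : ℝ) * y)) ^ m * ((Real.exp y ^ m * D ^ m) ^ (M + 1)) := by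
    have : (t * Real.exp (-(M : ℝ) * y)) ^ m * ((Real.exp y ^ m * D ^ m) ^ (M + 1)) =
        (t * Real.exp y * D ^ (M + 1)) ^ m * (Real.exp (-(M : ℝ) * y) * Real.exp y ^ M) ^ m := by
      ring
    rw [this, e1, one_pow, mul_one]
  have e4 : (Nn * Real.exp (-(m : ℝ) * y)) ^ (M + 1) * ((Real.exp y ^ m * D ^ m) ^ (M + 1)) =
      (Nn * D ^ m) ^ (M + 1) := by
    have : (Nn * Real.exp (-(m : ℝ) * y)) ^ (M + 1) * ((Real.exp y ^ m * D ^ m) ^ (M + 1)) =
        (Nn * D ^ m) ^ (M + 1) * (Real.exp (-(m : ℝ) * y) * Real.exp y ^ m) ^ (M + 1) := by ring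
    rw [this, e2, one_pow, mul_one]
  rw [e3]
  calc (t * Real.exp (-(M : ℝ) * y)) ^ m * ((Real.exp y ^ m * D ^ m) ^ (M + 1))
      ≤ C * (Nn * Real.exp (-(m : ℝ) * y)) ^ (M + 2) * ((Real.exp y ^ m * D ^ m) ^ (M + 1)) :=
        mul_le_mul_of_nonneg_right h1 (by positivity)
    _ = C * (Nn * Real.exp (-(m : ℝ) * y)) *
        ((Nn * Real.exp (-(m : ℝ) * y)) ^ (M + 1) * ((Real.exp y ^ m * D ^ m) ^ (M + 1))) := by
        ring
    _ = _ := by rw [e4]

theorem exp_uF (hP : 0 < Pv τ w e f z) :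
    Real.exp ((M + 1) * uF τ w e f z) = Pv τ w e f z := by
  have hM : (M + 1 : ℝ) ≠ 0 := by positivity
  rw [uF, mul_div_cancel₀ _ hM, Real.exp_log hP]

end bounds

/-! ### the barrier is proper -/

theorem hB_proper {n : ℕ} (hn : 1 ≤ n) {κ R : ℝ} (hR : 0 < R) (c : Cm n) (U : ℝ) :
    ∃ R' : ℝ, 0 ≤ R' ∧ R' < R ∧ ∀ z ∈ ball c R, hB κ R c z ≤ U → z ∈ closedBall c R' := by
  set A : ℝ := n * Real.log (4 * n ^ 2 * R ^ (4 * n - 2) / κ) with hA
  set L : ℝ := (U - A) / (2 * n) + n * (2 * |Real.log R|) with hL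
  have hn' : (0 : ℝ) < n := by exact_mod_cast hn
  refine ⟨√(R ^ 2 - Real.exp (-L)), Real.sqrt_nonneg _, ?_, ?_⟩
  · rw [Real.sqrt_lt' hR]
    have := Real.exp_pos (-L)
    linarith
  intro z hz hU
  rw [mem_closedBall, dist_pi_le_iff (Real.sqrt_nonneg _)]
  intro i
  have h1 : lb (n := n) R i (c i) z ≤ L := by
    have k1 : ∑ j, lb (n := n) R j (c j) z ≤ (U - A) / (2 * n) := by
      rw [le_div_iff₀ (by positivity)]
      rw [hB, ← hA] at hU
      linarith
    have k2 : lb (n := n) R i (c i) z + ∑ j ∈ Finset.univ.erase i, lb (n := n) R j (c j) z =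
        ∑ j, lb (n := n) R j (c j) z :=
      Finset.add_sum_erase Finset.univ (fun j => lb (n := n) R j (c j) z) (Finset.mem_univ i)
    have k3 : ∑ j ∈ Finset.univ.erase i, (-(2 * |Real.log R|)) ≤
        ∑ j ∈ Finset.univ.erase i, lb (n := n) R j (c j) z := by
      refine Finset.sum_le_sum fun j _ => le_trans ?_ (lb_ge hR hz j)
      have := le_abs_self (Real.log R)
      linarith
    rw [Finset.sum_const, Finset.card_erase_of_mem (Finset.mem_univ i), Finset.card_univ,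
      Fintype.card_fin, nsmul_eq_mul] at k3
    have k4 : ((n - 1 : ℕ) : ℝ) ≤ n := by exact_mod_cast Nat.sub_le n 1
    have k5 : (n : ℝ) * (-(2 * |Real.log R|)) ≤ ((n - 1 : ℕ) : ℝ) * (-(2 * |Real.log R|)) := by
      have := abs_nonneg (Real.log R)
      nlinarith
    rw [hL]
    linarith
  have h2 := sq_lt hR hz i
  have h3 : Real.exp (-L) ≤ R ^ 2 - sq i (c i) z := by
    rw [← Real.le_log_iff_exp_le (by linarith)]
    rw [lb] at h1
    linarith
  rw [dist_eq_norm]
  refine Real.le_sqrt_of_sq_le ?_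
  rw [sq] at h3
  linarith

end Vale.Agent.P284.H812
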