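import Vale.Agent.P284.H812.NSF17
import Vale.Agent.P284.H338.Rank
import Vale.Agent.P284.H501.ExtU

/-!
# P284 (helper812), module NS (f), part 18: `NS2Stmt`
-/

open scoped Manifold Topology ContDiff
open Filter

noncomputable section

set_option linter.unusedSectionVars false

namespace Vale.Agent.P284.H812.NSF

open Vale.Agent.P272.K Vale.Agent.P284.H625 Vale.Agent.P284.H573 Vale.Agent.P284.H338
  Vale.Agent.P284.H395 Vale.Agent.P284.H501 Vale.Agent.P284.H894.G Vale.Agent.P284.H894.W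
  Vale.Agent.P284.H619 Vale.Agent.P284.H378

/-- **Output of (NS).** -/
theorem ns2 : Core.NS2Stmt := by
  intro n X _ _ _ _ _ _ w _ E Γ _ _ _ _ p hp q F c hB hF hreg W _ _ _ π S Θ hS
  obtain ⟨B, hB⟩ := hB
  have hrep : ∀ y (e : Chart n X), At e (p y) → ∃ f, H501.Rep p F y e f :=
    fun y e he => Core.rep_exists hB y e he
  have hfreq : ∀ y (e : Chart n X) f, At e (p y) → H501.Rep p F y e f →
      ∃ᶠ z in 𝓝 (e (p y)), Function.Surjective (fderiv ℂ f z) := by
    intro y e f he hf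
    rcases Nat.eq_zero_or_pos q with h0 | h0
    · subst h0
      exact Frequently.of_forall fun z x => ⟨0, Subsingleton.elim _ _⟩
    · exact Core.reg_freq h0 hp.cov hB hreg y e f he hf
  obtain ⟨r, T₂, _, _, _, T₁, _, _, _, T₀, _, _, _, S₂, S₁, S₀, V, V', h⟩ :=
    exists_rank extStmt hp.cov hrep hfreq hS.rel hS.closed hS.ne
  rcases ns_main hp h hF hS.equi hS.th with hV | ⟨s, k, M, K, _, _, _, v, U, N, 𝒢, h1, h2⟩
  · left
    obtain ⟨O, h1, h2, h3⟩ := hV
    exact ⟨O, h1, h2, h3⟩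
  · right
    exact ⟨r, s, k, M, K, inferInstance, inferInstance, inferInstance, v, U, N, 𝒢, h1, h2⟩

end Vale.Agent.P284.H812.NSF
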