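import Vale.Agent.P284.H812.Cal
import Vale.Agent.P284.H812.KOS
import Mathlib.Analysis.Calculus.InverseFunctionTheorem.ContDiff
import Vale.Agent.P268.Hol

/-!
# P284 (helper812): extension of branches over balls of uniform radius
-/

open scoped Topology ComplexConjugate InnerProductSpace ContDiff
open Filter Set Metric

noncomputable section

namespace Vale.Agent.P284.H812

open Vale.Agent.P272.K

/-- differentiable functions on open subsets of `ℂⁿ` are analytic -/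
theorem analyticAt_of_diffOn {n : ℕ} {F : Type*} [NormedAddCommGroup F] [NormedSpace ℂ F]
    [CompleteSpace F] {f : Cm n → F} {U : Set (Cm n)} (hU : IsOpen U) (hf : DifferentiableOn ℂ f U)
    {z : Cm n} (hz : z ∈ U) : AnalyticAt ℂ f z :=
  Vale.Agent.P268.analyticAt_of_differentiableOn hU hf hz

theorem det_eq {n : ℕ} (A : Cm n →L[ℂ] Cm n) :
    A.det = Matrix.det (Matrix.of fun i j => A (Pi.single j 1) i) := by
  rw [ContinuousLinearMap.det, ← LinearMap.det_toMatrix']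
  congr 1

theorem analyticAt_entry {n : ℕ} {f : Cm n → Cm n} {z : Cm n} (hf : AnalyticAt ℂ f z) (i j : Fin n) :
    AnalyticAt ℂ (fun y => fderiv ℂ f y (Pi.single j 1) i) z := by
  have h3 : AnalyticAt ℂ (fun y => fderiv ℂ f y) z := hf.fderiv
  have h4 : AnalyticAt ℂ (fun y => fderiv ℂ f y (Pi.single j 1)) z := by
    have := (ContinuousLinearMap.apply ℂ (Cm n) (Pi.single j 1 : Cm n)).analyticAt (fderiv ℂ f z)
    exact this.comp_of_eq h3 rfl
  have := (ContinuousLinearMap.proj (R := ℂ) (φ := fun _ : Fin n => ℂ) i).analyticAt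
    (fderiv ℂ f z (Pi.single j 1))
  exact this.comp_of_eq h4 rfl

theorem analyticAt_det {n : ℕ} {f : Cm n → Cm n} {z : Cm n} (hf : AnalyticAt ℂ f z) :
    AnalyticAt ℂ (fun y => (fderiv ℂ f y).det) z := by
  have h : (fun y => (fderiv ℂ f y).det) =
      fun y => ∑ σ : Equiv.Perm (Fin n), Equiv.Perm.sign σ • ∏ i, fderiv ℂ f y (Pi.single i 1) (σ i) := by
    funext y
    rw [det_eq, Matrix.det_apply]
    rfl
  rw [h]
  refine Finset.analyticAt_fun_sum _ fun σ _ => ?_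
  have h2 : AnalyticAt ℂ (fun y => ∏ i, fderiv ℂ f y (Pi.single i 1) (σ i)) z :=
    Finset.analyticAt_fun_prod _ fun i _ => analyticAt_entry hf (σ i) i
  rcases Int.units_eq_one_or (Equiv.Perm.sign σ) with h5 | h5
  · simpa [h5] using h2
  · have h6 : AnalyticAt ℂ (-fun y => ∏ i, fderiv ℂ f y (Pi.single i 1) (σ i)) z := h2.neg
    rw [h5]
    refine h6.congr (Eventually.of_forall fun y => ?_)
    simp

/-- `‖(det f')^m v(f)‖²`. -/
theorem norm_smul_sq {n m : ℕ} {H : Type*} [NormedAddCommGroup H] [InnerProductSpace ℂ H] (d : ℂ)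
    (x : H) : ‖d ^ m • x‖ ^ 2 = ‖x‖ ^ 2 * (‖d‖ ^ 2) ^ m := by
  rw [norm_smul, norm_pow, mul_pow, ← pow_mul, ← pow_mul, mul_comm m 2, mul_comm]

section
variable {n : ℕ} {H : Type*} [NormedAddCommGroup H] [InnerProductSpace ℂ H]

/-- the projections of the partial derivatives to the orthogonal complement of the value -/
def pv (v : Cm n → H) (y : Cm n) (j : Fin n) : H :=
  fderiv ℂ v y (Pi.single j 1) - (⟪v y, fderiv ℂ v y (Pi.single j 1)⟫_ℂ / ⟪v y, v y⟫_ℂ) • v y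

/-- the local coordinates given by linear functionals -/
def chi (v : Cm n → H) (y₀ y : Cm n) : Cm n :=
  (⟪v y₀, v y⟫_ℂ)⁻¹ • fun j => ⟪pv v y₀ j, v y⟫_ℂ

theorem inner_pv {v : Cm n → H} {y : Cm n} (h0 : v y ≠ 0) (j : Fin n) : ⟪v y, pv v y j⟫_ℂ = 0 := by
  have h1 : ⟪v y, v y⟫_ℂ ≠ 0 := inner_self_ne_zero.2 h0
  rw [pv, inner_sub_right, inner_smul_right, div_mul_cancel₀ _ h1, sub_self]

theorem inner_pv' {v : Cm n → H} {y : Cm n} (h0 : v y ≠ 0) (j : Fin n) : ⟪pv v y j, v y⟫_ℂ = 0 := by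
  rw [← inner_conj_symm, inner_pv h0, map_zero]

theorem fderiv_sum_single {F : Type*} [NormedAddCommGroup F] [NormedSpace ℂ F] (D : Cm n →L[ℂ] F)
    (ξ : Cm n) : D ξ = ∑ j, ξ j • D (Pi.single j 1) := by
  have h : ξ = ∑ j, ξ j • (Pi.single j 1 : Cm n) := by
    ext i
    simp [Finset.sum_apply, Pi.single_apply]
  conv_lhs => rw [h]
  rw [map_sum]
  simp

/-- the differential of the coordinates is injective -/
theorem chi_inj {v : Cm n → H} {y : Cm n} (h0 : v y ≠ 0)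
    (him : ∀ (ξ : Cm n) (c : ℂ), fderiv ℂ v y ξ = c • v y → ξ = 0) (ξ : Cm n)
    (h : ∀ j, ⟪pv v y j, fderiv ℂ v y ξ⟫_ℂ = 0) : ξ = 0 := by
  set u : H := ∑ j, ξ j • pv v y j with hu
  have h1 : u = fderiv ℂ v y ξ - (∑ j, ξ j * (⟪v y, fderiv ℂ v y (Pi.single j 1)⟫_ℂ / ⟪v y, v y⟫_ℂ)) • v y := by
    rw [hu, fderiv_sum_single (fderiv ℂ v y) ξ, Finset.sum_smul, ← Finset.sum_sub_distrib]
    refine Finset.sum_congr rfl fun j _ => ?_
    rw [pv, smul_sub, smul_smul]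
  have h2 : ⟪u, u⟫_ℂ = 0 := by
    have h3 : ∀ j, ⟪pv v y j, u⟫_ℂ = 0 := by
      intro j
      rw [h1, inner_sub_right, h j, inner_smul_right, inner_pv' h0, mul_zero, sub_zero]
    conv_lhs => rw [hu]
    rw [sum_inner]
    refine Finset.sum_eq_zero fun j _ => ?_
    rw [inner_smul_left, ← hu, h3, mul_zero]
  have h3 : u = 0 := inner_self_eq_zero.1 h2
  refine him ξ _ (sub_eq_zero.1 (h1.symm.trans h3))

theorem chi_analytic {v : Cm n → H} {y₀ : Cm n} (hv : AnalyticAt ℂ v y₀) (h0 : v y₀ ≠ 0) :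
    AnalyticAt ℂ (chi v y₀) y₀ := by
  have h1 : AnalyticAt ℂ (fun y => ⟪v y₀, v y⟫_ℂ) y₀ :=
    ((innerSL ℂ (v y₀)).analyticAt (v y₀)).comp_of_eq hv rfl
  have h2 : AnalyticAt ℂ (fun y => fun j => ⟪pv v y₀ j, v y⟫_ℂ) y₀ := by
    refine analyticAt_pi_iff.2 fun j => ?_
    exact ((innerSL ℂ (pv v y₀ j)).analyticAt (v y₀)).comp_of_eq hv rfl
  exact (h1.inv (inner_self_ne_zero.2 h0)).smul h2

theorem chi_self {v : Cm n → H} {y₀ : Cm n} (h0 : v y₀ ≠ 0) : chi v y₀ y₀ = 0 := by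
  ext j
  simp [chi, inner_pv' h0]

theorem chi_hasFDerivAt {v : Cm n → H} {y₀ : Cm n} (hv : AnalyticAt ℂ v y₀) (h0 : v y₀ ≠ 0) :
    HasFDerivAt (chi v y₀) ((⟪v y₀, v y₀⟫_ℂ)⁻¹ •
      (ContinuousLinearMap.pi fun j => innerSL ℂ (pv v y₀ j)).comp (fderiv ℂ v y₀)) y₀ := by
  have h1 : HasFDerivAt (fun y => ⟪v y₀, v y⟫_ℂ) ((innerSL ℂ (v y₀)).comp (fderiv ℂ v y₀)) y₀ :=
    (innerSL ℂ (v y₀)).hasFDerivAt.comp y₀ hv.differentiableAt.hasFDerivAt
  set Λ : H →L[ℂ] Cm n := ContinuousLinearMap.pi fun j => innerSL ℂ (pv v y₀ j) with hΛ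
  have h2 : HasFDerivAt (fun y => Λ (v y)) (Λ.comp (fderiv ℂ v y₀)) y₀ :=
    Λ.hasFDerivAt.comp y₀ hv.differentiableAt.hasFDerivAt
  have hne : ⟪v y₀, v y₀⟫_ℂ ≠ 0 := inner_self_ne_zero.2 h0
  have h3 := ((hasDerivAt_inv hne).comp_hasFDerivAt y₀ h1).smul h2
  have h4 : Λ (v y₀) = 0 := by
    ext j
    exact inner_pv' h0 j
  refine h3.congr_fderiv ?_
  ext ξ
  simp [h4]

end

end Vale.Agent.P284.H812
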