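import Vale.Agent.P284.H812.KO2

/-!
# P284 (helper812): Keller–Osserman with branches

Main theorem `ko`: on a compact connected complex manifold `Z` with a smooth metric `w` of positive
curvature on `K_Z`, a Hilbert norm `N` on `K_Z^m` which is immersive where it does not vanish, and a
section `τ ≠ 0` of `K_Z^M` with `T^m ≤ C ρ^(M+2)`, an entire Hilbert valued function `V` on `ℂⁿ` has no
branch at a point where `V ≠ 0`.
-/

open scoped Manifold Topology ContDiff ComplexOrder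
open Filter Set Metric

noncomputable section

namespace Vale.Agent.P284.H812

open Vale.Agent.P272.K Vale.Agent.P272.KOD

section
variable {n m M : ℕ} {Z : Type*} [TopologicalSpace Z] [CompactSpace Z] [ChartedSpace (Cm n) Z]
  [IsManifold 𝓘(ℂ, Cm n) ω Z]
  {H : Type*} [NormedAddCommGroup H] [InnerProductSpace ℂ H] [CompleteSpace H]
  {N : Chart n Z → Cm n → ℝ} {w : Chart n Z → Cm n → ℝ} {τ : PSec n M Z}
  {H' : Type*} [NormedAddCommGroup H'] [InnerProductSpace ℂ H'] [CompleteSpace H']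
  {V : Cm n → H'} {C : ℝ}

/-- The Keller–Osserman bound for a branch at the centre of a polydisc. -/
theorem ko_bound (hn : 1 ≤ n) (hm : 1 ≤ m) (hw : IsCanonicalMetric w)
    (hN : HMet n m Z H N) (hI : HImm n Z H N)
    (hC : ∀ e x, At e x → (‖τ.coeff e (e x)‖ ^ 2 * Real.exp (-(M : ℝ) * w e (e x))) ^ m ≤
      C * (N e (e x) * Real.exp (-(m : ℝ) * w e (e x))) ^ (M + 2))
    (hV : Differentiable ℂ V) {c : ℝ} (hc : 0 < c)
    (htr : ∀ (e : Chart n Z) (f : Cm n → Cm n) (z : Cm n), e ∈ atlas (Cm n) Z →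
      f z ∈ e.target → AnalyticAt ℂ f z → Pv τ w e f z ≠ 0 →
      ContDiffAt ℝ 2 (uF τ w e f) z ∧
        c * Real.exp (uF τ w e f z / n) ≤ (Matrix.trace (cHess (uF τ w e f) z)).re)
    {ζ : Cm n} {e₀ : Chart n Z} {f₀ : Cm n → Cm n} (hb₀ : IsBranch m N V ζ e₀ f₀)
    (hP₀ : Pv τ w e₀ f₀ ζ ≠ 0) {R : ℝ} (hR : 0 < R) :
    uF τ w e₀ f₀ ζ ≤ hB c R ζ ζ := by
  by_contra hcon
  push Not at hcon
  have hn' : (0 : ℝ) < n := by exact_mod_cast hn
  -- constants
  obtain ⟨U, c0, v, hc0pos, hvpos, hcst⟩ := ko_consts (τ := τ) hm hw hN hC hV.continuous ζ R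
    (hB c R ζ ζ)
  obtain ⟨κ, hκ, hext⟩ := ext_global hN hI hw hc0pos H'
  obtain ⟨R', hR'0, hR'R, hprop⟩ := hB_proper (κ := c) hn hR ζ U
  have hκv : 0 < κ * v := mul_pos hκ hvpos
  obtain ⟨δ, hδ, hδ2⟩ := Metric.uniformContinuousOn_iff.1
    ((isCompact_closedBall ζ R).uniformContinuousOn_of_continuous hV.continuous.continuousOn)
    (κ * v) hκv
  obtain ⟨s, hs⟩ : ∃ s, s = min δ (R - R') := ⟨_, rfl⟩
  have hspos : 0 < s := by rw [hs]; exact lt_min hδ (by linarith)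
  have hsδ : s ≤ δ := by rw [hs]; exact min_le_left _ _
  have hsR : s ≤ R - R' := by rw [hs]; exact min_le_right _ _
  clear hs
  have hsub : ∀ z1 ∈ closedBall ζ R', ball z1 s ⊆ ball ζ R := by
    intro z1 hz1 z hz
    rw [mem_closedBall] at hz1
    rw [mem_ball] at hz ⊢
    have := dist_triangle z z1 ζ
    linarith
  obtain ⟨κ', hκ'⟩ : ∃ κ', κ' = c / (4 * n) * Real.exp (hB c R ζ ζ / n) := ⟨_, rfl⟩
  have hκ'pos : 0 < κ' := by rw [hκ']; positivity
  -- the set of values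
  obtain ⟨S, hSdef⟩ : ∃ S : Set ℝ, S = {t | ∃ (z : Cm n) (e : Chart n Z) (f : Cm n → Cm n),
    z ∈ ball ζ R ∧ IsBranch m N V z e f ∧ Pv τ w e f z ≠ 0 ∧
    t = uF τ w e f z - hB c R ζ z} := ⟨_, rfl⟩
  have hbdd : BddAbove S := by
    refine ⟨U - hB c R ζ ζ, ?_⟩
    rw [hSdef]
    rintro t ⟨z, e, f, hz, hb, hP, rfl⟩
    have := (hcst z e f (ball_subset_closedBall hz) hb hP).1
    have := hB_ge (κ := c) hR hz
    linarith
  have hmem0 : uF τ w e₀ f₀ ζ - hB c R ζ ζ ∈ S := by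
    rw [hSdef]
    exact ⟨ζ, e₀, f₀, mem_ball_self hR, hb₀, hP₀, rfl⟩
  have hSpos : 0 < sSup S := lt_of_lt_of_le (by linarith) (le_csSup hbdd hmem0)
  have hεpos : 0 < min (κ' * (s / 2) ^ 2) (sSup S) := lt_min (by positivity) hSpos
  obtain ⟨t1, ht1, ht1S⟩ := exists_lt_of_lt_csSup ⟨_, hmem0⟩
    (show sSup S - min (κ' * (s / 2) ^ 2) (sSup S) < sSup S by linarith)
  have hε1 := min_le_left (κ' * (s / 2) ^ 2) (sSup S)
  have hε2 := min_le_right (κ' * (s / 2) ^ 2) (sSup S)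
  have ht1' := ht1
  rw [hSdef] at ht1'
  obtain ⟨z1, e1, f1, hz1, hb1, hPz1, ht1e⟩ := ht1'
  have hge1 := hB_ge (κ := c) hR hz1
  have hz1' : z1 ∈ closedBall ζ R' := by
    refine hprop z1 hz1 ?_
    have := (hcst z1 e1 f1 (ball_subset_closedBall hz1) hb1 hPz1).1
    linarith
  have hu1 : hB c R ζ ζ < uF τ w e1 f1 z1 := by linarith
  obtain ⟨hr1, hV1⟩ := (hcst z1 e1 f1 (ball_subset_closedBall hz1) hb1 hPz1).2 hu1
  have hV1' : V z1 ≠ 0 := norm_pos_iff.1 (lt_of_lt_of_le hvpos hV1)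
  obtain ⟨e', F, hF1, hF2, hat', hF3⟩ := hext V z1 s e1 f1 hspos hV.differentiableOn hb1 hV1'
    hr1 (by
      intro z hz
      have hzR : z ∈ ball ζ R := hsub z1 hz1' hz
      have := hδ2 z (ball_subset_closedBall hzR) z1 (ball_subset_closedBall hz1)
        (lt_of_lt_of_le hz hsδ)
      rw [dist_eq_norm] at this
      exact this.le.trans (mul_le_mul_of_nonneg_left hV1 hκ.le))
  -- transfer of the value at `z1`
  have hPeq : Pv τ w e' F z1 = Pv τ w e1 f1 z1 := by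
    rw [← Pv_change τ hw hb1.an (At.of_target hb1.mem hb1.tgt) hb1.tgt hat', Pv, Pv,
      hF3.self_of_nhds, hF3.fderiv_eq]
  have hueq : uF τ w e' F z1 = uF τ w e1 f1 z1 := by rw [uF, uF, hPeq]
  refine ko_local (τ := τ) (S := sSup S) hn hw hc htr hR (half_pos hspos) (half_lt_self hspos)
    (hsub z1 hz1') hF2 (by rw [hPeq]; exact hPz1) ?_ hκ' (by rw [hueq]; linarith)
    (by rw [hueq]; linarith)
  intro z hz hP
  refine le_csSup hbdd ?_
  rw [hSdef]
  exact ⟨z, e', F, hsub z1 hz1' hz, hF2 z hz, hP, rfl⟩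

/-- a branch at a point where `V ≠ 0` can be moved to a point where `τ ≠ 0` -/
theorem exists_good_point [ConnectedSpace Z] (hm : 1 ≤ m)
    (hτ : ∃ e x, At e x ∧ τ.coeff e (e x) ≠ 0) {ζ : Cm n} {e : Chart n Z} {f : Cm n → Cm n}
    (hb : IsBranch m N V ζ e f) (hV : V ζ ≠ 0) :
    ∃ ζ', IsBranch m N V ζ' e f ∧ Pv τ w e f ζ' ≠ 0 := by
  have hdet : (fderiv ℂ f ζ).det ≠ 0 := by
    intro h0
    have := hb.eq.self_of_nhds
    rw [h0, norm_zero, zero_pow two_ne_zero, zero_pow (by omega), mul_zero] at this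
    exact hV (norm_eq_zero.1 (pow_eq_zero_iff two_ne_zero |>.1 this.symm))
  by_contra hcon
  push Not at hcon
  have h1 : ∀ᶠ z in 𝓝 ζ, IsBranch m N V z e f := by
    filter_upwards [hb.an.eventually_analyticAt, eventually_eventually_nhds.2 hb.eq,
      hb.an.continuousAt.eventually (e.open_target.mem_nhds hb.tgt)] with z k1 k2 k3
    exact ⟨hb.mem, k3, k1, k2⟩
  have h2 : ∀ᶠ z in 𝓝 ζ, τ.coeff e (f z) = 0 := by
    filter_upwards [h1, (analyticAt_det hb.an).continuousAt.eventually_ne hdet] with z k1 k2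
    have := hcon z k1
    rw [Pv] at this
    rcases mul_eq_zero.1 this with h3 | h3
    · rcases mul_eq_zero.1 h3 with h4 | h4
      · exact norm_eq_zero.1 (pow_eq_zero_iff two_ne_zero |>.1 h4)
      · exact absurd h4 (Real.exp_pos _).ne'
    · exact absurd (norm_eq_zero.1 ((pow_eq_zero_iff two_ne_zero).1
        ((pow_eq_zero_iff (by omega)).1 h3))) k2
  have hs : HasStrictFDerivAt f (fderiv ℂ f ζ) ζ := hb.an.hasStrictFDerivAt
  have hsurj : (fderiv ℂ f ζ).range = ⊤ := by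
    have hu : IsUnit (LinearMap.det (fderiv ℂ f ζ : Cm n →ₗ[ℂ] Cm n)) := isUnit_iff_ne_zero.2 hdet
    have := (LinearMap.isUnit_iff_isUnit_det _).2 hu
    exact LinearMap.isUnit_iff_range_eq_top _ |>.1 this
  have hmap := hs.map_nhds_eq_of_surj hsurj
  have h3 : ∀ᶠ y in 𝓝 (f ζ), τ.coeff e y = 0 := by
    rw [← hmap]
    exact h2
  obtain ⟨e', x', hat, hne⟩ := hτ
  have hat0 := At.of_target hb.mem hb.tgt
  refine hne (ident τ hat0 ?_ hat)
  rw [e.right_inv hb.tgt]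
  exact h3

/-- **Keller–Osserman with branches.** -/
theorem ko [ConnectedSpace Z] (hn : 1 ≤ n) (hm : 1 ≤ m) (hw : IsCanonicalMetric w)
    (hp : ∀ e x, At e x → (cHess (w e) (e x)).PosDef)
    (hτ : ∃ e x, At e x ∧ τ.coeff e (e x) ≠ 0)
    (hN : HMet n m Z H N) (hI : HImm n Z H N)
    (hC : ∀ e x, At e x → (‖τ.coeff e (e x)‖ ^ 2 * Real.exp (-(M : ℝ) * w e (e x))) ^ m ≤
      C * (N e (e x) * Real.exp (-(m : ℝ) * w e (e x))) ^ (M + 2))
    (hV : Differentiable ℂ V) {ζ : Cm n} {e : Chart n Z} {f : Cm n → Cm n}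
    (hb : IsBranch m N V ζ e f) (hVζ : V ζ ≠ 0) : False := by
  obtain ⟨ζ', hb', hP'⟩ := exists_good_point (w := w) hm hτ hb hVζ
  obtain ⟨c, hc, htr⟩ := trace_global (τ := τ) hn hw hp
  have hn' : (0 : ℝ) < n := by exact_mod_cast hn
  set u := uF τ w e f ζ' with hu
  set L : ℝ := (n * Real.log (4 * n ^ 2 / c) - u + 1) / (2 * n) with hL
  have h1 := ko_bound hn hm hw hN hI hC hV hc htr hb' hP' (Real.exp_pos L)
  rw [hB_center hn hc (Real.exp_pos L), Real.log_exp, hL, mul_div_cancel₀ _ (by positivity)] at h1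
  linarith

end

/-- the statement `KOStmt` -/
theorem koStmt : KOStmt := by
  intro n m M hn hm Z _ _ _ _ _ _ w hw hp τ hτ H _ _ _ N hN hI C hC H' _ _ _ V hV ζ e f hb hVζ
  exact ko hn hm hw hp hτ hN hI hC hV hb hVζ

end Vale.Agent.P284.H812
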