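import Vale.Agent.P284.H338.ENat
import Mathlib.Analysis.Analytic.Uniqueness
import Mathlib.LinearAlgebra.Matrix.Rank

/-!
# P284 (helper812), module NS (f), part 4: sets with thin complement in the covering
-/

open scoped Topology ContDiff
open Filter

noncomputable section

set_option linter.unusedSectionVars false

namespace Vale.Agent.P284.H812.NSF

open Vale.Agent.P272.K Vale.Agent.P284.H338

section
variable {n : ℕ} {X E : Type} [TopologicalSpace X] [ChartedSpace (Cm n) X]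
  [TopologicalSpace E] {p : E → X}

/-- The complement of `A` is, locally, contained in the zero set of a nonzero analytic function. -/
def ThinC (p : E → X) (A : Set E) : Prop :=
  ∀ (y : E) (e : Chart n X), At e (p y) → ∃ h : Cm n → ℂ, AnalyticAt ℂ h (e (p y)) ∧
    (∃ᶠ z in 𝓝 (e (p y)), h z ≠ 0) ∧ ∀ᶠ y' in 𝓝 y, h (e (p y')) ≠ 0 → y' ∈ A

/-- the product of two nonzero germs -/
theorem freq_mul {h h' : Cm n → ℂ} {z : Cm n} (ha : AnalyticAt ℂ h z) (ha' : AnalyticAt ℂ h' z)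
    (hf : ∃ᶠ z' in 𝓝 z, h z' ≠ 0) (hf' : ∃ᶠ z' in 𝓝 z, h' z' ≠ 0) :
    ∃ᶠ z' in 𝓝 z, h z' * h' z' ≠ 0 := by
  intro hc
  obtain ⟨ρ, hρ, hB⟩ := Metric.eventually_nhds_iff_ball.1
    ((hc.and ha.eventually_analyticAt).and ha'.eventually_analyticAt)
  obtain ⟨z₁, hz₁, hz₁'⟩ := (hf.and_eventually (Metric.ball_mem_nhds z hρ)).exists
  have h1 : ContinuousAt h z₁ := (hB z₁ hz₁').1.2.continuousAt
  have h2 : h' =ᶠ[𝓝 z₁] 0 := by
    filter_upwards [h1.eventually_ne hz₁, Metric.isOpen_ball.mem_nhds hz₁'] with z' k1 k2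
    have := (hB z' k2).1.1
    simp only [ne_eq, not_not, mul_eq_zero] at this
    rcases this with h | h
    · exact absurd h k1
    · exact h
  have h3 : AnalyticOnNhd ℂ h' (Metric.ball z ρ) := fun x hx => (hB x hx).2
  have h4 := h3.eqOn_zero_of_preconnected_of_eventuallyEq_zero
    (convex_ball z ρ).isPreconnected hz₁' h2
  exact hf' (by
    filter_upwards [Metric.ball_mem_nhds z hρ] with z' hz'
    simpa using h4 hz')

theorem ThinC.inter {A B : Set E} (hA : ThinC (n := n) p A) (hB : ThinC (n := n) p B) :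
    ThinC (n := n) p (A ∩ B) := by
  intro y e he
  obtain ⟨h, h1, h2, h3⟩ := hA y e he
  obtain ⟨h', h1', h2', h3'⟩ := hB y e he
  refine ⟨fun z => h z * h' z, h1.mul h1', freq_mul h1 h1' h2 h2', ?_⟩
  filter_upwards [h3, h3'] with y' k k' hk
  exact ⟨k (left_ne_zero_of_mul hk), k' (right_ne_zero_of_mul hk)⟩

theorem ThinC.mono {A B : Set E} (hA : ThinC (n := n) p A) (h : A ⊆ B) : ThinC (n := n) p B := by
  intro y e he
  obtain ⟨h', h1, h2, h3⟩ := hA y e he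
  exact ⟨h', h1, h2, h3.mono fun y' k hk => h (k hk)⟩

theorem ThinC.dense (hp : IsLocalHomeomorph p) {A : Set E} (hA : ThinC (n := n) p A) : Dense A := by
  intro y
  obtain ⟨h, h1, h2, h3⟩ := hA y (chartAt (Cm n) (p y))
    ⟨chart_mem_atlas _ _, mem_chart_source _ _⟩
  rw [mem_closure_iff_frequently]
  have he : At (chartAt (Cm n) (p y)) (p y) := ⟨chart_mem_atlas _ _, mem_chart_source _ _⟩
  have h4 : ∃ᶠ y' in 𝓝 y, h (chartAt (Cm n) (p y) (p y')) ≠ 0 := by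
    intro hc
    exact h2 ((ev_iff hp he).1 hc)
  exact (h4.and_eventually h3).mono fun y' k => k.2 k.1

/-- a small sheet over a ball, in a given neighbourhood -/
theorem exists_sheet (hp : IsLocalHomeomorph p) {y : E} {e : Chart n X} (he : At e (p y))
    {P : E → Prop} (hP : ∀ᶠ y' in 𝓝 y, P y') {ρ₀ : ℝ} (hρ₀ : 0 < ρ₀) :
    ∃ (N : Set E) (ρ : ℝ), IsOpen N ∧ y ∈ N ∧ 0 < ρ ∧ ρ ≤ ρ₀ ∧
      ∀ y' ∈ N, P y' ∧ At e (p y') ∧ e (p y') ∈ Metric.ball (e (p y)) ρ := by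
  have h1 : ∀ᶠ y' in 𝓝 y, P y' ∧ At e (p y') ∧ e (p y') ∈ Metric.ball (e (p y)) ρ₀ :=
    hP.and ((at_near hp he).and ((tend_ep hp he).eventually (Metric.ball_mem_nhds _ hρ₀)))
  obtain ⟨N, hN, hNo, hyN⟩ := eventually_nhds_iff.1 h1
  exact ⟨N, ρ₀, hNo, hyN, hρ₀, le_refl _, hN⟩

/-- an analytic function on a ball, nonzero somewhere, is frequently nonzero near every point -/
theorem freq_ball {h : Cm n → ℂ} {z : Cm n} {ρ : ℝ} (ha : AnalyticOnNhd ℂ h (Metric.ball z ρ))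
    {z₁ z₂ : Cm n} (h₁ : z₁ ∈ Metric.ball z ρ) (h₂ : z₂ ∈ Metric.ball z ρ) (h0 : h z₁ ≠ 0) :
    ∃ᶠ z' in 𝓝 z₂, h z' ≠ 0 := by
  intro hc
  have h3 : h =ᶠ[𝓝 z₂] 0 := by
    filter_upwards [hc] with z' hz'
    simpa using hz'
  exact h0 (ha.eqOn_zero_of_preconnected_of_eventuallyEq_zero
    (convex_ball z ρ).isPreconnected h₂ h3 h₁)

/-- **Propagation**: a nonempty set which is locally, inside `A₀`, the set where some function of a
family of analytic functions is nonzero, has thin complement. -/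
theorem thin_prop [PreconnectedSpace E] (hp : IsLocalHomeomorph p) {A₀ A : Set E}
    (hA₀ : ThinC (n := n) p A₀) (hne : A.Nonempty)
    (hloc : ∀ (y : E) (e : Chart n X), At e (p y) → ∃ (𝓗 : Set (Cm n → ℂ)) (ρ : ℝ), 0 < ρ ∧
      (∀ h ∈ 𝓗, AnalyticOnNhd ℂ h (Metric.ball (e (p y)) ρ)) ∧
      ∀ᶠ y' in 𝓝 y, (y' ∈ A → ∃ h ∈ 𝓗, h (e (p y')) ≠ 0) ∧
        (y' ∈ A₀ → (∃ h ∈ 𝓗, h (e (p y')) ≠ 0) → y' ∈ A)) : ThinC (n := n) p A := by
  -- from a point of the closure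
  have key : ∀ (y : E) (e : Chart n X), At e (p y) → y ∈ closure A → ∃ (N : Set E) (h : Cm n → ℂ),
      IsOpen N ∧ y ∈ N ∧ ∀ y₂ ∈ N, At e (p y₂) ∧ AnalyticAt ℂ h (e (p y₂)) ∧
        (∃ᶠ z in 𝓝 (e (p y₂)), h z ≠ 0) ∧ (y₂ ∈ A₀ → h (e (p y₂)) ≠ 0 → y₂ ∈ A) := by
    intro y e he hy
    obtain ⟨𝓗, ρ₀, hρ₀, ha, hev⟩ := hloc y e he
    obtain ⟨N, ρ, hN, hyN, hρ, hρρ, hNP⟩ := exists_sheet hp he hev hρ₀
    obtain ⟨y₁, hy₁N, hy₁A⟩ := mem_closure_iff.1 hy N hN hyN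
    obtain ⟨h, hh, hh1⟩ := (hNP y₁ hy₁N).1.1 hy₁A
    have ha' : AnalyticOnNhd ℂ h (Metric.ball (e (p y)) ρ) :=
      (ha h hh).mono (Metric.ball_subset_ball hρρ)
    refine ⟨N, h, hN, hyN, fun y₂ hy₂ => ?_⟩
    obtain ⟨k1, k2, k3⟩ := hNP y₂ hy₂
    exact ⟨k2, ha' _ k3, freq_ball ha' (hNP y₁ hy₁N).2.2 k3 hh1, fun h0 h4 => k1.2 h0 ⟨h, hh, h4⟩⟩
  -- the thin estimate at the points of the closure
  have key2 : ∀ (y : E) (e : Chart n X), At e (p y) → y ∈ closure A → ∃ (N : Set E), IsOpen N ∧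
      y ∈ N ∧ (∀ y₂ ∈ N, At e (p y₂) ∧ ∃ h : Cm n → ℂ, AnalyticAt ℂ h (e (p y₂)) ∧
        (∃ᶠ z in 𝓝 (e (p y₂)), h z ≠ 0) ∧ ∀ᶠ y' in 𝓝 y₂, h (e (p y')) ≠ 0 → y' ∈ A) := by
    intro y e he hy
    obtain ⟨N, h, hN, hyN, hNP⟩ := key y e he hy
    refine ⟨N, hN, hyN, fun y₂ hy₂ => ?_⟩
    obtain ⟨k1, k2, k3, k4⟩ := hNP y₂ hy₂
    obtain ⟨h₀, m1, m2, m3⟩ := hA₀ y₂ e k1
    refine ⟨k1, fun z => h₀ z * h z, m1.mul k2, freq_mul m1 k2 m2 k3, ?_⟩
    filter_upwards [m3, hN.mem_nhds hy₂] with y' l1 l2 l3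
    exact (hNP y' l2).2.2.2 (l1 (left_ne_zero_of_mul l3)) (right_ne_zero_of_mul l3)
  have hcl : IsClopen (closure A) := by
    refine ⟨isClosed_closure, isOpen_iff_mem_nhds.2 fun y hy => ?_⟩
    have he : At (chartAt (Cm n) (p y)) (p y) := ⟨chart_mem_atlas _ _, mem_chart_source _ _⟩
    obtain ⟨N, hN, hyN, hNP⟩ := key2 y _ he hy
    filter_upwards [hN.mem_nhds hyN] with y₂ hy₂
    obtain ⟨k1, h, k2, k3, k4⟩ := hNP y₂ hy₂
    rw [mem_closure_iff_frequently]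
    have h4 : ∃ᶠ y' in 𝓝 y₂, h (chartAt (Cm n) (p y) (p y')) ≠ 0 := by
      intro hc
      exact k3 ((ev_iff hp k1).1 hc)
    exact (h4.and_eventually k4).mono fun y' k => k.2 k.1
  have hall : closure A = Set.univ := by
    rcases isClopen_iff.1 hcl with h | h
    · exact absurd h hne.closure.ne_empty
    · exact h
  intro y e he
  obtain ⟨N, hN, hyN, hNP⟩ := key2 y e he (by rw [hall]; trivial)
  exact (hNP y hyN).2

end

end Vale.Agent.P284.H812.NSF
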