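import Vale.Agent.P272.K.C2.Wirt
import Vale.Agent.P272.K.Inv.Hess
import Mathlib.LinearAlgebra.Matrix.Trace

/-!
# P284 (helper812): the barrier function on polydiscs
-/

open scoped Manifold Topology ComplexConjugate ContDiff
open Filter Set Metric

noncomputable section

namespace Vale.Agent.P284.H812

open Vale.Agent.P272.K

variable {n : ℕ}

/-- `|z_i - c|²` -/
def sq (i : Fin n) (c : ℂ) (z : Cm n) : ℝ := ‖z i - c‖ ^ 2

theorem coord_diff (i : Fin n) (c : ℂ) (z : Cm n) : DifferentiableAt ℂ (fun y : Cm n => y i - c) z := by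
  fun_prop

theorem sq_contDiff (i : Fin n) (c : ℂ) (z : Cm n) {k : WithTop ℕ∞} :
    ContDiffAt ℝ k (sq (n := n) i c) z := by
  have h : ContDiffAt ℝ k (fun y : Cm n => y i - c) z := by fun_prop
  exact h.norm_sq ℝ

theorem dz_coord (i j : Fin n) (c : ℂ) (z : Cm n) :
    dz j (fun y : Cm n => y i - c) z = if j = i then 1 else 0 := by
  rw [dz_of_holo (coord_diff i c z)]
  have h : HasFDerivAt (fun y : Cm n => y i - c)
      (ContinuousLinearMap.proj (R := ℂ) (φ := fun _ : Fin n => ℂ) i) z :=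
    (ContinuousLinearMap.proj (R := ℂ) (φ := fun _ : Fin n => ℂ) i).hasFDerivAt.sub_const c
  rw [h.fderiv, ContinuousLinearMap.proj_apply, Pi.single_apply]
  simp only [eq_comm]

theorem sq_eq (i : Fin n) (c : ℂ) :
    (fun y : Cm n => ((sq i c y : ℝ) : ℂ)) = fun y => (y i - c) * cj (y i - c) := by
  funext y
  show _ = (y i - c) * (starRingEnd ℂ) (y i - c)
  rw [sq, Complex.mul_conj, Complex.normSq_eq_norm_sq]

theorem dzb_sq (i k : Fin n) (c : ℂ) (z : Cm n) :
    dzb k (fun y : Cm n => ((sq i c y : ℝ) : ℂ)) z = (z i - c) * (if k = i then 1 else 0) := by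
  have h1 : DifferentiableAt ℝ (fun y : Cm n => y i - c) z := (coord_diff i c z).restrictScalars ℝ
  have h2 : DifferentiableAt ℝ (fun y : Cm n => cj (y i - c)) z :=
    Complex.conjCLE.differentiableAt.comp z h1
  rw [sq_eq, dzb_mul h1 h2, dzb_of_holo (coord_diff i c z), dzb_cj h1, dz_coord]
  simp only [zero_mul, zero_add]
  congr 1
  split_ifs <;> simp [cj]

theorem dz_sq (i k : Fin n) (c : ℂ) (z : Cm n) :
    dz k (fun y : Cm n => ((sq i c y : ℝ) : ℂ)) z = (if k = i then 1 else 0) * cj (z i - c) := by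
  have h1 : DifferentiableAt ℝ (fun y : Cm n => y i - c) z := (coord_diff i c z).restrictScalars ℝ
  have h2 : DifferentiableAt ℝ (fun y : Cm n => cj (y i - c)) z :=
    Complex.conjCLE.differentiableAt.comp z h1
  rw [sq_eq, dz_mul h1 h2, dz_coord, dz_cj h1, dzb_of_holo (coord_diff i c z)]
  simp [cj]

theorem cHess_sq (i j k : Fin n) (c : ℂ) (z : Cm n) :
    cHess (sq (n := n) i c) z j k = (if j = i then 1 else 0) * (if k = i then 1 else 0) := by
  rw [cHess_apply]
  have h : dzb k (fun y : Cm n => ((sq i c y : ℝ) : ℂ)) =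
      fun z => (z i - c) * (if k = i then 1 else 0) := funext fun z => dzb_sq i k c z
  rw [h]
  have h1 : DifferentiableAt ℝ (fun y : Cm n => y i - c) z := (coord_diff i c z).restrictScalars ℝ
  rw [dz_mul h1 (differentiableAt_const _), dz_coord]
  have h3 : dz j (fun _ : Cm n => ((if k = i then 1 else 0 : ℂ))) z = 0 := by simp [dz]
  rw [h3, mul_zero, add_zero]

theorem trace_sq (i : Fin n) (c : ℂ) (z : Cm n) :
    (Matrix.trace (cHess (sq (n := n) i c) z)).re = 1 := by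
  rw [Matrix.trace]
  simp only [Matrix.diag_apply, cHess_sq]
  simp

/-- one summand of the barrier -/
def lb (R : ℝ) (i : Fin n) (c : ℂ) (z : Cm n) : ℝ := -Real.log (R ^ 2 - sq i c z)

theorem lb_contDiff {R : ℝ} {i : Fin n} {c : ℂ} {z : Cm n} (h : sq i c z < R ^ 2)
    {k : WithTop ℕ∞} : ContDiffAt ℝ k (lb (n := n) R i c) z := by
  have h0 : R ^ 2 - sq i c z ≠ 0 := (sub_pos.2 h).ne'
  exact ((contDiffAt_const.sub (sq_contDiff i c z)).log h0).neg

theorem trace_lb {R : ℝ} {i : Fin n} {c : ℂ} {z : Cm n} (h : sq i c z < R ^ 2) :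
    (Matrix.trace (cHess (lb (n := n) R i c) z)).re = R ^ 2 * (R ^ 2 - sq i c z)⁻¹ ^ 2 := by
  have hpos : 0 < R ^ 2 - sq i c z := by linarith
  have h1 : ∀ᶠ s in 𝓝 (sq i c z), HasDerivAt (fun s => -Real.log (R ^ 2 - s)) ((R ^ 2 - s)⁻¹) s := by
    filter_upwards [gt_mem_nhds h] with s hs
    have k1 : HasDerivAt (fun s => R ^ 2 - s) (-1) s := by
      simpa using (hasDerivAt_id s).const_sub (R ^ 2)
    have k2 := (k1.log (sub_pos.2 hs).ne').neg
    refine k2.congr_deriv ?_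
    rw [neg_div, neg_neg, one_div]
  have h2 : HasDerivAt (fun s => (R ^ 2 - s)⁻¹) ((R ^ 2 - sq i c z)⁻¹ ^ 2) (sq i c z) := by
    have k1 : HasDerivAt (fun s => R ^ 2 - s) (-1) (sq i c z) := by
      simpa using (hasDerivAt_id (sq i c z)).const_sub (R ^ 2)
    have k2 := k1.inv hpos.ne'
    refine k2.congr_deriv ?_
    rw [neg_neg, one_div, inv_pow]
  have h3 := fun j k => C2.cHess_comp (u := sq (n := n) i c) h1 h2 (sq_contDiff i c z) j k
  have h3' : ∀ j k, cHess (lb (n := n) R i c) z j k =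
      (((R ^ 2 - sq i c z)⁻¹ : ℝ) : ℂ) * cHess (sq (n := n) i c) z j k +
      (((R ^ 2 - sq i c z)⁻¹ ^ 2 : ℝ) : ℂ) * (dz j (fun y => ((sq i c y : ℝ) : ℂ)) z *
        dzb k (fun y => ((sq i c y : ℝ) : ℂ)) z) := h3
  rw [Matrix.trace]
  simp only [Matrix.diag_apply, h3', cHess_sq, dz_sq, dzb_sq]
  rw [Finset.sum_eq_single i]
  · have h4 : cj (z i - c) * (z i - c) = ((sq i c z : ℝ) : ℂ) := by
      rw [mul_comm]; exact (congrFun (sq_eq i c) z).symm
    simp only [if_true, one_mul, mul_one]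
    rw [h4, ← Complex.ofReal_mul, ← Complex.ofReal_add, Complex.ofReal_re]
    field_simp
    ring
  · intro j _ hj
    simp [hj]
  · intro hi; exact absurd (Finset.mem_univ i) hi

/-! ### The barrier -/

/-- the barrier on the polydisc of centre `c` and radius `R`, with curvature constant `κ` -/
def hB (κ R : ℝ) (c z : Cm n) : ℝ :=
  n * Real.log (4 * n ^ 2 * R ^ (4 * n - 2) / κ) + 2 * n * ∑ i, lb R i (c i) z

theorem sq_lt {R : ℝ} (hR : 0 < R) {c z : Cm n} (hz : z ∈ ball c R) (i : Fin n) :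
    sq i (c i) z < R ^ 2 := by
  rw [mem_ball, dist_eq_norm] at hz
  have : ‖z i - c i‖ < R := lt_of_le_of_lt (norm_le_pi_norm (z - c) i) hz
  rw [sq]
  exact pow_lt_pow_left₀ this (norm_nonneg _) two_ne_zero

theorem hB_contDiff {κ R : ℝ} (hR : 0 < R) {c z : Cm n} (hz : z ∈ ball c R) {k : WithTop ℕ∞} :
    ContDiffAt ℝ k (hB κ R c) z :=
  contDiffAt_const.add (contDiffAt_const.mul
    (ContDiffAt.sum fun i _ => lb_contDiff (sq_lt hR hz i)))

theorem hB_center {κ R : ℝ} (hn : 1 ≤ n) (hκ : 0 < κ) (hR : 0 < R) (c : Cm n) :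
    hB κ R c c = n * Real.log (4 * n ^ 2 / κ) - 2 * n * Real.log R := by
  have h1 : ∀ i, lb (n := n) R i (c i) c = -(2 * Real.log R) := by
    intro i
    rw [lb, sq, sub_self, norm_zero, zero_pow two_ne_zero, sub_zero, Real.log_pow]
    norm_num
  rw [hB]
  simp only [h1, Finset.sum_const, Finset.card_univ, Fintype.card_fin, nsmul_eq_mul]
  have hn' : (0 : ℝ) < n := by exact_mod_cast hn
  have h2 : 4 * (n : ℝ) ^ 2 * R ^ (4 * n - 2) / κ = (4 * n ^ 2 / κ) * R ^ (4 * n - 2) := by ring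
  rw [h2, Real.log_mul (by positivity) (by positivity), Real.log_pow]
  have h3 : ((4 * n - 2 : ℕ) : ℝ) = 4 * n - 2 := by
    rw [Nat.cast_sub (by omega)]; push_cast; ring
  rw [h3]
  ring

theorem lb_ge {R : ℝ} (hR : 0 < R) {c z : Cm n} (hz : z ∈ ball c R) (i : Fin n) :
    -(2 * Real.log R) ≤ lb (n := n) R i (c i) z := by
  have h1 := sq_lt hR hz i
  have h0 : 0 ≤ sq i (c i) z := by rw [sq]; positivity
  rw [lb, neg_le_neg_iff]
  have : (2 : ℝ) * Real.log R = Real.log (R ^ 2) := by rw [Real.log_pow]; norm_num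
  rw [this]
  exact Real.log_le_log (by linarith) (by linarith)

theorem hB_ge {κ R : ℝ} (hR : 0 < R) {c z : Cm n} (hz : z ∈ ball c R) :
    hB κ R c c ≤ hB κ R c z := by
  rw [hB, hB]
  have h : ∑ i, lb (n := n) R i (c i) c ≤ ∑ i, lb R i (c i) z := by
    refine Finset.sum_le_sum fun i _ => ?_
    have h1 : lb (n := n) R i (c i) c = -(2 * Real.log R) := by
      rw [lb, sq, sub_self, norm_zero, zero_pow two_ne_zero, sub_zero, Real.log_pow]
      norm_num
    rw [h1]
    exact lb_ge hR hz i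
  have hn : (0 : ℝ) ≤ 2 * n := by positivity
  nlinarith [mul_le_mul_of_nonneg_left h hn]

theorem cHess_sum {ι : Type*} (s : Finset ι) {F : ι → Cm n → ℝ} {z : Cm n}
    (hF : ∀ b ∈ s, ContDiffAt ℝ 2 (F b) z) :
    cHess (fun y => ∑ b ∈ s, F b y) z = ∑ b ∈ s, cHess (F b) z := by
  classical
  induction s using Finset.induction_on with
  | empty => simp [C2.cHess_const]
  | insert a s ha ih =>
    simp only [Finset.sum_insert ha]
    rw [C2.cHess_add (hF a (Finset.mem_insert_self a s))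
      (ContDiffAt.sum fun b hb => hF b (Finset.mem_insert_of_mem hb)),
      ih fun b hb => hF b (Finset.mem_insert_of_mem hb)]

theorem trace_sum_re {ι : Type*} (s : Finset ι) (A : ι → Matrix (Fin n) (Fin n) ℂ) :
    (Matrix.trace (∑ b ∈ s, A b)).re = ∑ b ∈ s, (Matrix.trace (A b)).re := by
  rw [Matrix.trace_sum, Complex.re_sum]

/-- the curvature of the barrier is at most `κ/2 * exp (h / n)` -/
theorem hB_trace {κ R : ℝ} (hn : 1 ≤ n) (hκ : 0 < κ) (hR : 0 < R) {c z : Cm n}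
    (hz : z ∈ ball c R) :
    (Matrix.trace (cHess (hB κ R c) z)).re ≤ κ / 2 * Real.exp (hB κ R c z / n) := by
  have hc : ∀ i, ContDiffAt ℝ 2 (lb (n := n) R i (c i)) z := fun i => lb_contDiff (sq_lt hR hz i)
  have hn' : (0 : ℝ) < n := by exact_mod_cast hn
  have e1 : cHess (hB κ R c) z = ((2 * n : ℝ) : ℂ) • ∑ i, cHess (lb (n := n) R i (c i)) z := by
    have k1 : ContDiffAt ℝ 2 (fun z => ∑ i, lb (n := n) R i (c i) z) z :=
      ContDiffAt.sum fun i _ => hc i
    have k2 : hB κ R c = fun z => n * Real.log (4 * n ^ 2 * R ^ (4 * n - 2) / κ) +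
      (2 * n : ℝ) * ∑ i, lb R i (c i) z := rfl
    rw [k2, C2.cHess_add contDiffAt_const (contDiffAt_const.mul k1), C2.cHess_const, zero_add,
      C2.cHess_const_mul _ k1, cHess_sum _ fun i _ => hc i]
  rw [e1, Matrix.trace_smul, smul_eq_mul, Complex.re_ofReal_mul, trace_sum_re]
  set x : Fin n → ℝ := fun i => (R ^ 2 - sq i (c i) z)⁻¹ with hx
  have hx0 : ∀ i, 0 < R ^ 2 - sq i (c i) z := fun i => sub_pos.2 (sq_lt hR hz i)
  have hxp : ∀ i, 0 < x i := fun i => inv_pos.2 (hx0 i)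
  have hx1 : ∀ i, 1 ≤ R ^ 4 * x i ^ 2 := by
    intro i
    have k1 : R ^ 2 - sq i (c i) z ≤ R ^ 2 := by
      have : 0 ≤ sq i (c i) z := by rw [sq]; positivity
      linarith
    have k2 : 1 ≤ R ^ 2 * x i := by
      rw [hx]; simp only
      rw [← div_eq_mul_inv, one_le_div (hx0 i)]
      exact k1
    have : R ^ 4 * x i ^ 2 = (R ^ 2 * x i) ^ 2 := by ring
    rw [this]; exact one_le_pow₀ k2
  have e2 : ∀ i, (Matrix.trace (cHess (lb (n := n) R i (c i)) z)).re = R ^ 2 * x i ^ 2 := fun i =>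
    trace_lb (sq_lt hR hz i)
  simp only [e2]
  -- each term is bounded by the product
  have e3 : ∀ i, x i ^ 2 ≤ R ^ (4 * (n - 1)) * ∏ k, x k ^ 2 := by
    intro i
    rw [← Finset.mul_prod_erase Finset.univ (fun k => x k ^ 2) (Finset.mem_univ i)]
    have k1 : R ^ (4 * (n - 1)) = ∏ k ∈ Finset.univ.erase i, R ^ 4 := by
      rw [Finset.prod_const, Finset.card_erase_of_mem (Finset.mem_univ i), Finset.card_univ,
        Fintype.card_fin, ← pow_mul]
    have k2 : R ^ (4 * (n - 1)) * (x i ^ 2 * ∏ k ∈ Finset.univ.erase i, x k ^ 2) =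
        x i ^ 2 * ∏ k ∈ Finset.univ.erase i, (R ^ 4 * x k ^ 2) := by
      rw [k1, Finset.prod_mul_distrib]; ring
    rw [k2]
    have k3 : (1 : ℝ) ≤ ∏ k ∈ Finset.univ.erase i, (R ^ 4 * x k ^ 2) := by
      have := Finset.prod_le_prod (s := Finset.univ.erase i) (f := fun _ => (1 : ℝ))
        (g := fun k => R ^ 4 * x k ^ 2) (fun _ _ => zero_le_one) fun k _ => hx1 k
      simpa using this
    nlinarith [sq_nonneg (x i)]
  have e4 : Real.exp (hB κ R c z / n) = 4 * n ^ 2 * R ^ (4 * n - 2) / κ * ∏ k, x k ^ 2 := by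
    have k1 : hB κ R c z / n = Real.log (4 * n ^ 2 * R ^ (4 * n - 2) / κ) +
        ∑ i, 2 * Real.log (x i) := by
      rw [hB]
      have : ∀ i, lb (n := n) R i (c i) z = Real.log (x i) := by
        intro i; rw [hx]; simp only; rw [Real.log_inv, lb]
      simp only [this]
      rw [← Finset.mul_sum]
      field_simp
    rw [k1, Real.exp_add, Real.exp_log (by positivity), Real.exp_sum]
    congr 1
    refine Finset.prod_congr rfl fun i _ => ?_
    have : (2 : ℝ) * Real.log (x i) = Real.log (x i ^ 2) := by rw [Real.log_pow]; norm_num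
    rw [this, Real.exp_log (by have := hxp i; positivity)]
  rw [e4]
  set Pr : ℝ := ∏ k, x k ^ 2 with hPr
  have e5 : ∑ i, R ^ 2 * x i ^ 2 ≤ n * (R ^ 2 * (R ^ (4 * (n - 1)) * Pr)) := by
    have k1 : ∀ i ∈ Finset.univ, R ^ 2 * x i ^ 2 ≤ R ^ 2 * (R ^ (4 * (n - 1)) * Pr) := fun i _ =>
      mul_le_mul_of_nonneg_left (e3 i) (by positivity)
    have := Finset.sum_le_sum k1
    simpa [Finset.sum_const] using this
  have e6 : R ^ 2 * R ^ (4 * (n - 1)) = R ^ (4 * n - 2) := by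
    rw [← pow_add]; congr 1; omega
  calc 2 * (n : ℝ) * ∑ i, R ^ 2 * x i ^ 2 ≤ 2 * n * (n * (R ^ 2 * (R ^ (4 * (n - 1)) * Pr))) := by
        gcongr
    _ = 2 * n ^ 2 * (R ^ 2 * R ^ (4 * (n - 1))) * Pr := by ring
    _ = 2 * n ^ 2 * R ^ (4 * n - 2) * Pr := by rw [e6]
    _ = κ / 2 * (4 * n ^ 2 * R ^ (4 * n - 2) / κ * Pr) := by field_simp; ring

end Vale.Agent.P284.H812
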