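import Vale.Agent.P284.H812.Ext2
import Vale.Agent.P272.K.Inv.Compact
import Vale.Agent.P272.K.Iface

/-!
# P284 (helper812): branches and change of charts
-/

open scoped Manifold Topology ComplexConjugate InnerProductSpace ContDiff
open Filter Set Metric

noncomputable section

namespace Vale.Agent.P284.H812

open Vale.Agent.P272.K Vale.Agent.P272.KOD

section
variable {n : ℕ} {Z : Type*} [TopologicalSpace Z] [ChartedSpace (Cm n) Z]

/-- the map `f` read in another chart -/
def brT (e e' : Chart n Z) (f : Cm n → Cm n) : Cm n → Cm n := fun z => e' (e.symm (f z))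

variable [IsManifold 𝓘(ℂ, Cm n) ω Z] {e e' : Chart n Z} {f : Cm n → Cm n} {z : Cm n}

theorem det_transition {x : Z} (h : At e x) (h' : At e' x) :
    (fderiv ℂ (fun y => e' (e.symm y)) (e x)).det = (jacM e e' x).det := by
  rw [det_eq, jacM_eq]
  congr 1
  ext p i
  rw [Matrix.of_apply, jmat_apply (transition_differentiableAt h h')]

theorem brT_analytic (hf : AnalyticAt ℂ f z) (h : At e (e.symm (f z))) (ht : f z ∈ e.target)
    (h' : At e' (e.symm (f z))) : AnalyticAt ℂ (brT e e' f) z := by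
  have h1 := (transition h h').analyticAt
  rw [e.right_inv ht] at h1
  exact h1.comp_of_eq hf rfl

theorem brT_det (hf : AnalyticAt ℂ f z) (h : At e (e.symm (f z))) (ht : f z ∈ e.target)
    (h' : At e' (e.symm (f z))) :
    (fderiv ℂ (brT e e' f) z).det = (jacM e e' (e.symm (f z))).det * (fderiv ℂ f z).det := by
  have h1 := transition_differentiableAt h h'
  have h2 := det_transition h h'
  rw [e.right_inv ht] at h1 h2
  have h3 : fderiv ℂ (brT e e' f) z =
      (fderiv ℂ (fun y => e' (e.symm y)) (f z)).comp (fderiv ℂ f z) :=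
    fderiv_comp z (g := fun y => e' (e.symm y)) h1 hf.differentiableAt
  rw [h3, ← h2]
  exact LinearMap.det_comp _ _

omit [IsManifold 𝓘(ℂ, Cm n) ω Z] in
/-- near `ζ` the point `e.symm (f z)` lies in both charts -/
theorem br_ev (he : e ∈ atlas (Cm n) Z) (hf : AnalyticAt ℂ f z) (ht : f z ∈ e.target)
    (h' : At e' (e.symm (f z))) :
    ∀ᶠ y in 𝓝 z, AnalyticAt ℂ f y ∧ f y ∈ e.target ∧ At e (e.symm (f y)) ∧ At e' (e.symm (f y)) := by
  have h1 := (At.of_target he ht).nhds_at h'
  rw [e.right_inv ht] at h1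
  filter_upwards [hf.eventually_analyticAt, hf.continuousAt.eventually h1] with y k1 k2
  exact ⟨k1, k2⟩

/-- a branch read in another chart is a branch -/
theorem IsBranch.change {m : ℕ} {H' : Type*} [NormedAddCommGroup H'] {N : Chart n Z → Cm n → ℝ}
    {V : Cm n → H'} {ζ : Cm n} (hb : IsBranch m N V ζ e f)
    (hN : ∀ e e' x, At e x → At e' x → N e (e x) = N e' (e' x) * (‖(jacM e e' x).det‖ ^ 2) ^ m)
    (h' : At e' (e.symm (f ζ))) : IsBranch m N V ζ e' (brT e e' f) := by
  refine ⟨h'.1, e'.map_source h'.2, brT_analytic hb.an (At.of_target hb.mem hb.tgt) hb.tgt h', ?_⟩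
  filter_upwards [br_ev hb.mem hb.an hb.tgt h', hb.eq] with y hy hy2
  rw [brT_det hy.1 hy.2.2.1 hy.2.1 hy.2.2.2, ← hy2]
  have := hN e e' _ hy.2.2.1 hy.2.2.2
  rw [e.right_inv hy.2.1] at this
  rw [this, norm_mul, mul_pow, mul_pow, brT]
  ring

/-- the squared norm of the branch of `τ`, with weight `w` -/
def Pv {M : ℕ} (τ : PSec n M Z) (w : Chart n Z → Cm n → ℝ) (e : Chart n Z) (f : Cm n → Cm n)
    (z : Cm n) : ℝ :=
  ‖τ.coeff e (f z)‖ ^ 2 * Real.exp (w e (f z)) * (‖(fderiv ℂ f z).det‖ ^ 2) ^ (M + 1)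

omit [IsManifold 𝓘(ℂ, Cm n) ω Z] in
theorem Pv_nonneg {M : ℕ} (τ : PSec n M Z) (w : Chart n Z → Cm n → ℝ) (e : Chart n Z)
    (f : Cm n → Cm n) (z : Cm n) : 0 ≤ Pv τ w e f z := by
  unfold Pv; positivity

theorem Pv_change {M : ℕ} (τ : PSec n M Z) {w : Chart n Z → Cm n → ℝ} (hw : IsCanonicalMetric w)
    (hf : AnalyticAt ℂ f z) (h : At e (e.symm (f z))) (ht : f z ∈ e.target)
    (h' : At e' (e.symm (f z))) : Pv τ w e' (brT e e' f) z = Pv τ w e f z := by
  have hd := jacM_det_ne_zero h h'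
  have h1 := τ.change e e' _ h h'
  have h2 := hw.change e e' _ h h'
  rw [e.right_inv ht] at h1 h2
  unfold Pv
  rw [brT_det hf h ht h', h1, h2, Real.exp_add, Real.exp_log (by positivity), brT]
  simp only [norm_mul, norm_pow, mul_pow]
  ring

end

end Vale.Agent.P284.H812
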