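import Vale.Agent.P284.H812.Ext

/-!
# P284 (helper812): extension of branches over balls of uniform radius, 2
-/

open scoped Topology ComplexConjugate InnerProductSpace ContDiff
open Filter Set Metric

noncomputable section

namespace Vale.Agent.P284.H812

open Vale.Agent.P272.K

section
variable {n : ℕ} {H : Type*} [NormedAddCommGroup H] [InnerProductSpace ℂ H]

/-- the local inverse of `chi` -/
theorem exists_inv {v : Cm n → H} {y₀ : Cm n} (hv : AnalyticAt ℂ v y₀) (h0 : v y₀ ≠ 0)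
    (him : ∀ (ξ : Cm n) (c : ℂ), fderiv ℂ v y₀ ξ = c • v y₀ → ξ = 0) {ρ : ℝ} (hρ : 0 < ρ) :
    ∃ (η r : ℝ) (g : Cm n → Cm n), 0 < η ∧ 0 < r ∧ r ≤ ρ ∧ DifferentiableOn ℂ g (ball 0 η) ∧
      MapsTo g (ball 0 η) (ball y₀ ρ) ∧ MapsTo (chi v y₀) (ball y₀ r) (ball 0 (η / 2)) ∧
      (∀ y ∈ ball y₀ r, g (chi v y₀ y) = y) := by
  have hne : ⟪v y₀, v y₀⟫_ℂ ≠ 0 := inner_self_ne_zero.2 h0
  set D : Cm n →L[ℂ] Cm n := (⟪v y₀, v y₀⟫_ℂ)⁻¹ •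
      (ContinuousLinearMap.pi fun j => innerSL ℂ (pv v y₀ j)).comp (fderiv ℂ v y₀) with hD
  have hDe : ∀ ξ j, D ξ j = (⟪v y₀, v y₀⟫_ℂ)⁻¹ * ⟪pv v y₀ j, fderiv ℂ v y₀ ξ⟫_ℂ := by
    intro ξ j
    simp [hD]
  have hinj : Function.Injective D := by
    refine (injective_iff_map_eq_zero D).2 fun ξ hξ => chi_inj h0 him ξ fun j => ?_
    have := hDe ξ j
    rw [hξ, Pi.zero_apply] at this
    exact (mul_eq_zero.1 this.symm).resolve_left (inv_ne_zero hne)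
  set e : Cm n ≃L[ℂ] Cm n :=
    (LinearEquiv.ofInjectiveEndo D.toLinearMap hinj).toContinuousLinearEquiv with he
  have heD : (e : Cm n →L[ℂ] Cm n) = D := by
    ext ξ : 1
    simp [he, LinearEquiv.coe_toContinuousLinearEquiv']
  have h1 : HasFDerivAt (chi v y₀) (e : Cm n →L[ℂ] Cm n) y₀ := by
    rw [heD]; exact chi_hasFDerivAt hv h0
  have h2 : ContDiffAt ℂ 1 (chi v y₀) y₀ := (chi_analytic hv h0).contDiffAt
  set P := h2.toOpenPartialHomeomorph (chi v y₀) h1 one_ne_zero with hP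
  have hPs : y₀ ∈ P.source := h2.mem_toOpenPartialHomeomorph_source h1 one_ne_zero
  have hPc : ∀ y, P y = chi v y₀ y := fun y => rfl
  have h3 : ContDiffAt ℂ 1 P.symm (chi v y₀ y₀) := h2.to_localInverse h1 one_ne_zero
  have hsy : P.symm 0 = y₀ := by
    rw [← chi_self h0]
    exact P.left_inv hPs
  rw [chi_self h0] at h3
  have h4 : ∀ᶠ w in 𝓝 (0 : Cm n), DifferentiableAt ℂ P.symm w := by
    filter_upwards [h3.eventually (by simp)] with w hw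
    exact hw.differentiableAt (by simp)
  have h5 : ∀ᶠ w in 𝓝 (0 : Cm n), P.symm w ∈ ball y₀ ρ := by
    have := h3.continuousAt
    rw [ContinuousAt, hsy] at this
    exact this.eventually (ball_mem_nhds _ hρ)
  obtain ⟨η, hη, hη2⟩ := Metric.eventually_nhds_iff_ball.1 (h4.and h5)
  have h6 : ∀ᶠ y in 𝓝 y₀, chi v y₀ y ∈ ball (0 : Cm n) (η / 2) := by
    have := (chi_analytic hv h0).continuousAt
    rw [ContinuousAt, chi_self h0] at this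
    exact this.eventually (ball_mem_nhds _ (half_pos hη))
  have h7 : ∀ᶠ y in 𝓝 y₀, y ∈ P.source := P.open_source.mem_nhds hPs
  obtain ⟨r, hr, hr2⟩ := Metric.eventually_nhds_iff_ball.1 (h6.and h7)
  refine ⟨η, min r ρ, P.symm, hη, lt_min hr hρ, min_le_right _ _,
    fun w hw => (hη2 w hw).1.differentiableWithinAt, fun w hw => (hη2 w hw).2,
    fun y hy => (hr2 y (ball_subset_ball (min_le_left _ _) hy)).1, fun y hy => ?_⟩
  exact P.left_inv (hr2 y (ball_subset_ball (min_le_left _ _) hy)).2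

/-- estimate of a quotient -/
theorem quot_est {A A₀ B B₀ : ℂ} {x l κ V : ℝ} (hx : 0 < x) (hV : 0 < V) (hl : 0 ≤ l)
    (hκ : 0 ≤ κ) (h1 : ‖B - B₀‖ ≤ l * (κ * V)) (h2 : x / 8 * V ≤ ‖A‖)
    (h3 : x / 4 * V ≤ ‖A₀‖) (h4 : ‖B₀‖ ≤ l * V) (h5 : ‖A₀ - A‖ ≤ x * (κ * V)) :
    ‖A⁻¹ * B - A₀⁻¹ * B₀‖ ≤ 40 * l * κ / x := by
  have hA : 0 < ‖A‖ := lt_of_lt_of_le (by positivity) h2
  have hA0 : 0 < ‖A₀‖ := lt_of_lt_of_le (by positivity) h3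
  have hAn : A ≠ 0 := norm_pos_iff.1 hA
  have hAn0 : A₀ ≠ 0 := norm_pos_iff.1 hA0
  have e : A⁻¹ * B - A₀⁻¹ * B₀ = A⁻¹ * (B - B₀) + A⁻¹ * A₀⁻¹ * (B₀ * (A₀ - A)) := by
    field_simp
    ring
  have i1 : ‖A‖⁻¹ ≤ (x / 8 * V)⁻¹ := inv_anti₀ (by positivity) h2
  have i2 : ‖A₀‖⁻¹ ≤ (x / 4 * V)⁻¹ := inv_anti₀ (by positivity) h3
  have b1 : ‖A⁻¹ * (B - B₀)‖ ≤ (x / 8 * V)⁻¹ * (l * (κ * V)) := by
    rw [norm_mul, norm_inv]
    exact mul_le_mul i1 h1 (norm_nonneg _) (by positivity)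
  have b2 : ‖A⁻¹ * A₀⁻¹ * (B₀ * (A₀ - A))‖ ≤
      (x / 8 * V)⁻¹ * (x / 4 * V)⁻¹ * ((l * V) * (x * (κ * V))) := by
    rw [norm_mul, norm_mul, norm_mul, norm_inv, norm_inv]
    exact mul_le_mul (mul_le_mul i1 i2 (by positivity) (by positivity))
      (mul_le_mul h4 h5 (norm_nonneg _) (by positivity)) (by positivity) (by positivity)
  rw [e]
  refine (norm_add_le _ _).trans ((add_le_add b1 b2).trans (le_of_eq ?_))
  field_simp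
  ring

/-- extension of a branch over a ball of uniform radius, local form -/
theorem ext_patch (m : ℕ) {v : Cm n → H} {y₀ : Cm n} {ρ₂ : ℝ} (hρ₂ : 0 < ρ₂)
    (hv : AnalyticOnNhd ℂ v (ball y₀ ρ₂)) (h0 : v y₀ ≠ 0)
    (him : ∀ (ξ : Cm n) (c : ℂ), fderiv ℂ v y₀ ξ = c • v y₀ → ξ = 0)
    (H' : Type*) [NormedAddCommGroup H'] [InnerProductSpace ℂ H'] [CompleteSpace H'] :
    ∃ r κ : ℝ, 0 < r ∧ r ≤ ρ₂ ∧ 0 < κ ∧
      ∀ (V : Cm n → H') (ζ : Cm n) (s : ℝ) (f : Cm n → Cm n), 0 < s →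
        DifferentiableOn ℂ V (ball ζ s) → AnalyticAt ℂ f ζ → f ζ ∈ ball y₀ r →
        (∀ᶠ z in 𝓝 ζ, ‖v (f z)‖ ^ 2 * (‖(fderiv ℂ f z).det‖ ^ 2) ^ m = ‖V z‖ ^ 2) → V ζ ≠ 0 →
        (∀ z ∈ ball ζ s, ‖V z - V ζ‖ ≤ κ * ‖V ζ‖) →
        ∃ F : Cm n → Cm n, DifferentiableOn ℂ F (ball ζ s) ∧ F =ᶠ[𝓝 ζ] f ∧
          MapsTo F (ball ζ s) (ball y₀ ρ₂) ∧
          ∀ z ∈ ball ζ s, ‖v (F z)‖ ^ 2 * (‖(fderiv ℂ F z).det‖ ^ 2) ^ m = ‖V z‖ ^ 2 := by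
  have hy0 : y₀ ∈ ball y₀ ρ₂ := mem_ball_self hρ₂
  set a := v y₀ with ha
  have ha0 : 0 < ‖a‖ := norm_pos_iff.2 h0
  have hvc : ∀ᶠ y in 𝓝 y₀, ‖v y - a‖ ≤ ‖a‖ / 4 := by
    have h1 : Tendsto (fun y => ‖v y - a‖) (𝓝 y₀) (𝓝 ‖a - a‖) :=
      ((hv y₀ hy0).continuousAt.sub continuousAt_const).norm
    rw [sub_self, norm_zero] at h1
    exact (h1.eventually (gt_mem_nhds (by positivity : (0 : ℝ) < ‖a‖ / 4))).mono fun _ h => le_of_lt h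
  obtain ⟨ρ₄, hρ₄, hρ₄2⟩ := Metric.eventually_nhds_iff_ball.1 hvc
  set ρ₃ := min ρ₂ ρ₄ with hρ₃
  have hρ₃0 : 0 < ρ₃ := lt_min hρ₂ hρ₄
  obtain ⟨η, r, g, hη, hr, hrρ, hg, hgm, hchi, hgi⟩ := exists_inv (hv y₀ hy0) h0 him hρ₃0
  set Ls : ℝ := ∑ j, ‖pv v y₀ j‖ with hLs
  have hLs0 : 0 ≤ Ls := Finset.sum_nonneg fun _ _ => norm_nonneg _
  set κ : ℝ := min (1 / 8) (η * ‖a‖ / (256 * (Ls + 1))) with hκ
  have hκ0 : 0 < κ := lt_min (by norm_num) (by positivity)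
  refine ⟨r, κ, hr, hrρ.trans (min_le_left _ _), hκ0, ?_⟩
  intro V ζ s f hs hV hf hfζ hbr hVζ hκV
  have hVζ0 : 0 < ‖V ζ‖ := norm_pos_iff.2 hVζ
  -- a small ball on which everything is defined
  have e1 : ∀ᶠ z in 𝓝 ζ, AnalyticAt ℂ f z := hf.eventually_analyticAt
  have e2 : ∀ᶠ z in 𝓝 ζ, f z ∈ ball y₀ r := hf.continuousAt.eventually (isOpen_ball.mem_nhds hfζ)
  have e3 : ∀ᶠ z in 𝓝 ζ, z ∈ ball ζ s := ball_mem_nhds _ hs
  obtain ⟨s₀, hs₀, hs₀2⟩ := Metric.eventually_nhds_iff_ball.1 ((e1.and e2).and (hbr.and e3))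
  set vq : Cm n → H := fun z => (fderiv ℂ f z).det ^ m • v (f z) with hvq
  have hvqd : DifferentiableOn ℂ vq (ball ζ s₀) := by
    intro z hz
    obtain ⟨⟨k1, k2⟩, _, _⟩ := hs₀2 z hz
    have k4 : DifferentiableAt ℂ (fun z => v (f z)) z :=
      DifferentiableAt.comp z (hv _ (ball_subset_ball (hrρ.trans (min_le_left _ _)) k2)).differentiableAt
        k1.differentiableAt
    exact (((analyticAt_det k1).differentiableAt.pow m).smul k4).differentiableWithinAt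
  have hVd : DifferentiableOn ℂ V (ball ζ s₀) := hV.mono fun z hz => (hs₀2 z hz).2.2
  have hnorm : ∀ z ∈ ball ζ s₀, ‖vq z‖ = ‖V z‖ := by
    intro z hz
    have := (hs₀2 z hz).2.1
    rw [← norm_smul_sq (n := n)] at this
    exact (sq_eq_sq₀ (norm_nonneg _) (norm_nonneg _)).1 this
  have hcal := fun l => calabi isOpen_ball (convex_ball ζ s₀) hvqd hVd hnorm l
  obtain ⟨a', ha'1, ha'2⟩ := hcal a
  choose l' hl'1 hl'2 using fun j => hcal (pv v y₀ j)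
  set θ : Cm n → Cm n := fun z => (⟪a', V z⟫_ℂ)⁻¹ • fun j => ⟪l' j, V z⟫_ℂ with hθ
  have hζ0 : ζ ∈ ball ζ s₀ := mem_ball_self hs₀
  have hζs : ζ ∈ ball ζ s := mem_ball_self hs
  -- lower bound at `ζ`
  have hvb : ∀ y ∈ ball y₀ ρ₃, ‖a‖ ^ 2 / 2 ≤ ‖⟪a, v y⟫_ℂ‖ ∧ ‖v y‖ ≤ 2 * ‖a‖ := by
    intro y hy
    have k1 := hρ₄2 y (ball_subset_ball (min_le_right _ _) hy)
    constructor
    · have k2 : ⟪a, v y⟫_ℂ = ⟪a, a⟫_ℂ + ⟪a, v y - a⟫_ℂ := by rw [← inner_add_right, add_sub_cancel]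
      have k3 : ‖⟪a, v y - a⟫_ℂ‖ ≤ ‖a‖ * (‖a‖ / 4) :=
        (norm_inner_le_norm _ _).trans (mul_le_mul_of_nonneg_left k1 ha0.le)
      have k4 : ‖⟪a, a⟫_ℂ‖ = ‖a‖ ^ 2 := by
        rw [inner_self_eq_norm_sq_to_K]; simp
      have k5 : ‖⟪a, a⟫_ℂ‖ ≤ ‖⟪a, v y⟫_ℂ‖ + ‖⟪a, v y - a⟫_ℂ‖ := by
        have : ⟪a, a⟫_ℂ = ⟪a, v y⟫_ℂ - ⟪a, v y - a⟫_ℂ := by rw [k2]; ring
        rw [this]; exact norm_sub_le _ _
      nlinarith
    · have k2 : ‖v y‖ ≤ ‖a‖ + ‖v y - a‖ := by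
        have : v y = a + (v y - a) := by abel
        nth_rewrite 1 [this]; exact norm_add_le _ _
      linarith
  have hfζ3 : f ζ ∈ ball y₀ ρ₃ := ball_subset_ball hrρ hfζ
  have hA0 : ‖a‖ / 4 * ‖V ζ‖ ≤ ‖⟪a', V ζ⟫_ℂ‖ := by
    rw [← ha'2 ζ hζ0, ← hnorm ζ hζ0, hvq]
    simp only [inner_smul_right, norm_smul, norm_mul]
    obtain ⟨k1, k2⟩ := hvb _ hfζ3
    have k3 : 0 ≤ ‖(fderiv ℂ f ζ).det ^ m‖ := norm_nonneg _
    calc ‖a‖ / 4 * (‖(fderiv ℂ f ζ).det ^ m‖ * ‖v (f ζ)‖)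
        ≤ ‖a‖ / 4 * (‖(fderiv ℂ f ζ).det ^ m‖ * (2 * ‖a‖)) := by gcongr
      _ = ‖(fderiv ℂ f ζ).det ^ m‖ * (‖a‖ ^ 2 / 2) := by ring
      _ ≤ _ := by gcongr
  have hAz : ∀ z ∈ ball ζ s, ‖⟪a', V ζ⟫_ℂ - ⟪a', V z⟫_ℂ‖ ≤ ‖a‖ * (κ * ‖V ζ‖) := by
    intro z hz
    rw [← inner_sub_right]
    have k0 : ‖V ζ - V z‖ ≤ κ * ‖V ζ‖ := by rw [norm_sub_rev]; exact hκV z hz
    exact (norm_inner_le_norm _ _).trans (mul_le_mul ha'1 k0 (norm_nonneg _) ha0.le)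
  have hA : ∀ z ∈ ball ζ s, ‖a‖ / 8 * ‖V ζ‖ ≤ ‖⟪a', V z⟫_ℂ‖ := by
    intro z hz
    have k1 : ‖⟪a', V ζ⟫_ℂ‖ ≤ ‖⟪a', V z⟫_ℂ‖ + ‖⟪a', V ζ⟫_ℂ - ⟪a', V z⟫_ℂ‖ := by
      have : ⟪a', V ζ⟫_ℂ = ⟪a', V z⟫_ℂ + (⟪a', V ζ⟫_ℂ - ⟪a', V z⟫_ℂ) := by ring
      nth_rewrite 1 [this]; exact norm_add_le _ _
    have k2 := hAz z hz
    have k3 : ‖a‖ * (κ * ‖V ζ‖) ≤ ‖a‖ * (1 / 8 * ‖V ζ‖) := by
      have : κ ≤ 1 / 8 := min_le_left _ _
      gcongr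
    linarith
  have hne : ∀ z ∈ ball ζ s, ⟪a', V z⟫_ℂ ≠ 0 := fun z hz =>
    norm_pos_iff.1 (lt_of_lt_of_le (by positivity) (hA z hz))
  have hθd : DifferentiableOn ℂ θ (ball ζ s) := by
    intro z hz
    have k1 : DifferentiableAt ℂ V z := (hV z hz).differentiableAt (isOpen_ball.mem_nhds hz)
    have k2 : DifferentiableAt ℂ (fun z => ⟪a', V z⟫_ℂ) z := (innerSL ℂ a').differentiableAt.comp z k1
    have k3 : DifferentiableAt ℂ (fun z => fun j => ⟪l' j, V z⟫_ℂ) z :=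
      differentiableAt_pi.2 fun j => (innerSL ℂ (l' j)).differentiableAt.comp z k1
    exact ((k2.inv (hne z hz)).smul k3).differentiableWithinAt
  have hθchi : ∀ z ∈ ball ζ s₀, θ z = chi v y₀ (f z) := by
    intro z hz
    obtain ⟨⟨k1, k2⟩, k3, k4⟩ := hs₀2 z hz
    have hd : (fderiv ℂ f z).det ^ m ≠ 0 := by
      intro h
      have : vq z = 0 := by rw [hvq]; simp only [h, zero_smul]
      have k5 := ha'2 z hz
      rw [this, inner_zero_right] at k5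
      exact hne z k4 k5.symm
    rw [hθ, chi]
    simp only
    rw [← ha'2 z hz]
    ext j
    simp only [Pi.smul_apply, smul_eq_mul]
    rw [← hl'2 j z hz, hvq]
    simp only [inner_smul_right]
    have k6 : ⟪a, v (f z)⟫_ℂ ≠ 0 := by
      have := (hvb _ (ball_subset_ball hrρ k2)).1
      exact norm_pos_iff.1 (lt_of_lt_of_le (by positivity) this)
    rw [mul_inv, ← ha]
    field_simp
  have hθm : MapsTo θ (ball ζ s) (ball 0 η) := by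
    intro z hz
    have k0 : θ ζ ∈ ball (0 : Cm n) (η / 2) := by
      rw [hθchi ζ hζ0]; exact hchi hfζ
    have k1 : ‖θ z - θ ζ‖ ≤ η / 4 := by
      refine (pi_norm_le_iff_of_nonneg (by positivity)).2 fun j => ?_
      have k2 : ‖⟪l' j, V z⟫_ℂ - ⟪l' j, V ζ⟫_ℂ‖ ≤ ‖pv v y₀ j‖ * (κ * ‖V ζ‖) := by
        rw [← inner_sub_right]
        exact (norm_inner_le_norm _ _).trans
          (mul_le_mul (hl'1 j) (hκV z hz) (norm_nonneg _) (norm_nonneg _))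
      have k3 : ‖⟪l' j, V ζ⟫_ℂ‖ ≤ ‖pv v y₀ j‖ * ‖V ζ‖ :=
        (norm_inner_le_norm _ _).trans (mul_le_mul_of_nonneg_right (hl'1 j) (norm_nonneg _))
      have k4 := quot_est ha0 hVζ0 (norm_nonneg (pv v y₀ j)) hκ0.le k2 (hA z hz) hA0 k3 (hAz z hz)
      have k5 : (θ z - θ ζ) j = (⟪a', V z⟫_ℂ)⁻¹ * ⟪l' j, V z⟫_ℂ - (⟪a', V ζ⟫_ℂ)⁻¹ * ⟪l' j, V ζ⟫_ℂ := by
        simp [hθ]
      rw [k5]
      refine k4.trans ?_
      have k6 : ‖pv v y₀ j‖ ≤ Ls := Finset.single_le_sum (f := fun j => ‖pv v y₀ j‖)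
        (fun _ _ => norm_nonneg _) (Finset.mem_univ j)
      have k7 : κ ≤ η * ‖a‖ / (256 * (Ls + 1)) := min_le_right _ _
      rw [div_le_iff₀ ha0]
      calc 40 * ‖pv v y₀ j‖ * κ ≤ 40 * Ls * (η * ‖a‖ / (256 * (Ls + 1))) := by gcongr
        _ = (Ls / (Ls + 1)) * (40 / 256) * (η * ‖a‖) := by field_simp
        _ ≤ 1 * (40 / 256) * (η * ‖a‖) := by
            gcongr
            rw [div_le_one (by positivity)]; linarith
        _ ≤ η / 4 * ‖a‖ := by nlinarith [mul_pos hη ha0]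
    rw [mem_ball_zero_iff] at k0 ⊢
    have k2 : ‖θ z‖ ≤ ‖θ ζ‖ + ‖θ z - θ ζ‖ := by
      have : θ z = θ ζ + (θ z - θ ζ) := by abel
      nth_rewrite 1 [this]; exact norm_add_le _ _
    linarith
  have hFd : DifferentiableOn ℂ (fun z => g (θ z)) (ball ζ s) := hg.comp hθd hθm
  have hFf : (fun z => g (θ z)) =ᶠ[𝓝 ζ] f := by
    filter_upwards [ball_mem_nhds ζ hs₀] with z hz
    rw [hθchi z hz]
    exact hgi _ (hs₀2 z hz).1.2
  have hFm : MapsTo (fun z => g (θ z)) (ball ζ s) (ball y₀ ρ₂) := fun z hz =>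
    ball_subset_ball (min_le_left _ _) (hgm (hθm hz))
  refine ⟨fun z => g (θ z), hFd, hFf, hFm, ?_⟩
  set F : Cm n → Cm n := fun z => g (θ z) with hF
  have hwd : DifferentiableOn ℂ (fun z => (fderiv ℂ F z).det ^ m • v (F z)) (ball ζ s) := by
    intro z hz
    have k1 : AnalyticAt ℂ F z := analyticAt_of_diffOn isOpen_ball hFd hz
    have k4 : DifferentiableAt ℂ (fun z => v (F z)) z :=
      DifferentiableAt.comp z (hv _ (hFm hz)).differentiableAt k1.differentiableAt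
    exact (((analyticAt_det k1).differentiableAt.pow m).smul k4).differentiableWithinAt
  have hev : ∀ᶠ z in 𝓝 ζ, ‖(fderiv ℂ F z).det ^ m • v (F z)‖ = ‖V z‖ := by
    filter_upwards [hFf.eventuallyEq_nhds, hbr] with z hz hz2
    rw [hz.fderiv_eq, hz.eq_of_nhds]
    rw [← norm_smul_sq (n := n)] at hz2
    exact (sq_eq_sq₀ (norm_nonneg _) (norm_nonneg _)).1 hz2
  intro z hz
  have := norm_eq_of_eventually isOpen_ball (convex_ball ζ s) hwd hV hζs hev hz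
  rw [← norm_smul_sq (n := n), this]

end

end Vale.Agent.P284.H812
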