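import Vale.Agent.P284.H619.Sec
import Mathlib.Analysis.Complex.TaylorSeries
import Mathlib.Analysis.Calculus.FDeriv.Symmetric
import Mathlib.Analysis.InnerProductSpace.Dual
import Mathlib.LinearAlgebra.Matrix.Adjugate

/-!
# P284 (helper812): tools for the local immersion theorem
-/

open scoped InnerProductSpace Topology
open Filter Set Metric

noncomputable section

namespace Vale.Agent.P284.H812.Imm

/-! ### iterated directional derivatives -/

section dir
variable {V K : Type*} [NormedAddCommGroup V] [NormedSpace ℂ V] [NormedAddCommGroup K]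
  [NormedSpace ℂ K] [CompleteSpace K]

/-- directional derivative -/
def Dy (y : V) (Φ : V → K) : V → K := fun z => fderiv ℂ Φ z y

theorem Dy_an {y : V} {Φ : V → K} {z : V} (h : AnalyticAt ℂ Φ z) : AnalyticAt ℂ (Dy y Φ) z :=
  ((ContinuousLinearMap.apply ℂ K y).analyticAt _).comp h.fderiv

theorem it_an {y : V} {Φ : V → K} {z : V} (h : AnalyticAt ℂ Φ z) (n : ℕ) :
    AnalyticAt ℂ ((Dy y)^[n] Φ) z := by
  induction n generalizing Φ with
  | zero => exact h
  | succ n ih => exact ih (Dy_an h)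

omit [CompleteSpace K] in
theorem Dy_congr {y : V} {Φ Ψ : V → K} {z : V} (h : Φ =ᶠ[𝓝 z] Ψ) : Dy y Φ =ᶠ[𝓝 z] Dy y Ψ := by
  filter_upwards [h.fderiv (𝕜 := ℂ)] with x hx
  rw [Dy, Dy, hx]

omit [CompleteSpace K] in
theorem it_congr {y : V} {Φ Ψ : V → K} {z : V} (h : Φ =ᶠ[𝓝 z] Ψ) (n : ℕ) :
    (Dy y)^[n] Φ =ᶠ[𝓝 z] (Dy y)^[n] Ψ := by
  induction n generalizing Φ Ψ with
  | zero => exact h
  | succ n ih => exact ih (Dy_congr h)

theorem Dy_comm_at {y η : V} {Φ : V → K} {z : V} (h : AnalyticAt ℂ Φ z) :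
    Dy y (Dy η Φ) z = Dy η (Dy y Φ) z := by
  have h2 : DifferentiableAt ℂ (fderiv ℂ Φ) z := h.fderiv.differentiableAt
  have h3 : ∀ η : V, fderiv ℂ (Dy η Φ) z =
      (ContinuousLinearMap.apply ℂ K η).comp (fderiv ℂ (fderiv ℂ Φ) z) := fun η =>
    ((ContinuousLinearMap.apply ℂ K η).hasFDerivAt.comp z h2.hasFDerivAt).fderiv
  have hs : IsSymmSndFDerivAt ℂ Φ z := by
    have hc : ContDiffAt ℂ ⊤ Φ z := h.contDiffAt
    exact hc.isSymmSndFDerivAt (by simp)
  rw [Dy, Dy, h3, h3]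
  exact hs y η

theorem Dy_comm {y η : V} {Φ : V → K} {z : V} (h : AnalyticAt ℂ Φ z) :
    Dy y (Dy η Φ) =ᶠ[𝓝 z] Dy η (Dy y Φ) := by
  filter_upwards [h.eventually_analyticAt] with x hx
  exact Dy_comm_at hx

theorem it_comm {y η : V} {Φ : V → K} {z : V} (h : AnalyticAt ℂ Φ z) (n : ℕ) :
    (Dy y)^[n] (Dy η Φ) =ᶠ[𝓝 z] Dy η ((Dy y)^[n] Φ) := by
  induction n generalizing Φ with
  | zero => exact EventuallyEq.rfl
  | succ n ih => exact (it_congr (Dy_comm h) n).trans (ih (Dy_an h))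

/-- restriction to a line -/
theorem iter_line {y : V} {Φ : V → ℂ} {z : V} (h : AnalyticAt ℂ Φ z) (n : ℕ) :
    ∀ᶠ t : ℂ in 𝓝 0, iteratedDeriv n (fun t : ℂ => Φ (z + t • y)) t = ((Dy y)^[n] Φ) (z + t • y) := by
  have hc : Tendsto (fun t : ℂ => z + t • y) (𝓝 0) (𝓝 z) := by
    have : Continuous (fun t : ℂ => z + t • y) := by fun_prop
    simpa using this.tendsto 0
  induction n with
  | zero => simp
  | succ n ih =>
    have h1 : ∀ᶠ t : ℂ in 𝓝 0, AnalyticAt ℂ ((Dy y)^[n] Φ) (z + t • y) :=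
      hc.eventually (it_an h n).eventually_analyticAt
    filter_upwards [ih.eventually_nhds, h1] with t ht ht1
    rw [iteratedDeriv_succ, EventuallyEq.deriv_eq ht, Function.iterate_succ_apply']
    have h2 : HasDerivAt (fun t : ℂ => z + t • y) y t := by
      simpa using ((hasDerivAt_id t).smul_const y).const_add z
    exact (ht1.differentiableAt.hasFDerivAt.comp_hasDerivAt t h2).deriv

end dir

/-- a Hilbert space valued analytic function whose directional derivatives of positive order vanish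
at a point is constant near that point -/
theorem const_of_dir {V H : Type*} [NormedAddCommGroup V] [NormedSpace ℂ V]
    [NormedAddCommGroup H] [InnerProductSpace ℂ H] [CompleteSpace H] {P : V → H} {z : V}
    (hP : AnalyticAt ℂ P z)
    (h : ∀ (y : V) (w : H) (n : ℕ), ((Dy y)^[n + 1] fun x => ⟪w, P x⟫_ℂ) z = 0) :
    ∀ᶠ x in 𝓝 z, P x = P z := by
  obtain ⟨ρ, hρ, hρ2⟩ := Metric.eventually_nhds_iff_ball.1 hP.eventually_analyticAt
  filter_upwards [ball_mem_nhds z hρ] with x hx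
  set y := x - z with hy
  have hyn : ‖y‖ < ρ := by rwa [mem_ball, dist_eq_norm] at hx
  obtain ⟨s, hs1, hs2⟩ : ∃ s : ℝ, 1 < s ∧ s * ‖y‖ < ρ := by
    rcases eq_or_lt_of_le (norm_nonneg y) with h0 | h0
    · exact ⟨2, by norm_num, by rw [← h0, mul_zero]; exact hρ⟩
    · obtain ⟨q, hq1, hq2⟩ := exists_between hyn
      refine ⟨q / ‖y‖, (one_lt_div h0).2 hq1, ?_⟩
      rw [div_mul_cancel₀ _ h0.ne']; exact hq2
  have hmem : ∀ t ∈ ball (0 : ℂ) s, z + t • y ∈ ball z ρ := by
    intro t ht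
    rw [mem_ball_zero_iff] at ht
    rw [mem_ball, dist_eq_norm, add_sub_cancel_left, norm_smul]
    exact lt_of_le_of_lt (mul_le_mul_of_nonneg_right ht.le (norm_nonneg _)) hs2
  refine ext_inner_left ℂ fun w => ?_
  have hinn : ∀ x ∈ ball z ρ, AnalyticAt ℂ (fun x => ⟪w, P x⟫_ℂ) x := fun x hx =>
    ((innerSL ℂ w).analyticAt _).comp (hρ2 x hx)
  set p : ℂ → ℂ := fun t => ⟪w, P (z + t • y)⟫_ℂ with hp
  have hpd : DifferentiableOn ℂ p (ball 0 s) := by
    intro t ht
    have h1 : DifferentiableAt ℂ (fun t : ℂ => z + t • y) t := by fun_prop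
    exact ((hinn _ (hmem t ht)).differentiableAt.comp t h1).differentiableWithinAt
  have h1s : (1 : ℂ) ∈ ball (0 : ℂ) s := by simpa using hs1
  have htay := Complex.taylorSeries_eq_on_ball' h1s hpd
  have h0 : ∀ n, n ≠ 0 → ((n.factorial : ℂ))⁻¹ * iteratedDeriv n p 0 * (1 - 0) ^ n = 0 := by
    intro n hn
    obtain ⟨k, rfl⟩ := Nat.exists_eq_succ_of_ne_zero hn
    have h2 := (iter_line (y := y) (hinn z (mem_ball_self hρ)) (k + 1)).self_of_nhds
    rw [Nat.succ_eq_add_one, hp, h2, zero_smul, add_zero, h y w k]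
    simp
  rw [tsum_eq_single 0 h0] at htay
  simp only [Nat.factorial_zero, Nat.cast_one, inv_one, one_mul, iteratedDeriv_zero, sub_zero,
    pow_zero, mul_one] at htay
  have hx1 : z + (1 : ℂ) • y = x := by rw [one_smul, hy]; abel
  have hp1 : p 1 = ⟪w, P x⟫_ℂ := by rw [hp]; simp only [hx1]
  have hp0 : p 0 = ⟪w, P z⟫_ℂ := by rw [hp]; simp
  rw [← hp1, ← hp0, htay]

/-! ### determinants -/

theorem det_updateRow_one {R : ℕ} (a : Fin R) (v : Fin R → ℂ) :
    ((1 : Matrix (Fin R) (Fin R) ℂ).updateRow a v).det = v a := by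
  have h := Matrix.cramer_transpose_apply (1 : Matrix (Fin R) (Fin R) ℂ) v a
  rw [← h, Matrix.transpose_one, Matrix.cramer_one]
  rfl

/-- the matrix with first row `v` and the other rows `e_(τ i)` -/
theorem det_perm_row {r : ℕ} (τ : Equiv.Perm (Fin (r + 1))) (v : Fin (r + 1) → ℂ) :
    (Matrix.of fun i j => if i = 0 then v j else if τ i = j then (1 : ℂ) else 0).det =
      ((Equiv.Perm.sign τ : ℤ) : ℂ) * v (τ 0) := by
  set M : Matrix (Fin (r + 1)) (Fin (r + 1)) ℂ :=
    Matrix.of fun i j => if i = 0 then v j else if τ i = j then (1 : ℂ) else 0 with hM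
  have h1 : M.submatrix (τ⁻¹ : Equiv.Perm (Fin (r + 1))) id = (1 : Matrix (Fin (r + 1)) (Fin (r + 1)) ℂ).updateRow (τ 0) v := by
    ext i j
    rw [Matrix.submatrix_apply, Matrix.updateRow_apply, hM, Matrix.of_apply]
    by_cases h : i = τ 0
    · subst h
      simp
    · have h' : τ⁻¹ i ≠ 0 := by
        intro h0
        apply h
        rw [← h0]; simp
      rw [if_neg h', if_neg h, Matrix.one_apply]
      simp
  have h2 := Matrix.det_permute τ⁻¹ M
  rw [h1, det_updateRow_one, Equiv.Perm.sign_inv] at h2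
  rw [h2, ← mul_assoc]
  have h3 : ((Equiv.Perm.sign τ : ℤ) : ℂ) * ((Equiv.Perm.sign τ : ℤ) : ℂ) = 1 := by
    rcases Int.units_eq_one_or (Equiv.Perm.sign τ) with h | h <;> simp [h]
  rw [h3, one_mul]

end Vale.Agent.P284.H812.Imm
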