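import Vale.Agent.P284.H812.Imm1
import Mathlib.RingTheory.Artinian.Module

/-!
# P284 (helper812): local immersion theorem, normalised case
-/

open scoped InnerProductSpace Topology
open Filter Set Metric

noncomputable section

namespace Vale.Agent.P284.H812.Imm

open Vale.Agent.P284.H619

variable {H : Type*} [NormedAddCommGroup H] [InnerProductSpace ℂ H] (S : TH H)

section an
variable {V E : Type*} [NormedAddCommGroup V] [NormedSpace ℂ V] [NormedAddCommGroup E]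
  [NormedSpace ℂ E]

theorem an_bil {F G K : Type*} [NormedAddCommGroup F] [NormedSpace ℂ F] [NormedAddCommGroup G]
    [NormedSpace ℂ G] [NormedAddCommGroup K] [NormedSpace ℂ K] (B : F →L[ℂ] G →L[ℂ] K)
    {f : E → F} {g : E → G} {z : E} (hf : AnalyticAt ℂ f z) (hg : AnalyticAt ℂ g z) :
    AnalyticAt ℂ (fun y => B (f y) (g y)) z :=
  (B.analyticAt_bilinear (f z, g z)).comp₂ hf hg

theorem an_app {F G : Type*} [NormedAddCommGroup F] [NormedSpace ℂ F] [NormedAddCommGroup G]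
    [NormedSpace ℂ G] {f : E → F →L[ℂ] G} {z : E} (hf : AnalyticAt ℂ f z) (ξ : F) :
    AnalyticAt ℂ (fun y => f y ξ) z :=
  ((ContinuousLinearMap.apply ℂ G ξ).analyticAt _).comp hf

theorem tp_an {R : ℕ} {a : Fin R → E → H} {z : E} (h : ∀ i, AnalyticAt ℂ (a i) z) :
    AnalyticAt ℂ (fun y => S.tp R (fun i => a i y)) z := by
  induction R with
  | zero => exact analyticAt_const
  | succ R ih => exact an_bil S.T (h 0) (ih fun i => h i.succ)

theorem dv_eq {r : ℕ} (Θ : V → V →L[ℂ] H) (g : V → (Fin (r + 1) → V) → H) (z : V)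
    (ξ : Fin (r + 1) → V) : S.dv Θ g z ξ = ∑ σ : Equiv.Perm (Fin (r + 1)),
      ((Equiv.Perm.sign σ : ℤ) : ℂ) • S.T (S.al g z ξ (ξ (σ 0)))
        (S.tp r (fun i => Θ z (ξ (σ i.succ)))) := by
  rw [TH.dv, S.wdg_apply]
  rfl

theorem s0_eq {R : ℕ} (Θ : V → V →L[ℂ] H) (z : V) (ξ : Fin R → V) :
    S.s0 Θ z ξ = ∑ σ : Equiv.Perm (Fin R),
      ((Equiv.Perm.sign σ : ℤ) : ℂ) • S.tp R (fun i => Θ z (ξ (σ i))) := by
  rw [TH.s0, S.wdg_apply]
  rfl

theorem s0_an {R : ℕ} {Θ : V → V →L[ℂ] H} {z : V} (hΘ : AnalyticAt ℂ Θ z) (ξ : Fin R → V) :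
    AnalyticAt ℂ (fun y => S.s0 Θ y ξ) z := by
  simp only [s0_eq]
  refine Finset.analyticAt_fun_sum _ fun σ _ => ?_
  exact analyticAt_const.smul (tp_an S fun i => an_app hΘ _)

variable [CompleteSpace H]

theorem al_an {R : ℕ} {g : V → (Fin R → V) → H} {z : V} {ξ : Fin R → V}
    (hg : AnalyticAt ℂ (fun y => g y ξ) z) (η : V) :
    AnalyticAt ℂ (fun y => S.al g y ξ η) z := by
  have h1 := an_app hg.fderiv η
  exact (an_bil S.T hg h1).sub (an_bil S.T h1 hg)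

theorem dv_an {r : ℕ} {Θ : V → V →L[ℂ] H} {g : V → (Fin (r + 1) → V) → H} {z : V}
    {ξ : Fin (r + 1) → V} (hΘ : AnalyticAt ℂ Θ z) (hg : AnalyticAt ℂ (fun y => g y ξ) z) :
    AnalyticAt ℂ (fun y => S.dv Θ g y ξ) z := by
  simp only [dv_eq]
  refine Finset.analyticAt_fun_sum _ fun σ _ => ?_
  exact analyticAt_const.smul (an_bil S.T (al_an S hg _) (tp_an S fun i => an_app hΘ _))

theorem G_an {r : ℕ} {Θ : V → V →L[ℂ] H} {z : V} (hΘ : AnalyticAt ℂ Θ z) (k : ℕ)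
    (ξ : Fin (r + 1) → V) : AnalyticAt ℂ (fun y => S.G Θ k y ξ) z := by
  induction k with
  | zero => exact s0_an S hΘ ξ
  | succ k ih =>
    show AnalyticAt ℂ (fun y => S.T S.u (S.T (S.G Θ k y ξ) (S.T (S.G Θ k y ξ) (S.s0 Θ y ξ))) +
      S.T S.u' (S.dv Θ (S.G Θ k) y ξ)) z
    exact (an_bil S.T analyticAt_const (an_bil S.T ih (an_bil S.T ih (s0_an S hΘ ξ)))).add
      (an_bil S.T analyticAt_const (dv_an S hΘ ih))

end an

section norm
variable {r : ℕ} {F : (Fin (r + 1) → ℂ) → H} {z₀ : Fin (r + 1) → ℂ}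
  {f : Fin (r + 1) → H}

/-- the standard frame -/
abbrev ee (R : ℕ) : Fin R → (Fin R → ℂ) := fun i => Pi.single i 1

/-- test vectors -/
def hv (f : Fin (r + 1) → H) : ℕ → H
  | 0 => S.tp (r + 1) f
  | k + 1 => S.T S.u (S.T (hv f k) (S.T (hv f k) (S.tp (r + 1) f)))

/-- the natural sections on the standard frame -/
def Gk (F : (Fin (r + 1) → ℂ) → H) (k : ℕ) (z : Fin (r + 1) → ℂ) : H :=
  S.G (fun y => fderiv ℂ F y) k z (ee (r + 1))

theorem inner_s0 (w : Fin (r + 1) → H) (z : Fin (r + 1) → ℂ) :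
    ⟪S.tp (r + 1) w, S.s0 (fun y => fderiv ℂ F y) z (ee (r + 1))⟫_ℂ =
      (Matrix.of fun i j => ⟪w i, fderiv ℂ F z (ee (r + 1) j)⟫_ℂ).det := by
  rw [s0_eq, inner_sum, ← Matrix.det_transpose, Matrix.det_apply]
  refine Finset.sum_congr rfl fun σ _ => ?_
  rw [inner_smul_right, S.inner_tp, Units.smul_def, zsmul_eq_mul]
  rfl

theorem inner_dv (g : (Fin (r + 1) → ℂ) → (Fin (r + 1) → (Fin (r + 1) → ℂ)) → H) (a : H)
    (w : Fin r → H) (z : Fin (r + 1) → ℂ) :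
    ⟪S.T a (S.tp r w), S.dv (fun y => fderiv ℂ F y) g z (ee (r + 1))⟫_ℂ =
      (Matrix.of fun (i j : Fin (r + 1)) =>
        (Fin.cons ⟪a, S.al g z (ee (r + 1)) (ee (r + 1) j)⟫_ℂ
          (fun i => ⟪w i, fderiv ℂ F z (ee (r + 1) j)⟫_ℂ) : Fin (r + 1) → ℂ) i).det := by
  rw [dv_eq, inner_sum, ← Matrix.det_transpose, Matrix.det_apply]
  refine Finset.sum_congr rfl fun σ _ => ?_
  rw [inner_smul_right, S.inner_T, S.inner_tp, Units.smul_def, Fin.prod_univ_succ]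
  simp [Matrix.transpose_apply, zsmul_eq_mul]

/-- the normalisation `⟪f a, F z⟫ = z a + const` near `z₀` -/
def Nrm (F : (Fin (r + 1) → ℂ) → H) (z₀ : Fin (r + 1) → ℂ) (f : Fin (r + 1) → H) : Prop :=
  ∀ᶠ z in 𝓝 z₀, ∀ a b, ⟪f a, fderiv ℂ F z (ee (r + 1) b)⟫_ℂ = if a = b then 1 else 0

theorem hv_zero_inner (hf : Nrm F z₀ f) :
    ∀ᶠ z in 𝓝 z₀, ⟪S.tp (r + 1) f, S.s0 (fun y => fderiv ℂ F y) z (ee (r + 1))⟫_ℂ = 1 := by
  filter_upwards [hf] with z hz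
  rw [inner_s0]
  have : (Matrix.of fun i j => ⟪f i, fderiv ℂ F z (ee (r + 1) j)⟫_ℂ) =
      (1 : Matrix (Fin (r + 1)) (Fin (r + 1)) ℂ) := by
    ext i j
    rw [Matrix.of_apply, hz, Matrix.one_apply]
  rw [this, Matrix.det_one]

theorem inner_u'u : ⟪S.u', S.u⟫_ℂ = 0 := by
  rw [← inner_conj_symm, S.inner_uu', map_zero]

theorem Gk_succ (k : ℕ) (z : Fin (r + 1) → ℂ) : Gk S F (k + 1) z =
    S.T S.u (S.T (Gk S F k z) (S.T (Gk S F k z) (S.s0 (fun y => fderiv ℂ F y) z (ee (r + 1))))) +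
      S.T S.u' (S.dv (fun y => fderiv ℂ F y) (S.G (fun y => fderiv ℂ F y) k) z (ee (r + 1))) := rfl

theorem hv_inner (hf : Nrm F z₀ f) (k : ℕ) :
    ∀ᶠ z in 𝓝 z₀, ⟪hv S f k, Gk S F k z⟫_ℂ = 1 := by
  induction k with
  | zero => exact hv_zero_inner S hf
  | succ k ih =>
    filter_upwards [ih, hv_zero_inner S hf] with z h1 h2
    rw [hv, Gk_succ, inner_add_right, S.inner_T, S.inner_T, S.inner_T, S.inner_T, S.inner_uu,
      S.inner_uu', h1, h2]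
    simp

/-- `φ` is, near `z₀`, a component of the natural section `G k` -/
def Nt (F : (Fin (r + 1) → ℂ) → H) (z₀ : Fin (r + 1) → ℂ) (k : ℕ)
    (φ : (Fin (r + 1) → ℂ) → ℂ) : Prop :=
  ∃ h : H, φ =ᶠ[𝓝 z₀] fun z => ⟪h, Gk S F k z⟫_ℂ

theorem Nt.sum {ι : Type*} {s : Finset ι} {φ : ι → (Fin (r + 1) → ℂ) → ℂ} {k : ℕ} (c : ι → ℂ)
    (h : ∀ i ∈ s, Nt S F z₀ k (φ i)) : Nt S F z₀ k (fun z => ∑ i ∈ s, c i * φ i z) := by
  classical
  induction s using Finset.induction_on with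
  | empty => refine ⟨0, ?_⟩; filter_upwards with z; simp
  | insert a s ha ih =>
    obtain ⟨h1, hh1⟩ := h a (Finset.mem_insert_self a s)
    obtain ⟨h2, hh2⟩ := ih fun i hi => h i (Finset.mem_insert_of_mem hi)
    refine ⟨(starRingEnd ℂ) (c a) • h1 + h2, ?_⟩
    filter_upwards [hh1, hh2] with z k1 k2
    rw [Finset.sum_insert ha, k1, k2, inner_add_left, inner_smul_left, Complex.conj_conj]

/-- the components of `dF` are natural -/
theorem Nt_zero (hf : Nrm F z₀ f) (h : H) (a : Fin (r + 1)) :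
    Nt S F z₀ 0 (fun z => ⟪h, fderiv ℂ F z (ee (r + 1) a)⟫_ℂ) := by
  refine ⟨S.tp (r + 1) (Function.update f a h), ?_⟩
  filter_upwards [hf] with z hz
  show _ = ⟪S.tp (r + 1) (Function.update f a h), S.s0 (fun y => fderiv ℂ F y) z (ee (r + 1))⟫_ℂ
  rw [inner_s0]
  have : (Matrix.of fun i j => ⟪(Function.update f a h) i, fderiv ℂ F z (ee (r + 1) j)⟫_ℂ) =
      (1 : Matrix (Fin (r + 1)) (Fin (r + 1)) ℂ).updateRow a
        (fun j => ⟪h, fderiv ℂ F z (ee (r + 1) j)⟫_ℂ) := by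
    ext i j
    rw [Matrix.of_apply, Matrix.updateRow_apply]
    by_cases hi : i = a
    · subst hi; simp
    · rw [Function.update_of_ne hi, hz, if_neg hi, Matrix.one_apply]
  rw [this, det_updateRow_one]

variable [CompleteSpace H]

/-- the derivatives of natural functions are natural -/
theorem Nt_deriv (hF : AnalyticAt ℂ F z₀) (hf : Nrm F z₀ f) {k : ℕ} {φ : (Fin (r + 1) → ℂ) → ℂ}
    (hφ : Nt S F z₀ k φ) (a : Fin (r + 1)) :
    Nt S F z₀ (k + 1) (fun z => fderiv ℂ φ z (ee (r + 1) a)) := by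
  obtain ⟨h, hh⟩ := hφ
  set τ : Equiv.Perm (Fin (r + 1)) := Equiv.swap 0 a with hτ
  set sg : ℂ := ((Equiv.Perm.sign τ : ℤ) : ℂ) with hsg
  have hsg2 : sg * sg = 1 := by
    rw [hsg]
    rcases Int.units_eq_one_or (Equiv.Perm.sign τ) with h | h <;> simp [h]
  have hsgc : (starRingEnd ℂ) sg = sg := by
    rw [hsg]; simp
  refine ⟨sg • S.T S.u' (S.T (S.T (hv S f k) h) (S.tp r fun i => f (τ i.succ))), ?_⟩
  have han : ∀ᶠ z in 𝓝 z₀, AnalyticAt ℂ (fun y => Gk S F k y) z :=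
    (G_an S hF.fderiv k (ee (r + 1))).eventually_analyticAt
  filter_upwards [hf, hh.fderiv (𝕜 := ℂ), (hv_inner S hf k).eventually_nhds, hh, han]
    with z hz hz1 hz2 hz3 hz4
  rw [Gk_succ, inner_smul_left, inner_add_right, S.inner_T S.u' _ S.u _, S.inner_T S.u' _ S.u' _,
    inner_u'u, S.inner_u'u', zero_mul, zero_add, one_mul, inner_dv, hsgc]
  have hdG : ∀ (w : H) (ξ : Fin (r + 1) → ℂ), fderiv ℂ (fun y => ⟪w, Gk S F k y⟫_ℂ) z ξ =
      ⟪w, fderiv ℂ (fun y => Gk S F k y) z ξ⟫_ℂ := by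
    intro w ξ
    have := ((innerSL ℂ w).hasFDerivAt.comp z hz4.differentiableAt.hasFDerivAt).fderiv
    have h2 : fderiv ℂ (fun y => ⟪w, Gk S F k y⟫_ℂ) z =
      (innerSL ℂ w).comp (fderiv ℂ (fun y => Gk S F k y) z) := this
    rw [h2]; rfl
  have hal : ∀ ξ : Fin (r + 1) → ℂ,
      ⟪S.T (hv S f k) h, S.al (S.G (fun y => fderiv ℂ F y) k) z (ee (r + 1)) ξ⟫_ℂ =
        fderiv ℂ φ z ξ := by
    intro ξ
    have e1 : ⟪hv S f k, fderiv ℂ (fun y => Gk S F k y) z ξ⟫_ℂ = 0 := by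
      rw [← hdG]
      have : (fun y => ⟪hv S f k, Gk S F k y⟫_ℂ) =ᶠ[𝓝 z] fun _ => 1 := hz2
      rw [this.fderiv_eq]; simp
    have e2 : ⟪h, fderiv ℂ (fun y => Gk S F k y) z ξ⟫_ℂ = fderiv ℂ φ z ξ := by
      rw [← hdG, ← hz1]
    rw [S.al_apply, inner_sub_right]
    show ⟪S.T (hv S f k) h, S.T (Gk S F k z) (fderiv ℂ (fun y => Gk S F k y) z ξ)⟫_ℂ -
      ⟪S.T (hv S f k) h, S.T (fderiv ℂ (fun y => Gk S F k y) z ξ) (Gk S F k z)⟫_ℂ = _
    rw [S.inner_T, S.inner_T, e1, e2, zero_mul, sub_zero, hz2.self_of_nhds, one_mul]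
  have hM : (Matrix.of fun (i j : Fin (r + 1)) =>
        (Fin.cons ⟪S.T (hv S f k) h,
            S.al (S.G (fun y => fderiv ℂ F y) k) z (ee (r + 1)) (ee (r + 1) j)⟫_ℂ
          (fun i => ⟪f (τ i.succ), fderiv ℂ F z (ee (r + 1) j)⟫_ℂ) : Fin (r + 1) → ℂ) i) =
      Matrix.of fun i j => if i = 0 then fderiv ℂ φ z (ee (r + 1) j) else
        if τ i = j then (1 : ℂ) else 0 := by
    ext i j
    rw [Matrix.of_apply, Matrix.of_apply]
    refine Fin.cases ?_ (fun i => ?_) i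
    · rw [Fin.cons_zero, hal, if_pos rfl]
    · rw [Fin.cons_succ, hz, if_neg (Fin.succ_ne_zero i)]
  rw [hM, det_perm_row, ← mul_assoc, hsg2, one_mul, hτ, Equiv.swap_apply_left]

/-- all iterated derivatives of the components of `dF` are natural -/
theorem Nt_iter (hF : AnalyticAt ℂ F z₀) (hf : Nrm F z₀ f) (h : H) (y : Fin (r + 1) → ℂ) (n : ℕ) :
    Nt S F z₀ n ((Dy y)^[n] (fun z => ⟪h, fderiv ℂ F z y⟫_ℂ)) := by
  have hdec : ∀ (L : (Fin (r + 1) → ℂ) →L[ℂ] ℂ), L y = ∑ a, y a * L (ee (r + 1) a) := by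
    intro L
    conv_lhs => rw [show y = ∑ a, y a • ee (r + 1) a from by
      ext i; simp [ee, Finset.sum_apply, Pi.single_apply]]
    rw [map_sum]
    simp
  induction n with
  | zero =>
    have h1 : (fun z => ⟪h, fderiv ℂ F z y⟫_ℂ) =
        fun z => ∑ a, y a * ⟪h, fderiv ℂ F z (ee (r + 1) a)⟫_ℂ := by
      funext z
      exact hdec ((innerSL ℂ h).comp (fderiv ℂ F z))
    show Nt S F z₀ 0 (fun z => ⟪h, fderiv ℂ F z y⟫_ℂ)
    rw [h1]
    exact Nt.sum S y fun a _ => Nt_zero S hf h a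
  | succ n ih =>
    rw [Function.iterate_succ_apply']
    have h1 : Dy y ((Dy y)^[n] (fun z => ⟪h, fderiv ℂ F z y⟫_ℂ)) = fun z => ∑ a, y a *
        fderiv ℂ ((Dy y)^[n] (fun z => ⟪h, fderiv ℂ F z y⟫_ℂ)) z (ee (r + 1) a) := by
      funext z
      exact hdec _
    rw [h1]
    exact Nt.sum S y fun a _ => Nt_deriv S hF hf ih a

/-- the normalised case of the local immersion theorem -/
theorem imm_norm (hF : AnalyticAt ℂ F z₀) (hinj : Function.Injective (fderiv ℂ F z₀))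
    (hf : Nrm F z₀ f)
    (hc : ∀ c : H, (∀ᶠ z in 𝓝 z₀, ∃ ξ, fderiv ℂ F z ξ = c) → c = 0) :
    ∃ k : ℕ, Gk S F k z₀ ≠ 0 ∧ ∀ (η : Fin (r + 1) → ℂ) (c : ℂ),
      fderiv ℂ (fun z => Gk S F k z) z₀ η = c • Gk S F k z₀ → η = 0 := by
  have han : ∀ k, AnalyticAt ℂ (fun y => Gk S F k y) z₀ := fun k =>
    G_an S hF.fderiv k (ee (r + 1))
  have hdG : ∀ k (w : H) (ξ : Fin (r + 1) → ℂ), fderiv ℂ (fun y => ⟪w, Gk S F k y⟫_ℂ) z₀ ξ =
      ⟪w, fderiv ℂ (fun y => Gk S F k y) z₀ ξ⟫_ℂ := by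
    intro k w ξ
    have := ((innerSL ℂ w).hasFDerivAt.comp z₀ (han k).differentiableAt.hasFDerivAt).fderiv
    have h2 : fderiv ℂ (fun y => ⟪w, Gk S F k y⟫_ℂ) z₀ =
      (innerSL ℂ w).comp (fderiv ℂ (fun y => Gk S F k y) z₀) := this
    rw [h2]; rfl
  -- the kernels
  set K : ℕ → Submodule ℂ (Fin (r + 1) → ℂ) := fun k =>
    LinearMap.ker (fderiv ℂ (fun y => Gk S F k y) z₀ : (Fin (r + 1) → ℂ) →ₗ[ℂ] H) with hK
  have hne : ∀ k, Gk S F k z₀ ≠ 0 := by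
    intro k h0
    have := (hv_inner S hf k).self_of_nhds
    rw [h0, inner_zero_right] at this
    exact zero_ne_one this
  have hKc : ∀ k (η : Fin (r + 1) → ℂ) (c : ℂ),
      fderiv ℂ (fun z => Gk S F k z) z₀ η = c • Gk S F k z₀ → η ∈ K k := by
    intro k η c h
    have e1 : ⟪hv S f k, fderiv ℂ (fun y => Gk S F k y) z₀ η⟫_ℂ = 0 := by
      rw [← hdG]
      have : (fun y => ⟪hv S f k, Gk S F k y⟫_ℂ) =ᶠ[𝓝 z₀] fun _ => 1 := hv_inner S hf k
      rw [this.fderiv_eq]; simp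
    rw [h, inner_smul_right, (hv_inner S hf k).self_of_nhds, mul_one] at e1
    rw [hK]
    show fderiv ℂ (fun y => Gk S F k y) z₀ η = 0
    rw [h, e1, zero_smul]
  -- the kernels decrease
  have hmono : ∀ k, K (k + 1) ≤ K k := by
    intro k η hη
    have hη' : fderiv ℂ (fun y => Gk S F (k + 1) y) z₀ η = 0 := hη
    show fderiv ℂ (fun y => Gk S F k y) z₀ η = 0
    refine ext_inner_left ℂ fun w => ?_
    rw [inner_zero_right, ← hdG]
    have h1 : (fun y => ⟪w, Gk S F k y⟫_ℂ) =ᶠ[𝓝 z₀]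
        fun y => ⟪S.T S.u (S.T (hv S f k) (S.T w (S.tp (r + 1) f))), Gk S F (k + 1) y⟫_ℂ := by
      filter_upwards [hv_inner S hf k, hv_zero_inner S hf] with z h1 h2
      rw [Gk_succ, inner_add_right, S.inner_T, S.inner_T, S.inner_T, S.inner_T, S.inner_uu,
        S.inner_uu', h1, h2]
      simp
    rw [h1.fderiv_eq, hdG, hη', inner_zero_right]
  by_contra hcon
  push Not at hcon
  -- every kernel is nonzero
  have hKne : ∀ k, K k ≠ ⊥ := by
    intro k h0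
    obtain ⟨η, c, h1, h2⟩ := hcon k (hne k)
    exact h2 ((Submodule.mem_bot ℂ).1 (h0 ▸ hKc k η c h1))
  have hanti : Antitone K := antitone_nat_of_succ_le hmono
  obtain ⟨k₀, hk₀⟩ := IsArtinian.monotone_stabilizes
    (⟨fun k => OrderDual.toDual (K k), hanti⟩ : ℕ →o (Submodule ℂ (Fin (r + 1) → ℂ))ᵒᵈ)
  obtain ⟨η, hη, hη0⟩ := (Submodule.ne_bot_iff _).1 (hKne k₀)
  have hall : ∀ k, η ∈ K k := by
    intro k
    rcases le_total k₀ k with h | h
    · have h1 : K k₀ = K k := hk₀ k h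
      rw [← h1]; exact hη
    · exact hanti h hη
  -- `D_η F` is constant
  set P : (Fin (r + 1) → ℂ) → H := fun z => fderiv ℂ F z η with hP
  have hPan : AnalyticAt ℂ P z₀ := an_app hF.fderiv η
  have hPc : ∀ᶠ z in 𝓝 z₀, P z = P z₀ := by
    refine const_of_dir hPan fun y w n => ?_
    have hΦ : AnalyticAt ℂ (fun z => ⟪w, F z⟫_ℂ) z₀ := ((innerSL ℂ w).analyticAt _).comp hF
    have hD : ∀ ξ : Fin (r + 1) → ℂ, (fun x => ⟪w, fderiv ℂ F x ξ⟫_ℂ) =ᶠ[𝓝 z₀]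
        Dy ξ (fun z => ⟪w, F z⟫_ℂ) := by
      intro ξ
      filter_upwards [hF.eventually_analyticAt] with x hx
      have := ((innerSL ℂ w).hasFDerivAt.comp x hx.differentiableAt.hasFDerivAt).fderiv
      have h2 : fderiv ℂ (fun y => ⟪w, F y⟫_ℂ) x = (innerSL ℂ w).comp (fderiv ℂ F x) := this
      rw [Dy, h2]; rfl
    have e1 : (Dy y)^[n + 1] (fun x => ⟪w, P x⟫_ℂ) =ᶠ[𝓝 z₀]
        Dy η ((Dy y)^[n] (fun x => ⟪w, fderiv ℂ F x y⟫_ℂ)) := by
      refine (it_congr (hD η) (n + 1)).trans ((it_comm hΦ (n + 1)).trans ?_)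
      refine Dy_congr ?_
      rw [Function.iterate_succ_apply]
      exact it_congr (hD y).symm n
    rw [e1.self_of_nhds, Dy]
    obtain ⟨h', hh'⟩ := Nt_iter S hF hf w y n
    rw [hh'.fderiv_eq, hdG]
    have : fderiv ℂ (fun y => Gk S F n y) z₀ η = 0 := hall n
    rw [this, inner_zero_right]
  have h0 := hc (P z₀) (by filter_upwards [hPc] with z hz using ⟨η, hz⟩)
  apply hη0
  apply hinj
  rw [map_zero]
  exact h0

end norm

end Vale.Agent.P284.H812.Imm
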