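import Vale.Agent.P284.H812.KO1

/-!
# P284 (helper812): Keller–Osserman with branches: the maximum principle
-/

open scoped Manifold Topology ContDiff ComplexOrder
open Filter Set Metric

noncomputable section

namespace Vale.Agent.P284.H812

open Vale.Agent.P272.K Vale.Agent.P272.KOD

section
variable {n m M : ℕ} {Z : Type*} [TopologicalSpace Z] [ChartedSpace (Cm n) Z]
  {w : Chart n Z → Cm n → ℝ} {τ : PSec n M Z} {e : Chart n Z} {F : Cm n → Cm n}

theorem Pv_continuousAt (hw : IsCanonicalMetric w) (he : e ∈ atlas (Cm n) Z) {z : Cm n}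
    (hF : AnalyticAt ℂ F z) (ht : F z ∈ e.target) : ContinuousAt (Pv τ w e F) z := by
  have h1 : ContinuousAt (τ.coeff e) (F z) := by
    have := τ.holo e _ (At.of_target he ht)
    rw [e.right_inv ht] at this
    exact this.continuousAt
  have h2 : ContinuousAt (w e) (F z) := by
    have := hw.smooth e _ (At.of_target he ht)
    rw [e.right_inv ht] at this
    exact this.continuousAt
  have h3 : ContinuousAt (fun y => τ.coeff e (F y)) z := ContinuousAt.comp h1 hF.continuousAt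
  have h4 : ContinuousAt (fun y => w e (F y)) z := ContinuousAt.comp h2 hF.continuousAt
  have h5 : ContinuousAt (fun y => (fderiv ℂ F y).det) z := (analyticAt_det hF).continuousAt
  exact ((h3.norm.pow 2).mul (Real.continuous_exp.continuousAt.comp h4)).mul
    ((h5.norm.pow 2).pow _)

theorem max_exists (hw : IsCanonicalMetric w) {z1 : Cm n} {s2 s : ℝ} (hs2 : 0 < s2) (hs : s2 < s)
    (he : e ∈ atlas (Cm n) Z) (hF : ∀ z ∈ ball z1 s, AnalyticAt ℂ F z ∧ F z ∈ e.target)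
    {Φ : Cm n → ℝ} (hΦ : ∀ z ∈ closedBall z1 s2, ContinuousAt Φ z) (hP : Pv τ w e F z1 ≠ 0) :
    ∃ z0 ∈ closedBall z1 s2, Pv τ w e F z0 ≠ 0 ∧ ∀ z ∈ closedBall z1 s2, Pv τ w e F z ≠ 0 →
      uF τ w e F z - Φ z ≤ uF τ w e F z0 - Φ z0 := by
  have hsub : closedBall z1 s2 ⊆ ball z1 s := closedBall_subset_ball hs
  set G : Cm n → ℝ := fun z => Pv τ w e F z * Real.exp (-((M + 1 : ℝ) * Φ z)) with hG
  have hGc : ContinuousOn G (closedBall z1 s2) := by
    intro z hz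
    have h1 := Pv_continuousAt (τ := τ) hw he (hF z (hsub hz)).1 (hF z (hsub hz)).2
    exact (h1.mul (Real.continuous_exp.continuousAt.comp
      (continuousAt_const.mul (hΦ z hz)).neg)).continuousWithinAt
  obtain ⟨z0, hz0, hmax⟩ := (isCompact_closedBall z1 s2).exists_isMaxOn
    ⟨z1, mem_closedBall_self hs2.le⟩ hGc
  have hpos : ∀ z, Pv τ w e F z ≠ 0 → 0 < Pv τ w e F z := fun z hz =>
    lt_of_le_of_ne (Pv_nonneg τ w e F z) hz.symm
  have hG1 : 0 < G z1 := mul_pos (hpos z1 hP) (Real.exp_pos _)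
  have hG0 : 0 < G z0 := lt_of_lt_of_le hG1 (hmax (mem_closedBall_self hs2.le))
  have hP0 : Pv τ w e F z0 ≠ 0 := by
    intro h0
    rw [hG] at hG0
    simp only [h0, zero_mul, lt_self_iff_false] at hG0
  have hGe : ∀ z, Pv τ w e F z ≠ 0 → G z = Real.exp ((M + 1) * (uF τ w e F z - Φ z)) := by
    intro z hz
    rw [hG, mul_sub, sub_eq_add_neg, Real.exp_add, exp_uF (hpos z hz)]
  refine ⟨z0, hz0, hP0, fun z hz hPz => ?_⟩
  have h1 : G z ≤ G z0 := hmax hz
  rw [hGe z hPz, hGe z0 hP0, Real.exp_le_exp] at h1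
  have hM : (0 : ℝ) < M + 1 := by positivity
  exact le_of_mul_le_mul_left h1 hM

/-- comparison of traces at an interior maximum -/
theorem trace_le_of_max {u Φ : Cm n → ℝ} {z0 : Cm n} (hu : ContDiffAt ℝ 2 u z0)
    (hΦ : ContDiffAt ℝ 2 Φ z0) (hmax : IsLocalMax (fun z => u z - Φ z) z0) :
    (Matrix.trace (cHess u z0)).re ≤ (Matrix.trace (cHess Φ z0)).re := by
  have h1 := N.neg_cHess_posSemidef (hu.sub hΦ) hmax
  have h2 := h1.trace_nonneg
  have h3 : cHess (fun z => u z - Φ z) z0 = cHess u z0 - cHess Φ z0 := by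
    have k1 : (fun z => u z - Φ z) = fun z => u z + (-1) * Φ z := by
      funext z; ring
    rw [k1, C2.cHess_add hu (contDiffAt_const.mul hΦ), C2.cHess_const_mul _ hΦ]
    simp [sub_eq_add_neg]
  rw [h3, Matrix.trace_neg, Matrix.trace_sub] at h2
  have h4 := (Complex.le_def.1 h2).1
  simp only [Complex.zero_re, Complex.neg_re, Complex.sub_re] at h4
  linarith

end

/-- the quadratic penalty -/
def Qp {n : ℕ} (c z : Cm n) : ℝ := ∑ i, sq i (c i) z

theorem Qp_contDiff {n : ℕ} (c z : Cm n) {k : WithTop ℕ∞} : ContDiffAt ℝ k (Qp c) z :=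
  ContDiffAt.sum fun i _ => sq_contDiff i (c i) z

theorem Qp_trace {n : ℕ} (c z : Cm n) : (Matrix.trace (cHess (Qp c) z)).re = n := by
  have h : cHess (Qp c) z = ∑ i, cHess (sq (n := n) i (c i)) z :=
    cHess_sum _ fun i _ => sq_contDiff i (c i) z
  rw [h, trace_sum_re]
  simp [trace_sq]

theorem Qp_self {n : ℕ} (c : Cm n) : Qp c c = 0 := by
  simp [Qp, sq]

theorem Qp_nonneg {n : ℕ} (c z : Cm n) : 0 ≤ Qp c z :=
  Finset.sum_nonneg fun i _ => by rw [sq]; positivity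

theorem mem_ball_of_Qp {n : ℕ} {c z : Cm n} {s : ℝ} (hs : 0 < s) (h : Qp c z < s ^ 2) :
    z ∈ ball c s := by
  rw [mem_ball, dist_pi_lt_iff hs]
  intro i
  have h1 : sq i (c i) z ≤ Qp c z :=
    Finset.single_le_sum (f := fun i => sq i (c i) z) (fun j _ => by rw [sq]; positivity)
      (Finset.mem_univ i)
  rw [dist_eq_norm]
  exact lt_of_pow_lt_pow_left₀ 2 hs.le (lt_of_le_of_lt h1 h)

section main
variable {n m M : ℕ} {Z : Type*} [TopologicalSpace Z] [CompactSpace Z] [ChartedSpace (Cm n) Z]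
  [IsManifold 𝓘(ℂ, Cm n) ω Z]
  {H : Type*} [NormedAddCommGroup H] [InnerProductSpace ℂ H]
  {N : Chart n Z → Cm n → ℝ} {w : Chart n Z → Cm n → ℝ} {τ : PSec n M Z}
  {H' : Type*} [NormedAddCommGroup H']
  {V : Cm n → H'} {C : ℝ}

theorem Pv_pos {e : Chart n Z} {f : Cm n → Cm n} {z : Cm n} (hz : Pv τ w e f z ≠ 0) :
    0 < Pv τ w e f z := lt_of_le_of_ne (Pv_nonneg τ w e f z) hz.symm

/-- the constants for the maximum principle -/
theorem ko_consts (hm : 1 ≤ m) (hw : IsCanonicalMetric w)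
    (hN : HMet n m Z H N)
    (hC : ∀ e x, At e x → (‖τ.coeff e (e x)‖ ^ 2 * Real.exp (-(M : ℝ) * w e (e x))) ^ m ≤
      C * (N e (e x) * Real.exp (-(m : ℝ) * w e (e x))) ^ (M + 2))
    (hV : Continuous V) (ζ : Cm n) (R hmin : ℝ) :
    ∃ U c0 v : ℝ, 0 < c0 ∧ 0 < v ∧ ∀ (z : Cm n) (e : Chart n Z) (f : Cm n → Cm n),
      z ∈ closedBall ζ R → IsBranch m N V z e f → Pv τ w e f z ≠ 0 →
      uF τ w e f z ≤ U ∧ (hmin < uF τ w e f z →
        c0 ≤ N e (f z) * Real.exp (-(m : ℝ) * w e (f z)) ∧ v ≤ ‖V z‖) := by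
  set P0 : ℝ := Real.exp ((M + 1) * hmin) with hP0
  have hP0pos : 0 < P0 := Real.exp_pos _
  have hm' : (0 : ℝ) < m := by exact_mod_cast hm
  have hM : (0 : ℝ) < M + 1 := by positivity
  obtain ⟨ρm, hρm⟩ : ∃ ρm : ℝ, ∀ x, ratio m N w x ≤ ρm := by
    obtain ⟨b, hb⟩ := (isCompact_univ (X := Z)).exists_bound_of_continuousOn
      (continuous_ratio hN hw).continuousOn
    exact ⟨b, fun x => (le_abs_self _).trans (hb x (mem_univ x))⟩
  obtain ⟨Bv, hBv⟩ := (isCompact_closedBall ζ R).exists_bound_of_continuousOn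
    (hV.norm.pow 2).continuousOn
  set C' : ℝ := max 1 C with hC'
  set ρm' : ℝ := max 1 ρm with hρm'
  set Bv' : ℝ := max 1 Bv with hBv'
  have hC'1 : 1 ≤ C' := le_max_left _ _
  have hρ1 : 1 ≤ ρm' := le_max_left _ _
  have hBv1 : 1 ≤ Bv' := le_max_left _ _
  have hVB : ∀ z ∈ closedBall ζ R, ‖V z‖ ^ 2 ≤ Bv' := fun z hz =>
    ((le_abs_self _).trans (hBv z hz)).trans (le_max_right _ _)
  refine ⟨Real.log (C' * ρm' * Bv' ^ (M + 1)) / (m * (M + 1)), P0 ^ m / (C' * Bv' ^ (M + 1)),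
    √(min 1 (P0 ^ m / (C' * ρm'))), by positivity,
    Real.sqrt_pos.2 (lt_min one_pos (by positivity)), ?_⟩
  intro z e f hz hb hP
  have hPp := Pv_pos hP
  -- the ratio of a branch
  obtain ⟨hr0, hr1⟩ : 0 ≤ N e (f z) * Real.exp (-(m : ℝ) * w e (f z)) ∧
      N e (f z) * Real.exp (-(m : ℝ) * w e (f z)) ≤ ρm' := by
    have hat := At.of_target hb.mem hb.tgt
    have h1 := ratio_eq hN.change hw hat
    have h2 := hN.nonneg hat
    rw [e.right_inv hb.tgt] at h1 h2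
    refine ⟨by positivity, ?_⟩
    rw [← h1]
    exact (hρm _).trans (le_max_right _ _)
  have hVz := hVB z hz
  have hPb : Pv τ w e f z ^ m ≤
      C' * (N e (f z) * Real.exp (-(m : ℝ) * w e (f z))) * (‖V z‖ ^ 2) ^ (M + 1) := by
    refine (Pv_bound hC hb).trans ?_
    gcongr
    exact le_max_right _ _
  generalize N e (f z) * Real.exp (-(m : ℝ) * w e (f z)) = r at hr0 hr1 hPb ⊢
  have h0 : 0 ≤ ‖V z‖ ^ 2 := by positivity
  refine ⟨?_, fun hu => ⟨?_, ?_⟩⟩
  · have h1 : Pv τ w e f z ^ m ≤ C' * ρm' * Bv' ^ (M + 1) := by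
      refine hPb.trans ?_
      gcongr
    have h2 := Real.log_le_log (pow_pos hPp m) h1
    rw [Real.log_pow] at h2
    rw [uF, div_le_div_iff₀ hM (by positivity)]
    nlinarith
  · have hPl : P0 ≤ Pv τ w e f z := by
      rw [← exp_uF hPp, hP0, Real.exp_le_exp]
      exact mul_le_mul_of_nonneg_left hu.le hM.le
    have h1 : P0 ^ m ≤ C' * r * Bv' ^ (M + 1) := by
      refine (pow_le_pow_left₀ hP0pos.le hPl m).trans (hPb.trans ?_)
      gcongr
    rw [div_le_iff₀ (by positivity)]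
    linarith
  · have hPl : P0 ≤ Pv τ w e f z := by
      rw [← exp_uF hPp, hP0, Real.exp_le_exp]
      exact mul_le_mul_of_nonneg_left hu.le hM.le
    rw [Real.sqrt_le_left (norm_nonneg _)]
    have h1 : P0 ^ m ≤ C' * ρm' * (‖V z‖ ^ 2) ^ (M + 1) := by
      refine (pow_le_pow_left₀ hP0pos.le hPl m).trans (hPb.trans ?_)
      gcongr
    have h2 : P0 ^ m / (C' * ρm') ≤ (‖V z‖ ^ 2) ^ (M + 1) := by
      rw [div_le_iff₀ (by positivity)]
      linarith
    rcases le_total (‖V z‖ ^ 2) 1 with h3 | h3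
    · refine (min_le_right _ _).trans (h2.trans ?_)
      exact pow_le_of_le_one (by positivity) h3 (by omega)
    · exact (min_le_left _ _).trans h3

/-- the trace of the penalised barrier -/
theorem pen_trace (hn : 1 ≤ n) {c R : ℝ} (hc : 0 < c) (hR : 0 < R) {ζ z1 z0 : Cm n}
    (hz0 : z0 ∈ ball ζ R) {κ' : ℝ} (hκ' : κ' = c / (4 * n) * Real.exp (hB c R ζ ζ / n)) :
    ContDiffAt ℝ 2 (fun z => hB c R ζ z + κ' * Qp z1 z) z0 ∧
    (Matrix.trace (cHess (fun z => hB c R ζ z + κ' * Qp z1 z) z0)).re <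
      c * Real.exp (hB c R ζ z0 / n) := by
  have hn' : (0 : ℝ) < n := by exact_mod_cast hn
  refine ⟨(hB_contDiff hR hz0).add (contDiffAt_const.mul (Qp_contDiff z1 z0)), ?_⟩
  have hTΦ : (Matrix.trace (cHess (fun z => hB c R ζ z + κ' * Qp z1 z) z0)).re =
      (Matrix.trace (cHess (hB c R ζ) z0)).re + κ' * n := by
    rw [C2.cHess_add (hB_contDiff hR hz0) (contDiffAt_const.mul (Qp_contDiff z1 z0)),
      C2.cHess_const_mul _ (Qp_contDiff z1 z0), Matrix.trace_add, Matrix.trace_smul, smul_eq_mul,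
      Complex.add_re, Complex.re_ofReal_mul, Qp_trace]
  rw [hTΦ]
  have hTB := hB_trace hn hc hR hz0
  have hge0 := hB_ge (κ := c) hR hz0
  have hexp2 : Real.exp (hB c R ζ ζ / n) ≤ Real.exp (hB c R ζ z0 / n) :=
    Real.exp_le_exp.2 (div_le_div_of_nonneg_right hge0 hn'.le)
  have hκn : κ' * n = c / 4 * Real.exp (hB c R ζ ζ / n) := by
    rw [hκ']; field_simp
  have hE := Real.exp_pos (hB c R ζ z0 / n)
  have h3 := mul_le_mul_of_nonneg_left hexp2 hc.le
  have h4 := mul_pos hc hE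
  rw [hκn]
  linarith

/-- the maximum principle on a small ball -/
theorem ko_local (hn : 1 ≤ n) (hw : IsCanonicalMetric w) {c : ℝ} (hc : 0 < c)
    (htr : ∀ (e : Chart n Z) (f : Cm n → Cm n) (z : Cm n), e ∈ atlas (Cm n) Z →
      f z ∈ e.target → AnalyticAt ℂ f z → Pv τ w e f z ≠ 0 →
      ContDiffAt ℝ 2 (uF τ w e f) z ∧
        c * Real.exp (uF τ w e f z / n) ≤ (Matrix.trace (cHess (uF τ w e f) z)).re)
    {ζ z1 : Cm n} {R s s2 S κ' : ℝ} (hR : 0 < R) (hs2 : 0 < s2) (hs : s2 < s)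
    (hsR : ball z1 s ⊆ ball ζ R) {e' : Chart n Z} {F : Cm n → Cm n}
    (hF : ∀ z ∈ ball z1 s, IsBranch m N V z e' F) (hP1 : Pv τ w e' F z1 ≠ 0)
    (hS : ∀ z ∈ ball z1 s, Pv τ w e' F z ≠ 0 → uF τ w e' F z - hB c R ζ z ≤ S)
    (hκ' : κ' = c / (4 * n) * Real.exp (hB c R ζ ζ / n))
    (h1 : 0 < uF τ w e' F z1 - hB c R ζ z1)
    (h2 : S - κ' * s2 ^ 2 < uF τ w e' F z1 - hB c R ζ z1) : False := by
  have hn' : (0 : ℝ) < n := by exact_mod_cast hn
  have hκ'pos : 0 < κ' := by rw [hκ']; positivity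
  have hcs' : closedBall z1 s2 ⊆ ball z1 s := closedBall_subset_ball hs
  have hcs : closedBall z1 s2 ⊆ ball ζ R := hcs'.trans hsR
  have hz1s : z1 ∈ ball z1 s := mem_ball_self (hs2.trans hs)
  set Φ : Cm n → ℝ := fun z => hB c R ζ z + κ' * Qp z1 z with hΦ
  obtain ⟨z0, hz0, hPz0, hmax⟩ := max_exists (τ := τ) (e := e') (F := F) (Φ := Φ) hw hs2 hs
    (hF z1 hz1s).mem (fun z hz => ⟨(hF z hz).an, (hF z hz).tgt⟩)
    (fun z hz => (pen_trace hn hc hR (hcs hz) hκ').1.continuousAt) hP1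
  have hz0R : z0 ∈ ball ζ R := hcs hz0
  have hb0 := hF z0 (hcs' hz0)
  have hm1 := hmax z1 (mem_closedBall_self hs2.le) hP1
  have hΦ1 : Φ z1 = hB c R ζ z1 := by rw [hΦ]; simp only [Qp_self, mul_zero, add_zero]
  have hΦ0 : Φ z0 = hB c R ζ z0 + κ' * Qp z1 z0 := rfl
  rw [hΦ1, hΦ0] at hm1
  have hle := hS z0 (hcs' hz0) hPz0
  have hQlt : Qp z1 z0 < s2 ^ 2 := by
    have k1 : κ' * Qp z1 z0 < κ' * s2 ^ 2 := by linarith
    exact lt_of_mul_lt_mul_left k1 hκ'pos.le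
  have hz0i : z0 ∈ ball z1 s2 := mem_ball_of_Qp hs2 hQlt
  obtain ⟨hu2, htr0⟩ := htr e' F z0 hb0.mem hb0.tgt hb0.an hPz0
  have hlmax : IsLocalMax (fun z => uF τ w e' F z - Φ z) z0 := by
    have hcP := Pv_continuousAt (τ := τ) hw hb0.mem hb0.an hb0.tgt
    filter_upwards [isOpen_ball.mem_nhds hz0i, hcP.eventually_ne hPz0] with z hz hzP
    exact hmax z (ball_subset_closedBall hz) hzP
  obtain ⟨hΦ2, hΦt⟩ := pen_trace (z1 := z1) hn hc hR hz0R hκ'
  have hT := trace_le_of_max hu2 hΦ2 hlmax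
  have hQ0' := mul_nonneg hκ'pos.le (Qp_nonneg z1 z0)
  have hu0 : hB c R ζ z0 ≤ uF τ w e' F z0 := by linarith
  have hexp1 : Real.exp (hB c R ζ z0 / n) ≤ Real.exp (uF τ w e' F z0 / n) :=
    Real.exp_le_exp.2 (div_le_div_of_nonneg_right hu0 hn'.le)
  have h5 := mul_le_mul_of_nonneg_left hexp1 hc.le
  have h6 := h5.trans (htr0.trans hT)
  exact absurd h6 (not_le.2 hΦt)

end main

end Vale.Agent.P284.H812
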