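import Vale.Agent.P284.H625.NS.Loc
import Vale.Agent.P284.H286.NSHC
import Mathlib.LinearAlgebra.Matrix.NonsingularInverse
import Mathlib.Topology.Instances.Matrix

/-!
# P284 (helper812), module NS (f), part 1: rank of a natural operator, maximality
-/

open scoped Topology
open Filter

noncomputable section

set_option linter.unusedSectionVars false

namespace Vale.Agent.P284.H812.NSF

open Vale.Agent.P272.K Vale.Agent.P284.H625 Vale.Agent.P284.H573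

section
variable {q R : ℕ} {H₁ H₂ : Type} [NormedAddCommGroup H₁] [InnerProductSpace ℂ H₁]
  [CompleteSpace H₁] [NormedAddCommGroup H₂] [InnerProductSpace ℂ H₂] [CompleteSpace H₂]

/-- the components `δ i` of `Γ(D)` have linearly independent differentials at `x` -/
def Ind {m s : ℕ} {H : Type} [NormedAddCommGroup H] [InnerProductSpace ℂ H]
    (Γ : NatOp q R H₁ H₂ m H) (δ : Fin s → H) (D : Dat q R H₁ H₂) (x : Cm R) : Prop :=
  ∀ y : Fin s → ℂ, ∃ ξ : Cm R, ∀ i, fderiv ℂ (fun x => inner ℂ (δ i) (Γ.op D x)) x ξ = y i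

/-- some normalised natural operator has rank at least `s` at `x` -/
def RkD (D : Dat q R H₁ H₂) (x : Cm R) (s : ℕ) : Prop :=
  ∃ (m : ℕ) (_ : 1 ≤ m) (H : Type) (_ : NormedAddCommGroup H) (_ : InnerProductSpace ℂ H)
    (_ : CompleteSpace H) (Γ : NatOp q R H₁ H₂ m H) (δ : Fin s → H), Nrm Γ ∧ Ind Γ δ D x

theorem Ind.le {m s : ℕ} {H : Type} [NormedAddCommGroup H] [InnerProductSpace ℂ H]
    {Γ : NatOp q R H₁ H₂ m H} {δ : Fin s → H} {D : Dat q R H₁ H₂} {x : Cm R}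
    (h : Ind Γ δ D x) : s ≤ R := by
  set L : Cm R →ₗ[ℂ] (Fin s → ℂ) := LinearMap.pi fun i =>
    (fderiv ℂ (fun x => inner ℂ (δ i) (Γ.op D x)) x : Cm R →ₗ[ℂ] ℂ) with hL
  have hsurj : Function.Surjective L := by
    intro y
    obtain ⟨ξ, hξ⟩ := h y
    exact ⟨ξ, funext hξ⟩
  have := LinearMap.finrank_le_finrank_of_surjective hsurj
  simpa using this

theorem RkD.le {D : Dat q R H₁ H₂} {x : Cm R} {s : ℕ} (h : RkD D x s) : s ≤ R := by
  obtain ⟨m, _, H, _, _, _, Γ, δ, _, h⟩ := h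
  exact h.le

/-- an open condition: linear maps to `ℂ^s` which are onto -/
theorem surj_near {R s : ℕ} {P : Type} [TopologicalSpace P] {A : P → Fin s → Cm R →L[ℂ] ℂ} {p : P}
    (hA : ∀ i, ContinuousAt (fun p => A p i) p)
    (h : ∀ y : Fin s → ℂ, ∃ ξ : Cm R, ∀ i, A p i ξ = y i) :
    ∀ᶠ p' in 𝓝 p, ∀ y : Fin s → ℂ, ∃ ξ : Cm R, ∀ i, A p' i ξ = y i := by
  choose ξ hξ using fun j : Fin s => h (Pi.single j 1)
  let M : P → Matrix (Fin s) (Fin s) ℂ := fun p' => Matrix.of fun i j => A p' i (ξ j)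
  have hM : ContinuousAt (fun p' => (M p').det) p := by
    have h1 : ContinuousAt M p := by
      refine continuousAt_pi.2 fun i => continuousAt_pi.2 fun j => ?_
      exact (hA i).clm_apply continuousAt_const
    have h2 : Continuous fun N : Matrix (Fin s) (Fin s) ℂ => N.det :=
      continuous_id.matrix_det
    exact h2.continuousAt.comp h1
  have h0 : (M p).det ≠ 0 := by
    have : M p = 1 := by
      ext i j
      simp only [M, Matrix.of_apply, hξ, Matrix.one_apply, Pi.single_apply]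
    rw [this, Matrix.det_one]
    exact one_ne_zero
  filter_upwards [hM.eventually_ne h0] with p' hp' y
  have hu : IsUnit (M p').det := isUnit_iff_ne_zero.2 hp'
  refine ⟨∑ j, ((M p')⁻¹.mulVec y) j • ξ j, fun i => ?_⟩
  have h3 : (M p').mulVec ((M p')⁻¹.mulVec y) = y := by
    rw [Matrix.mulVec_mulVec, Matrix.mul_nonsing_inv _ hu, Matrix.one_mulVec]
  have h4 := congrFun h3 i
  rw [map_sum]
  simp only [map_smul, smul_eq_mul]
  rw [← h4]
  simp only [Matrix.mulVec, dotProduct, M, Matrix.of_apply]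
  exact Finset.sum_congr rfl fun j _ => mul_comm _ _

theorem inner_an {m : ℕ} {H : Type} [NormedAddCommGroup H] [InnerProductSpace ℂ H]
    [CompleteSpace H] (Γ : NatOp q R H₁ H₂ m H) (δ : H) {D : Dat q R H₁ H₂} {x : Cm R}
    (hD : D.An x) : AnalyticAt ℂ (fun x => inner ℂ δ (Γ.op D x)) x :=
  ((innerSL ℂ δ).analyticAt _).comp_of_eq (Γ.anAt hD) rfl

theorem Ind.near {m s : ℕ} {H : Type} [NormedAddCommGroup H] [InnerProductSpace ℂ H]
    [CompleteSpace H] {Γ : NatOp q R H₁ H₂ m H} {δ : Fin s → H} {D : Dat q R H₁ H₂} {x : Cm R}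
    (hD : D.An x) (h : Ind Γ δ D x) : ∀ᶠ x' in 𝓝 x, Ind Γ δ D x' :=
  surj_near (A := fun x' i => fderiv ℂ (fun x => inner ℂ (δ i) (Γ.op D x)) x')
    (fun i => (inner_an Γ (δ i) hD).fderiv.continuousAt) h

/-- **Maximality**: if no point near `x₀` has rank `s + 1`, the natural functions are functions of the
`s` components with independent differentials. -/
theorem max_of {D : Dat q R H₁ H₂} {x₀ : Cm R} (hD : D.An x₀)
    (h1 : ∃ ε : H₁, ∀ᶠ x in 𝓝 x₀, inner ℂ ε (D.v x) = 1) {m s : ℕ} (hm : 1 ≤ m) {H : Type}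
    [NormedAddCommGroup H] [InnerProductSpace ℂ H] [CompleteSpace H]
    {Γ : NatOp q R H₁ H₂ m H} {δ : Fin s → H} (hΓ : Nrm Γ) (h : Ind Γ δ D x₀)
    (hmax : ∀ᶠ x in 𝓝 x₀, ¬ RkD D x (s + 1)) (g : Cm R → ℂ) (hg : NatFun D x₀ g) :
    ∀ᶠ x in 𝓝 x₀, ∀ ξ : Cm R,
      (∀ i, fderiv ℂ (fun x => inner ℂ (δ i) (Γ.op D x)) x ξ = 0) → fderiv ℂ g x ξ = 0 := by
  have hf : ∀ i, NatFun D x₀ fun x => inner ℂ (δ i) (Γ.op D x) := fun i =>
    ⟨m, hm, H, inferInstance, inferInstance, inferInstance, Γ, δ i, hΓ,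
      Eventually.of_forall fun x => rfl⟩
  obtain ⟨m', hm', H', i1, i2, i3, Γ', δ', hΓ', hδ'⟩ := natFam hD h1 (s + 1)
    (Fin.cons g fun i x => inner ℂ (δ i) (Γ.op D x)) (by
      intro i
      refine Fin.cases ?_ (fun i => ?_) i
      · exact hg
      · exact hf i)
  have h0 : ∀ᶠ x in 𝓝 x₀, g =ᶠ[𝓝 x] fun x => inner ℂ (δ' 0) (Γ'.op D x) :=
    (hδ' 0).eventually_nhds
  have hs : ∀ᶠ x in 𝓝 x₀, ∀ i : Fin s, (fun x => inner ℂ (δ i) (Γ.op D x)) =ᶠ[𝓝 x]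
      fun x => inner ℂ (δ' i.succ) (Γ'.op D x) :=
    eventually_all.2 fun i => (hδ' i.succ).eventually_nhds
  filter_upwards [h.near hD, hmax, h0, hs] with x k1 k2 k3 k4 ξ hξ
  by_contra hne
  refine k2 ⟨m', hm', H', i1, i2, i3, Γ', δ', hΓ', fun y => ?_⟩
  obtain ⟨ζ, hζ⟩ := k1 fun i => y i.succ
  refine ⟨ζ + ((fderiv ℂ g x ξ)⁻¹ * (y 0 - fderiv ℂ g x ζ)) • ξ, fun i => ?_⟩
  refine Fin.cases ?_ (fun i => ?_) i
  · rw [← k3.fderiv_eq, map_add, map_smul, smul_eq_mul]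
    field_simp
    ring
  · rw [← (k4 i).fderiv_eq, map_add, map_smul, hζ i, hξ i]
    simp

end

section
variable {q r : ℕ} {W H₁ H₂ : Type} [NormedAddCommGroup W] [InnerProductSpace ℂ W]
  [CompleteSpace W]
  [NormedAddCommGroup H₁] [InnerProductSpace ℂ H₁] [CompleteSpace H₁] [NormedAddCommGroup H₂]
  [InnerProductSpace ℂ H₂] [CompleteSpace H₂]

/-- the local summary at a point of maximal rank `s` -/
theorem loc_of {D : Dat q (q + r) H₁ H₂} {F : Cm (q + r) → W} {x₀ : Cm (q + r)}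
    (hA : Adapted D F x₀) {m s : ℕ} (hm : 1 ≤ m) {H : Type} [NormedAddCommGroup H]
    [InnerProductSpace ℂ H] [CompleteSpace H] {Γ : NatOp q (q + r) H₁ H₂ m H} (hΓ : Nrm Γ)
    {δ : Fin s → H} (h : Ind Γ δ D x₀) (hmax : ∀ᶠ x in 𝓝 x₀, ¬ RkD D x (s + 1)) :
    (s = q + r → ImmAt (Γ.op D) x₀) ∧
    (s < q + r → (∃ ζ : Cm (q + r), ζ ≠ 0 ∧ tq ζ = 0 ∧
        ∀ᶠ x in 𝓝 x₀, tq x = tq x₀ → fderiv ℂ F x ζ = fderiv ℂ F x₀ ζ) ∨
      IsoPkgC q r (q + r - s) s W x₀ {g | NatFun D x₀ g} F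
        (fun i x => inner ℂ (δ i) (Γ.op D x))) :=
  nsLoc H286.hcStmt hA hm Γ hΓ δ h (fun g hg => max_of hA.an hA.one hm hΓ h hmax g hg)


/-- no vertical vector is killed by the differentials of the components `δ i` of `Γ` -/
def Inj {m s : ℕ} {H : Type} [NormedAddCommGroup H] [InnerProductSpace ℂ H]
    (Γ : NatOp q (q + r) H₁ H₂ m H) (δ : Fin s → H) (D : Dat q (q + r) H₁ H₂)
    (x : Cm (q + r)) : Prop :=
  ∀ ξ : Cm (q + r), (∀ i, fderiv ℂ (fun x => inner ℂ (δ i) (Γ.op D x)) x ξ = 0) → tq ξ = 0 → ξ = 0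

/-- the package at a point of maximal rank, if no vertical vector is killed -/
theorem iso_of {D : Dat q (q + r) H₁ H₂} {F : Cm (q + r) → W} {x₀ : Cm (q + r)}
    (hA : Adapted D F x₀) {m s : ℕ} (hm : 1 ≤ m) {H : Type} [NormedAddCommGroup H]
    [InnerProductSpace ℂ H] [CompleteSpace H] {Γ : NatOp q (q + r) H₁ H₂ m H} (hΓ : Nrm Γ)
    {δ : Fin s → H} (h : Ind Γ δ D x₀) (hmax : ∀ᶠ x in 𝓝 x₀, ¬ RkD D x (s + 1))
    (hs : s < q + r) (hi : Inj Γ δ D x₀) :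
    IsoPkgC q r (q + r - s) s W x₀ {g | NatFun D x₀ g} F
        (fun i x => inner ℂ (δ i) (Γ.op D x)) := by
  obtain ⟨c1, c2, c3, c4, c5⟩ := cloStmt q r W H₁ H₂ D F x₀ hA
  have hfi : ∀ i, NatFun D x₀ (fun x => inner ℂ (δ i) (Γ.op D x)) := fun i =>
    ⟨m, hm, H, inferInstance, inferInstance, inferInstance, Γ, δ i, hΓ,
      Eventually.of_forall fun x => rfl⟩
  have e : Fin s ⊕ Fin (q + r - s) ≃ Fin (q + r) :=
    finSumFinEquiv.trans (finCongr (by omega))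
  exact H286.hcStmt q r (q + r - s) s e (by omega) W x₀ {g | NatFun D x₀ g} F c1 c2 hA.F_an c3
    _ hfi h (fun g hg => max_of hA.an hA.one hm hΓ h hmax g hg) hi (plu_natFun hA)

/-- the V-alternative at a point of maximal rank, if some vertical vector is killed -/
theorem vert_of {D : Dat q (q + r) H₁ H₂} {F : Cm (q + r) → W} {x₀ : Cm (q + r)}
    (hA : Adapted D F x₀) {m s : ℕ} (hm : 1 ≤ m) {H : Type} [NormedAddCommGroup H]
    [InnerProductSpace ℂ H] [CompleteSpace H] {Γ : NatOp q (q + r) H₁ H₂ m H} (hΓ : Nrm Γ)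
    {δ : Fin s → H} (h : Ind Γ δ D x₀) (hmax : ∀ᶠ x in 𝓝 x₀, ¬ RkD D x (s + 1))
    (hi : ¬ Inj Γ δ D x₀) : ∃ ζ : Cm (q + r), ζ ≠ 0 ∧ tq ζ = 0 ∧
        ∀ᶠ x in 𝓝 x₀, tq x = tq x₀ → fderiv ℂ F x ζ = fderiv ℂ F x₀ ζ := by
  obtain ⟨c1, c2, c3, c4, c5⟩ := cloStmt q r W H₁ H₂ D F x₀ hA
  simp only [Inj, not_forall] at hi
  obtain ⟨ζ, h1, h2, h3⟩ := hi
  exact ⟨ζ, h3, h2, H573.vStmt q r W x₀ {g | NatFun D x₀ g} F c1 c2 hA.F_an c3 ζ h2
        fun g hg => (max_of hA.an hA.one hm hΓ h hmax g hg).self_of_nhds ζ h1⟩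

end

end Vale.Agent.P284.H812.NSF
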