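import Vale.Agent.P284.H812.NSF8

/-!
# P284 (helper812), module NS (f), part 9: the sheet property up to scalars, proof
-/

open scoped Topology ContDiff
open Filter

noncomputable section

set_option linter.unusedSectionVars false

namespace Vale.Agent.P284.H812.NSF

open Vale.Agent.P272.K Vale.Agent.P284.H625 Vale.Agent.P284.H573 Vale.Agent.P284.H338
  Vale.Agent.P284.H501

section
variable {q r : ℕ} {W T₁ T₀ : Type} [NormedAddCommGroup W] [InnerProductSpace ℂ W]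
  [CompleteSpace W] [NormedAddCommGroup T₁] [InnerProductSpace ℂ T₁] [CompleteSpace T₁]
  [NormedAddCommGroup T₀] [InnerProductSpace ℂ T₀] [CompleteSpace T₀]
  {S₁ : TPow W T₁ (r + 1)} {S₀ : TPow W T₀ r}

theorem exD_congr {F G : Cm (q + (r + 1)) → W} {x : Cm (q + (r + 1))} (h : F =ᶠ[𝓝 x] G) :
    (exD q r S₁ S₀ F).Eqv (exD q r S₁ S₀ G) x := by
  refine ⟨EventuallyEq.rfl, ?_, ?_⟩
  · filter_upwards [h.eventuallyEq_nhds] with x' h1
    simp only [exD, h1.fderiv_eq]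
  · filter_upwards [h.eventuallyEq_nhds] with x' h1
    simp only [exD, h1.fderiv_eq]

/-- a natural operator in the new adapted coordinates -/
theorem op_change {m : ℕ} {H : Type} [NormedAddCommGroup H] [InnerProductSpace ℂ H]
    (Γ : NatOp q (q + (r + 1)) T₁ T₀ m H) {F F' : Cm (q + (r + 1)) → W}
    {κ : Cm (q + (r + 1)) → Cm (q + (r + 1))} {x₂ : Cm (q + (r + 1))}
    (hF' : AnalyticAt ℂ F' (κ x₂)) (hκ : AnalyticAt ℂ κ x₂)
    (ht : ∀ᶠ x in 𝓝 x₂, tq (κ x) = tq x) (hFF : ∀ᶠ x in 𝓝 x₂, F' (κ x) = F x) :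
    ∀ᶠ x in 𝓝 x₂, Γ.op (exD q r S₁ S₀ F) x =
      (jac κ x).det ^ m • Γ.op (exD q r S₁ S₀ F') (κ x) := by
  filter_upwards [hκ.eventually_analyticAt, hκ.continuousAt.eventually hF'.eventually_analyticAt,
    ht.eventually_nhds, hFF.eventually_nhds] with x h1 h2 h3 h4
  have e1 := exD_pull (S₁ := S₁) (S₀ := S₀) h2 h1 h3
  have e2 : (exD q r S₁ S₀ F).Eqv (exD q r S₁ S₀ fun x => F' (κ x)) x :=
    exD_congr (h4.mono fun x hx => hx.symm)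
  rw [Γ.loc _ _ _ e2, Γ.loc _ _ _ e1]
  exact Γ.pull _ _ _ h1 (exD_an h2)

/-- **the sheet property up to scalars** -/
theorem sheet_loc {m M : ℕ} (hM : 1 ≤ M) {H K : Type} [NormedAddCommGroup H]
    [InnerProductSpace ℂ H] [CompleteSpace H] [NormedAddCommGroup K] [InnerProductSpace ℂ K]
    [CompleteSpace K] {Γ : NatOp q (q + (r + 1)) T₁ T₀ m H}
    {Γ' : NatOp q (q + (r + 1)) T₁ T₀ M K} (hΓ : Nrm Γ) (hN : Nxt Γ Γ')
    {F₁ F₂ : Cm (q + (r + 1)) → W} {x₁ x₂ : Cm (q + (r + 1))} (hF₁ : AnalyticAt ℂ F₁ x₁)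
    (hF₂ : AnalyticAt ℂ F₂ x₂) {f' f : Fin (r + 1) → W}
    (hd₁ : ∀ᶠ x in 𝓝 x₁, ∀ a, inner ℂ (f' a) (F₁ x) = x (Fin.natAdd q a))
    (hd₂ : ∀ᶠ x in 𝓝 x₂, ∀ a, inner ℂ (f a) (F₂ x) = x (Fin.natAdd q a))
    {ψ : Cm (q + (r + 1)) → Cm (q + (r + 1))} (hψ : AnalyticAt ℂ ψ x₁) (hx : ψ x₁ = x₂)
    (hop : ∀ᶠ x in 𝓝 x₁, ∃ a : ℂ, Γ'.op (exD q r S₁ S₀ F₁) x =
      a • Γ'.op (exD q r S₁ S₀ F₂) (ψ x)) {c : Cm q}
    (ht : ∀ᶠ x in 𝓝 x₁, tq (ψ x) = tq x + c)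
    (tr : ∀ ξ : Cm (q + (r + 1)), tq ξ = 0 →
      fderiv ℂ (Γ.op (exD q r S₁ S₀ F₂)) x₂ ξ = 0 → ξ = 0) :
    ∀ᶠ x in 𝓝 x₁, ∀ ζ : Cm (q + (r + 1)), tq ζ = 0 →
      fderiv ℂ (fun x => F₂ (ψ x)) x ζ = fderiv ℂ F₁ x ζ := by
  have hψt : Tendsto ψ (𝓝 x₁) (𝓝 x₂) := by
    have := hψ.continuousAt.tendsto
    rwa [hx] at this
  obtain ⟨δ', hδ'⟩ := hN.nrm (S₁.μ f')
  have hA₁ := exD_adC S₁ S₀ hF₁ hd₁
  have h1 : ∀ᶠ x in 𝓝 x₁, inner ℂ δ' (Γ'.op (exD q r S₁ S₀ F₁) x) = 1 := by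
    filter_upwards [hA₁.one, hF₁.eventually_analyticAt] with x k1 k2
    rw [hδ' _ _ (exD_an k2), k1, one_pow]
  have hne : inner ℂ (S₁.μ f') ((exD q r S₁ S₀ F₂).v x₂) ≠ 0 := by
    intro h0
    obtain ⟨a, ha⟩ := hop.self_of_nhds
    have h2 := h1.self_of_nhds
    rw [ha, inner_smul_right, hx, hδ' _ _ (exD_an hF₂), h0, zero_pow (by omega), mul_zero] at h2
    exact zero_ne_one h2
  obtain ⟨l, hl, hl0, hl1, hl2⟩ := exists_change S₁ S₀ hF₂ hne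
  set κ : Cm (q + (r + 1)) → Cm (q + (r + 1)) := kap f' F₂ with hκ
  have hκa : AnalyticAt ℂ κ x₂ := kap_an hF₂
  set F₂' : Cm (q + (r + 1)) → W := fun x => F₂ (l x) with hF₂'
  have hF₂a : AnalyticAt ℂ F₂' (κ x₂) := by
    refine AnalyticAt.fun_comp (g := F₂) ?_ hl
    rw [hl0]
    exact hF₂
  have hlt : Tendsto l (𝓝 (κ x₂)) (𝓝 x₂) := by
    have := hl.continuousAt.tendsto
    rwa [hl0] at this
  have hFκ : ∀ᶠ x in 𝓝 x₂, F₂' (κ x) = F₂ x := by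
    filter_upwards [hl1] with x k1
    show F₂ (l (κ x)) = F₂ x
    rw [k1]
  have hd₂' : ∀ᶠ x in 𝓝 (κ x₂), ∀ a, inner ℂ (f' a) (F₂' x) = x (Fin.natAdd q a) := by
    filter_upwards [hl2] with x k1 a
    show inner ℂ (f' a) (F₂ (l x)) = x (Fin.natAdd q a)
    rw [← kap_natAdd f' F₂ (l x) a]
    exact congrFun k1 _
  have hA₂ := exD_adC S₁ S₀ hF₂a hd₂'
  have htκ : ∀ᶠ x in 𝓝 x₂, tq (κ x) = tq x := Eventually.of_forall fun x => tq_kap f' F₂ x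
  have hop₂ := op_change (S₁ := S₁) (S₀ := S₀) Γ' hF₂a hκa htκ hFκ
  have hop₁ := op_change (S₁ := S₁) (S₀ := S₀) Γ hF₂a hκa htκ hFκ
  have h1' : ∀ᶠ x in 𝓝 (κ x₂), inner ℂ δ' (Γ'.op (exD q r S₁ S₀ F₂') x) = 1 := by
    filter_upwards [hA₂.one, hF₂a.eventually_analyticAt] with x k1 k2
    rw [hδ' _ _ (exD_an k2), k1, one_pow]
  have hop' : ∀ᶠ x in 𝓝 x₁, Γ'.op (exD q r S₁ S₀ F₂') (κ (ψ x)) =
      Γ'.op (exD q r S₁ S₀ F₁) x := by
    filter_upwards [hop, h1, hψt.eventually hop₂,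
      hψt.eventually (hκa.continuousAt.eventually h1')] with x k1 k2 k3 k4
    obtain ⟨a, ha⟩ := k1
    rw [k3, smul_smul] at ha
    rw [ha, inner_smul_right, k4, mul_one] at k2
    rw [ha, k2, one_smul]
  -- the transversality
  have tr' : ∀ ξ : Cm (q + (r + 1)), tq ξ = 0 →
      fderiv ℂ (Γ.op (exD q r S₁ S₀ F₂')) (κ x₂) ξ = 0 → ξ = 0 := by
    intro ξ hξ1 hξ2
    set η := fderiv ℂ l (κ x₂) ξ with hη
    have e1 : fderiv ℂ κ x₂ η = ξ := by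
      have k1 : (fun x => κ (l x)) =ᶠ[𝓝 (κ x₂)] fun x => x := hl2
      have k2 : HasFDerivAt κ (fderiv ℂ κ x₂) (l (κ x₂)) := by
        rw [hl0]
        exact hκa.differentiableAt.hasFDerivAt
      have k3 := (k2.comp (κ x₂) hl.differentiableAt.hasFDerivAt).fderiv
      have k4 : fderiv ℂ (fun x => κ (l x)) (κ x₂) = ContinuousLinearMap.id ℂ _ := by
        rw [k1.fderiv_eq]
        exact fderiv_id
      have k5 := congrArg (fun L : Cm (q + (r + 1)) →L[ℂ] Cm (q + (r + 1)) => L ξ)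
        (k3.symm.trans k4)
      exact k5
    have e2 : tq η = 0 := by
      have k1 : tq (fderiv ℂ κ x₂ η) = tq η := by
        rw [fderiv_kap hF₂]
        funext j
        simp [tq]
      rw [← k1, e1, hξ1]
    set u : Cm (q + (r + 1)) → ℂ := fun x => (jac κ x).det ^ m with hu
    have hua : AnalyticAt ℂ u x₂ := (jac_det_an hκa).pow m
    have hG' : AnalyticAt ℂ (Γ.op (exD q r S₁ S₀ F₂')) (κ x₂) := Γ.anAt (exD_an hF₂a)
    have hG : HasFDerivAt (Γ.op (exD q r S₁ S₀ F₂))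
        (u x₂ • (fderiv ℂ (Γ.op (exD q r S₁ S₀ F₂')) (κ x₂)).comp (fderiv ℂ κ x₂) +
          (fderiv ℂ u x₂).smulRight (Γ.op (exD q r S₁ S₀ F₂') (κ x₂))) x₂ := by
      have k1 := hua.differentiableAt.hasFDerivAt.smul
        (hG'.differentiableAt.hasFDerivAt.comp x₂ hκa.differentiableAt.hasFDerivAt)
      exact k1.congr_of_eventuallyEq hop₁
    have e3 : fderiv ℂ (Γ.op (exD q r S₁ S₀ F₂)) x₂ η =
        fderiv ℂ u x₂ η • Γ.op (exD q r S₁ S₀ F₂') (κ x₂) := by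
      rw [hG.fderiv]
      show u x₂ • fderiv ℂ (Γ.op (exD q r S₁ S₀ F₂')) (κ x₂) (fderiv ℂ κ x₂ η) + _ = _
      rw [e1, hξ2, smul_zero, zero_add]
      rfl
    have hA := exD_adC S₁ S₀ hF₂ hd₂
    obtain ⟨δ₀, hδ₀⟩ := hΓ.one (exD_an (S₁ := S₁) (S₀ := S₀) hF₂) ⟨_, hA.one⟩
    have e4 : inner ℂ δ₀ (fderiv ℂ (Γ.op (exD q r S₁ S₀ F₂)) x₂ η) = 0 := by
      rw [← fderiv_inner_const' δ₀ (Γ.anAt (exD_an hF₂)).differentiableAt]
      have : (fun x => inner ℂ δ₀ (Γ.op (exD q r S₁ S₀ F₂) x)) =ᶠ[𝓝 x₂] fun _ => (1 : ℂ) := hδ₀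
      rw [this.fderiv_eq]
      simp
    have e5 : inner ℂ δ₀ (Γ.op (exD q r S₁ S₀ F₂') (κ x₂)) ≠ 0 := by
      intro h0
      have k1 := hδ₀.self_of_nhds
      rw [hop₁.self_of_nhds, inner_smul_right, h0, mul_zero] at k1
      exact zero_ne_one k1
    have e6 : fderiv ℂ u x₂ η = 0 := by
      rw [e3, inner_smul_right] at e4
      exact (mul_eq_zero.1 e4).resolve_right e5
    have e7 : η = 0 := tr η e2 (by rw [e3, e6, zero_smul])
    rw [← e1, e7, map_zero]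
  have ht' : ∀ᶠ x in 𝓝 x₁, tq (κ (ψ x)) = tq x + c := by
    filter_upwards [ht] with x k1
    rw [hκ, tq_kap, k1]
  have hκψ : AnalyticAt ℂ (fun x => κ (ψ x)) x₁ := by
    refine AnalyticAt.fun_comp (g := κ) ?_ hψ
    rw [hx]
    exact hκa
  have hS := (sheet (r := r + 1) hM hΓ hN hA₁ hA₂ (ψ := fun x => κ (ψ x)) hκψ (by rw [hx])
    hop' ht' tr').2.2
  -- conclusion
  set C : Cm q → W := fun t => F₂' (κ (ψ (sec x₁ t))) - F₁ (sec x₁ t) with hC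
  have hCa : AnalyticAt ℂ C (tq x₁) := by
    have k0 : sec x₁ (tq x₁) = x₁ := sec_tq x₁
    refine AnalyticAt.sub ?_ ?_
    · refine AnalyticAt.fun_comp (g := fun x => F₂' (κ (ψ x))) (f := sec x₁) ?_ (sec_an x₁ _)
      rw [k0]
      refine AnalyticAt.fun_comp (g := F₂') (f := fun x => κ (ψ x)) ?_ hκψ
      rw [hx]
      exact hF₂a
    · refine AnalyticAt.fun_comp (g := F₁) (f := sec x₁) ?_ (sec_an x₁ _)
      rw [k0]
      exact hF₁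
  have htq : Tendsto (fun x : Cm (q + (r + 1)) => tqL q (r + 1) x) (𝓝 x₁) (𝓝 (tq x₁)) :=
    (tqL q (r + 1)).continuous.tendsto x₁
  filter_upwards [hS.eventually_nhds, (hψt.eventually hFκ).eventually_nhds,
    htq.eventually hCa.eventually_analyticAt, hF₁.eventually_analyticAt] with x k1 k2 k3 k4 ζ hζ
  have k5 : (fun x => F₂ (ψ x)) =ᶠ[𝓝 x] fun x => F₁ x + C (tqL q (r + 1) x) := by
    filter_upwards [k1, k2] with x' j1 j2
    rw [← j2]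
    exact j1
  have k6 := (k4.differentiableAt.hasFDerivAt.add
    (k3.differentiableAt.hasFDerivAt.comp x (tqL q (r + 1)).hasFDerivAt)).fderiv
  rw [k5.fderiv_eq]
  have k7 : fderiv ℂ (fun x => F₁ x + C (tqL q (r + 1) x)) x = fderiv ℂ F₁ x +
      (fderiv ℂ C (tqL q (r + 1) x)).comp (tqL q (r + 1)) := k6
  rw [k7]
  show fderiv ℂ F₁ x ζ + fderiv ℂ C (tqL q (r + 1) x) (tqL q (r + 1) ζ) = fderiv ℂ F₁ x ζ
  rw [tqL_apply ζ, hζ, map_zero, add_zero]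

end

end Vale.Agent.P284.H812.NSF
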