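import Vale.Agent.P284.H812.NSF6
import Vale.Agent.P284.H812.NSF9
import Vale.Agent.P284.H338.LocF

/-!
# P284 (helper812), module NS (f), part 10: the class of adapted charts
-/

open scoped Manifold Topology ContDiff
open Filter

noncomputable section

set_option linter.unusedSectionVars false

namespace Vale.Agent.P284.H812.NSF

open Vale.Agent.P272.K Vale.Agent.P284.H625 Vale.Agent.P284.H573 Vale.Agent.P284.H338
  Vale.Agent.P284.H395 Vale.Agent.P284.H501 Vale.Agent.P284.H894.G Vale.Agent.P284.H894.W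

section
variable {n q r m s : ℕ} {X E : Type} [TopologicalSpace X] [ChartedSpace (Cm n) X]
  [TopologicalSpace E] {p : E → X}
  {W T₂ T₁ T₀ H : Type} [NormedAddCommGroup W] [InnerProductSpace ℂ W] [CompleteSpace W]
  [NormedAddCommGroup T₂] [InnerProductSpace ℂ T₂]
  [NormedAddCommGroup T₁] [InnerProductSpace ℂ T₁] [CompleteSpace T₁]
  [NormedAddCommGroup T₀] [InnerProductSpace ℂ T₀] [CompleteSpace T₀]
  [NormedAddCommGroup H] [InnerProductSpace ℂ H] [CompleteSpace H]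
  {t : E → Cm q} {S : E → Chart n X → Cm n [⋀^Fin (q + 1)]→L[ℂ] W}
  {S₂ : TPow W T₂ (r + 2)} {S₁ : TPow W T₁ (r + 1)} {S₀ : TPow W T₀ r}
  {V : E → Chart n X → Cm n [⋀^Fin (q + (r + 1))]→L[ℂ] T₁}
  {V' : E → Chart n X → Cm n [⋀^Fin (q + r)]→L[ℂ] T₀}

/-- the class of adapted charts with the exterior model -/
def ClS (p : E → X) (t : E → Cm q) (S : E → Chart n X → Cm n [⋀^Fin (q + 1)]→L[ℂ] W)
    (S₁ : TPow W T₁ (r + 1)) (S₀ : TPow W T₀ r)
    (V : E → Chart n X → Cm n [⋀^Fin (q + (r + 1))]→L[ℂ] T₁)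
    (V' : E → Chart n X → Cm n [⋀^Fin (q + r)]→L[ℂ] T₀) (y : E) (e : Chart n X)
    (b : Cm n → Cm (q + (r + 1))) (D : Dat q (q + (r + 1)) T₁ T₀)
    (F : Cm (q + (r + 1)) → W) : Prop :=
  D = exD q r S₁ S₀ F ∧ ∃ f : Fin (r + 1) → W, AdAt p t S S₁ S₀ V V' f y e b D F

theorem cls_clS (hp : IsLocalHomeomorph p) :
    Cls p t V V' (ClS p t S S₁ S₀ V V') := by
  refine ⟨fun h => ?_, fun h => ?_, fun h => ?_, fun h => ?_⟩
  · obtain ⟨_, f, h⟩ := h
    exact h.basic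
  · obtain ⟨_, f, h⟩ := h
    exact h.surj
  · obtain ⟨_, f, h⟩ := h
    exact h.adc.adapted
  · obtain ⟨h0, f, h⟩ := h
    filter_upwards [h.near hp] with y' h'
    exact ⟨h0, f, h'⟩

variable [IsManifold 𝓘(ℂ, Cm n) ω X]

/-- a nonzero coefficient of a form, in a given chart near a given point -/
theorem form_coef [PreconnectedSpace E] (hp : IsLocalHomeomorph p) {k : ℕ} {T : Type}
    [NormedAddCommGroup T] [InnerProductSpace ℂ T] [CompleteSpace T]
    {V : E → Chart n X → Cm n [⋀^Fin k]→L[ℂ] T} (hV : FormE p V)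
    (hne : ∃ y e, At e (p y) ∧ ∃ ξ, V y e ξ ≠ 0) (y : E) (e : Chart n X) (he : At e (p y)) :
    ∃ h : Cm n → ℂ, AnalyticAt ℂ h (e (p y)) ∧ (∃ᶠ z in 𝓝 (e (p y)), h z ≠ 0) ∧
      ∀ᶠ y' in 𝓝 y, h (e (p y')) ≠ 0 → ∃ ξ, V y' e ξ ≠ 0 := by
  obtain ⟨s, hs, hsV⟩ := hV.holo y e he
  obtain ⟨ρ₀, hρ₀, hB⟩ := Metric.eventually_nhds_iff_ball.1 hs.eventually_analyticAt
  obtain ⟨N, ρ, hN, hyN, hρ, hρρ, hNP⟩ := exists_sheet hp he hsV hρ₀
  obtain ⟨y₁, hy₁N, e₁, he₁, ξ₁, hξ₁⟩ :=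
    (form_ne_dense hp hV hne).inter_open_nonempty N hN ⟨y, hyN⟩
  obtain ⟨k1, k2, k3⟩ := hNP y₁ hy₁N
  obtain ⟨ξ, hξ⟩ : ∃ ξ, V y₁ e ξ ≠ 0 := by
    by_contra hcon
    push Not at hcon
    exact hξ₁ (form_zero_chart hV k2 he₁ hcon ξ₁)
  have ha : ∀ z, AnalyticAt ℂ s z → AnalyticAt ℂ (fun z => inner ℂ (V y₁ e ξ) (s z ξ)) z := by
    intro z hz
    have h1 : AnalyticAt ℂ (fun z => s z ξ) z :=
      ((ContinuousAlternatingMap.apply ℂ (Cm n) T ξ).analyticAt _).comp_of_eq hz rfl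
    exact ((innerSL ℂ (V y₁ e ξ)).analyticAt _).comp_of_eq h1 rfl
  refine ⟨fun z => inner ℂ (V y₁ e ξ) (s z ξ), ha _ hs, ?_, ?_⟩
  · refine freq_ball (ρ := ρ) (fun z hz => ha z (hB z (Metric.ball_subset_ball hρρ hz))) k3
      (Metric.mem_ball_self hρ) ?_
    rw [← k1]
    exact inner_self_ne_zero.2 hξ
  · filter_upwards [hsV] with y' h1 h2
    refine ⟨ξ, fun h3 => h2 ?_⟩
    rw [← h1, h3, inner_zero_right]

/-- a nonzero minor of the differential of `t`, in a given chart near a given point -/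
theorem reg_coef (hp : IsLocalHomeomorph p)
    (hrep : ∀ y (e : Chart n X), At e (p y) → ∃ f, H501.Rep p t y e f)
    (hreg : ∀ y (e : Chart n X) f, At e (p y) → H501.Rep p t y e f →
      ∃ᶠ z in 𝓝 (e (p y)), Function.Surjective (fderiv ℂ f z))
    (y : E) (e : Chart n X) (he : At e (p y)) :
    ∃ h : Cm n → ℂ, AnalyticAt ℂ h (e (p y)) ∧ (∃ᶠ z in 𝓝 (e (p y)), h z ≠ 0) ∧
      ∀ᶠ y' in 𝓝 y, h (e (p y')) ≠ 0 → Reg (n := n) p t y' := by
  obtain ⟨f, hf⟩ := hrep y e he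
  obtain ⟨ρ, hρ, hB⟩ := Metric.eventually_nhds_iff_ball.1 hf.1.eventually_analyticAt
  obtain ⟨z₁, hz₁, hz₁'⟩ :=
    ((hreg y e f he hf).and_eventually (Metric.ball_mem_nhds _ hρ)).exists
  choose η hη using fun j : Fin q => hz₁ (Pi.single j 1)
  have ha : ∀ z, AnalyticAt ℂ f z →
      AnalyticAt ℂ (fun z => (Matrix.of fun i j => fderiv ℂ f z (η j) i).det) z := by
    intro z hz
    have h1 : ∀ i j, AnalyticAt ℂ (fun z' => fderiv ℂ f z' (η j) i) z := fun i j =>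
      (((ContinuousLinearMap.proj (R := ℂ) (φ := fun _ : Fin q => ℂ) i).comp
        (ContinuousLinearMap.apply ℂ (Cm q) (η j))).analyticAt _).comp_of_eq hz.fderiv rfl
    have hdet : (fun z' => (Matrix.of fun i j => fderiv ℂ f z' (η j) i).det) = fun z' =>
        ∑ σ : Equiv.Perm (Fin q), ((Equiv.Perm.sign σ : ℤ) : ℂ) * ∏ i,
          fderiv ℂ f z' (η i) (σ i) := by
      funext z
      rw [Matrix.det_apply']
      rfl
    rw [hdet]
    refine Finset.analyticAt_fun_sum _ fun σ _ => ?_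
    exact analyticAt_const.mul (Finset.analyticAt_fun_prod _ fun i _ => h1 _ _)
  refine ⟨fun z => (Matrix.of fun i j => fderiv ℂ f z (η j) i).det, ha _ hf.1, ?_, ?_⟩
  · refine freq_ball (ρ := ρ) (fun z hz => ha z (hB z hz)) hz₁' (Metric.mem_ball_self hρ) ?_
    have h1 : (Matrix.of fun i j => fderiv ℂ f z₁ (η j) i) = 1 := by
      ext i j
      simp only [Matrix.of_apply, hη, Matrix.one_apply, Pi.single_apply]
    rw [h1, Matrix.det_one]
    exact one_ne_zero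
  · filter_upwards [rep_near hp he hf, at_near hp he] with y' h1 h2 h3
    refine (reg_iff hp h2 h1).2 fun x => ?_
    obtain ⟨v, hv⟩ := surj_of_det (A := fun i =>
      ((ContinuousLinearMap.proj (R := ℂ) (φ := fun _ : Fin q => ℂ) i).comp
        (fderiv ℂ f (e (p y'))) : Cm n →ₗ[ℂ] ℂ)) h3 x
    exact ⟨v, funext hv⟩

/-- **the points with adapted charts have thin complement** -/
theorem thin_ad [PreconnectedSpace E] (hp : IsLocalHomeomorph p)
    (h : SDat p t S S₂ S₁ S₀ V V') : ThinC (n := n) p (Ad (ClS p t S S₁ S₀ V V')) := by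
  intro y e he
  obtain ⟨h₁, a1, a2, a3⟩ := form_coef hp h.formV h.ne y e he
  obtain ⟨h₂, b1, b2, b3⟩ := reg_coef hp h.rep h.reg y e he
  refine ⟨fun z => h₁ z * h₂ z, a1.mul b1, freq_mul a1 b1 a2 b2, ?_⟩
  filter_upwards [a3, b3, at_near hp he] with y' k1 k2 k3 k4
  obtain ⟨ξ, hξ⟩ := k1 (left_ne_zero_of_mul k4)
  obtain ⟨f, e', b, F, hA⟩ := h.exists_adAt_of_gdE locFormStmt hp (y := y')
    ⟨k2 (right_ne_zero_of_mul k4), e, k3, ξ, hξ⟩
  exact ⟨e', b, _, F, rfl, f, hA⟩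

/-- adapted points are the good points of `SDat` -/
theorem ad_iff (hp : IsLocalHomeomorph p) (h : SDat p t S S₂ S₁ S₀ V V') {y : E} :
    y ∈ Ad (ClS p t S S₁ S₀ V V') ↔ y ∈ GdE n p t V := by
  constructor
  · rintro ⟨e, b, D, F, rfl, f, hA⟩
    have he := hA.basic.mem
    have hbd : HasFDerivAt b (fderiv ℂ b (e (p y))) (e (p y)) :=
      hA.basic.ban.differentiableAt.hasFDerivAt
    refine ⟨?_, e, he, ?_⟩
    · obtain ⟨tl, ht⟩ := h.rep y e he
      refine (reg_iff hp he ht).2 ?_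
      have h1 : tl =ᶠ[𝓝 (e (p y))] fun z => tqL q (r + 1) (b z) := by
        refine (ev_iff hp he).1 ?_
        filter_upwards [ht.2, hA.basic.t_eq] with y' k1 k2
        rw [← k1, k2]
        rfl
      rw [h1.fderiv_eq]
      have h2 : fderiv ℂ (fun z => tqL q (r + 1) (b z)) (e (p y)) =
          (tqL q (r + 1)).comp (fderiv ℂ b (e (p y))) :=
        (((tqL q (r + 1)).hasFDerivAt).comp (e (p y)) hbd).fderiv
      rw [h2]
      intro x
      obtain ⟨v, hv⟩ := hA.surj (sec 0 x)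
      refine ⟨v, ?_⟩
      show tq (fderiv ℂ b (e (p y)) v) = x
      rw [hv, tq_sec]
    · choose ξ hξ using fun j : Fin (q + (r + 1)) => hA.surj (Pi.single j 1)
      refine ⟨ξ, fun h0 => ?_⟩
      have h1 := hA.basic.V_eq.self_of_nhds ξ
      have hdm : dm b (e (p y)) ξ = 1 := by
        ext i j
        simp only [dm, Matrix.of_apply, hξ, Matrix.one_apply, Pi.single_apply]
      have h2 : (exD q r S₁ S₀ F).v (b (e (p y))) = 0 := by
        have h3 : (dm (R := q + r + 1) b (e (p y)) ξ).det • (exD q r S₁ S₀ F).v (b (e (p y))) =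
          0 := by
          rw [← h1]
          exact h0
        have h4 : (dm (R := q + r + 1) b (e (p y)) ξ).det = 1 := by
          have : (dm (R := q + r + 1) b (e (p y)) ξ) = 1 := hdm
          rw [this, Matrix.det_one]
        rw [h4, one_smul] at h3
        exact h3
      have h5 := hA.adc.one.self_of_nhds
      rw [h2, inner_zero_right] at h5
      exact zero_ne_one h5
  · intro hy
    obtain ⟨f, e', b, F, hA⟩ := h.exists_adAt_of_gdE locFormStmt hp hy
    exact ⟨e', b, _, F, rfl, f, hA⟩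

end

end Vale.Agent.P284.H812.NSF
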