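import Vale.Agent.P284.H812.NSF10

/-!
# P284 (helper812), module NS (f), part 11: invariance, maximal rank
-/

open scoped Manifold Topology ContDiff
open Filter

noncomputable section

set_option linter.unusedSectionVars false

namespace Vale.Agent.P284.H812.NSF

open Vale.Agent.P272.K Vale.Agent.P284.H625 Vale.Agent.P284.H573 Vale.Agent.P284.H338
  Vale.Agent.P284.H395 Vale.Agent.P284.H501 Vale.Agent.P284.H894.G Vale.Agent.P284.H894.W

section
variable {n q r m s : ℕ} {X E : Type} [TopologicalSpace X] [ChartedSpace (Cm n) X]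
  [TopologicalSpace E] {p : E → X}
  {W H₁ H₂ H : Type} [NormedAddCommGroup W] [InnerProductSpace ℂ W] [CompleteSpace W]
  [NormedAddCommGroup H₁] [InnerProductSpace ℂ H₁] [CompleteSpace H₁]
  [NormedAddCommGroup H₂] [InnerProductSpace ℂ H₂] [CompleteSpace H₂]
  [NormedAddCommGroup H] [InnerProductSpace ℂ H] [CompleteSpace H]
  {t : E → Cm q} {V : E → Chart n X → Cm n [⋀^Fin (q + r + 1)]→L[ℂ] H₁}
  {W' : E → Chart n X → Cm n [⋀^Fin (q + r)]→L[ℂ] H₂}

variable [IsManifold 𝓘(ℂ, Cm n) ω X]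

/-- the local representation at a basic point, in any chart, with any representative -/
theorem lr_of' (hp : IsLocalHomeomorph p) (hd : EDat p t V W')
    (Γ : NatOp q (q + (r + 1)) H₁ H₂ m H) {y : E} {e e₁ : Chart n X} (he : At e (p y))
    {b : Cm n → Cm (q + (r + 1))} {D : Dat q (q + (r + 1)) H₁ H₂} {F : Cm (q + (r + 1)) → W}
    (hb : BasicAt (k := q + r) p t V W' y e₁ b D)
    (hs : Function.Surjective (fderiv ℂ b (e₁ (p y))))
    (hA : Adapted D F (b (e₁ (p y)))) {ft : Cm n → Cm q}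
    {G : Cm n → (Fin (q + (r + 1)) → Cm n) → H}
    (ht : ∀ᶠ y' in 𝓝 y, t y' = ft (e (p y')))
    (hG : ∀ᶠ y' in 𝓝 y, ∀ ξ, natv (k := q + r) Γ p t V W' y' e ξ = G (e (p y')) ξ) :
    LR Γ D (fun z => b (e₁ (e.symm z))) G ft (e (p y)) := by
  have hb' := hb.chart hp hd.hV hd.hW he
  have e1 : e₁ (e.symm (e (p y))) = e₁ (p y) := by rw [e.left_inv he.2]
  refine ⟨hb'.ban, ?_, hb'.Dan, ?_, ?_⟩
  · have h5 := fderiv_fun_comp (𝕜 := ℂ) (g := b) (f := fun z => e₁ (e.symm z)) (e (p y))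
      (by rw [e1]; exact hb.ban.differentiableAt) (transition_differentiableAt he hb.mem)
    rw [h5, e1]
    exact hs.comp (H221.transition_surjective he hb.mem)
  · obtain ⟨c, hc⟩ := hA.t_eq
    refine ⟨c, (ev_iff hp he).1 ?_⟩
    have hbt : Tendsto (fun y' => b (e₁ (p y'))) (𝓝 y) (𝓝 (b (e₁ (p y)))) :=
      hb.ban.continuousAt.tendsto.comp (tend_ep hp hb.mem)
    filter_upwards [ht, hb.t_eq, hbt.eventually hc, at_near hp he] with y' h1 h2 h3 h4
    rw [e.left_inv h4.2, ← h1, h2, h3]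
  · refine (ev_iff hp he).1 ?_
    filter_upwards [hb'.near hp, hG] with y' h1 h2 ξ
    rw [← natv_basic hp hd Γ h1 ξ]
    exact (h2 ξ).symm

variable {Cl : E → Chart n X → (Cm n → Cm (q + (r + 1))) → Dat q (q + (r + 1)) H₁ H₂ →
      (Cm (q + (r + 1)) → W) → Prop} {Gp : Type} [Group Gp] [MulAction Gp E]

/-- the criterion is invariant under isometries and translations -/
theorem crit_act {R : ℕ} {G : Cm n → (Fin R → Cm n) → H} {ft : Cm n → Cm q}
    (ξ : Fin R → Cm n) (δ₀ : H) (δ : Fin s → H) (τ : Fin s → (Cm q →L[ℂ] ℂ))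
    (η : Fin s → Cm n) (z : Cm n) (U : H →ₗᵢ[ℂ] H) (c : Cm q) :
    crit (fun z ξ => U (G z ξ)) (fun z => ft z + c) ξ (U δ₀) (fun i => U (δ i)) τ η z =
      crit G ft ξ δ₀ δ τ η z := by
  unfold crit Row
  simp only [LinearIsometry.inner_map_map, fderiv_add_const]

/-- **invariance of the rank under the group** -/
theorem inv_gd (hp : IsLocalHomeomorph p) (hc : ∀ g : Gp, Continuous fun y : E => g • y)
    (hpg : ∀ (g : Gp) y, p (g • y) = p y) (hd : EDat p t V W') (hcl : Cls p t V W' Cl)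
    (ha : EqAct (k := q + r) Gp p t V W') (hAd : ∀ (g : Gp), ∀ y ∈ Ad Cl, g • y ∈ Ad Cl)
    {Γ : NatOp q (q + (r + 1)) H₁ H₂ m H} (hΓ : Nrm Γ) {𝒯 : Submodule ℂ (Cm q →L[ℂ] ℂ)}
    (g : Gp) {y : E} (hy : y ∈ GdT p Cl 𝒯 Γ s) : g • y ∈ GdT p Cl 𝒯 Γ s := by
  obtain ⟨hyA, hall⟩ := hy
  obtain ⟨e, b, D, F, hC⟩ := hyA
  refine ⟨hAd g y ⟨e, b, D, F, hC⟩, fun e' b' D' F' hC' => ?_⟩
  have he := (hcl.basic hC).mem
  have he' : At e (p (g • y)) := by rw [hpg]; exact he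
  obtain ⟨ft, ht⟩ := hd.ht y e he
  obtain ⟨G₀, hG₀, hG⟩ := natv_hol (k := q + r) hp hd Γ he
  obtain ⟨U, hU⟩ := natv_equiv (k := q + r) hp hc hpg hd ha Γ g
  obtain ⟨U₁, U₂, c, hUc⟩ := ha g
  have h1 : LR Γ D (fun z => b (e (e.symm z))) (fun z ξ => G₀ (z, ξ)) ft (e (p y)) :=
    lr_of' hp hd Γ he (hcl.basic hC) (hcl.surj hC) (hcl.ada hC) ht.eq hG
  have e1 : e.symm (e (p y)) = p y := e.left_inv he.2
  obtain ⟨ξ, δ₀, δ, τ, η, hτ, hcr⟩ := crit_of_rk (s := s) (𝒯 := 𝒯) hΓ h1 (by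
    simp only [e1]
    exact (hcl.ada hC).one) (by simp only [e1]; exact hall e b D F hC)
  -- the representatives at `g • y`
  have hgi : Tendsto (fun y' : E => g⁻¹ • y') (𝓝 (g • y)) (𝓝 y) := by
    have := (hc g⁻¹).tendsto (g • y)
    rwa [inv_smul_smul] at this
  have ht' : ∀ᶠ y' in 𝓝 (g • y), t y' = ft (e (p y')) + c := by
    filter_upwards [hgi.eventually ht.eq] with y' k1
    have k2 := (hUc (g⁻¹ • y')).1
    rw [smul_inv_smul] at k2
    rw [k2, k1, hpg]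
  have hG' : ∀ᶠ y' in 𝓝 (g • y), ∀ ξ, natv (k := q + r) Γ p t V W' y' e ξ =
      U (G₀ (e (p y'), ξ)) := by
    filter_upwards [hgi.eventually hG, hgi.eventually (at_near hp he)] with y' k1 k2 ξ
    have k3 := hU (g⁻¹ • y') e k2 ξ
    rw [smul_inv_smul] at k3
    rw [k3, k1, hpg]
  have h2 : LR Γ D' (fun z => b' (e' (e.symm z))) (fun z ξ => U (G₀ (z, ξ)))
      (fun z => ft z + c) (e (p (g • y))) :=
    lr_of' hp hd Γ he' (hcl.basic hC') (hcl.surj hC') (hcl.ada hC') ht' hG'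
  have h3 := rk_of_crit (ξ := ξ) (δ₀ := U δ₀) (δ := fun i => U (δ i)) (η := η) h2 hτ (by
    intro h0
    apply hcr
    have h4 := crit_act (R := q + (r + 1)) (G := fun z ξ => G₀ (z, ξ)) (ft := ft) ξ δ₀ δ τ η
      (e (p (g • y))) U c
    have h5 := h4.symm.trans h0
    rw [hpg] at h5
    exact h5)
  have e2 : e.symm (e (p (g • y))) = p (g • y) := e.left_inv he'.2
  simp only [e2] at h3
  exact h3

/-- **the maximal rank** -/
theorem exists_max (_ : Cls p t V W' Cl) (hne : (Ad Cl).Nonempty) :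
    ∃ s ≤ q + (r + 1), (∃ y e b D F, Cl y e b D F ∧ RkD D (b (e (p y))) s) ∧
      ∀ y e b D F, Cl y e b D F → ¬ RkD D (b (e (p y))) (s + 1) := by
  set Q : Set ℕ := {s | ∃ y e b D F, Cl y e b D F ∧ RkD D (b (e (p y))) s} with hQ
  have hQ0 : Q.Nonempty := by
    obtain ⟨y, e, b, D, F, hC⟩ := hne
    exact ⟨0, y, e, b, D, F, hC, 1, le_refl 1, H₁, inferInstance, inferInstance, inferInstance,
      opV, fun i => i.elim0, nrm_opV, fun y => ⟨0, fun i => i.elim0⟩⟩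
  have hQb : BddAbove Q := ⟨q + (r + 1), by
    rintro s ⟨y, e, b, D, F, hC, h⟩
    exact h.le⟩
  have hmem := Nat.sSup_mem hQ0 hQb
  refine ⟨sSup Q, ?_, hmem, fun y e b D F hC h => ?_⟩
  · obtain ⟨y, e, b, D, F, hC, h⟩ := hmem
    exact h.le
  · have : sSup Q + 1 ≤ sSup Q := le_csSup hQb ⟨y, e, b, D, F, hC, h⟩
    omega

/-- near a point, the points of an adapted chart come from points of `E` -/
theorem ev_img (hp : IsLocalHomeomorph p) (hcl : Cls p t V W' Cl) {y : E} {e : Chart n X}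
    {b : Cm n → Cm (q + (r + 1))} {D : Dat q (q + (r + 1)) H₁ H₂} {F : Cm (q + (r + 1)) → W}
    (hC : Cl y e b D F) {P : Cm (q + (r + 1)) → Prop}
    (hP : ∀ᶠ y' in 𝓝 y, Cl y' e b D F → P (b (e (p y')))) : ∀ᶠ x in 𝓝 (b (e (p y))), P x := by
  filter_upwards [img_near hp (hcl.basic hC).mem (hcl.basic hC).ban (hcl.surj hC)
    ((hcl.near hC).and hP)] with x hx
  obtain ⟨y', h1, h2⟩ := hx
  rw [← h2]
  exact h1.2 h1.1

theorem max_near (hp : IsLocalHomeomorph p) (hcl : Cls p t V W' Cl) {y : E} {e : Chart n X}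
    {b : Cm n → Cm (q + (r + 1))} {D : Dat q (q + (r + 1)) H₁ H₂} {F : Cm (q + (r + 1)) → W}
    (hC : Cl y e b D F) (hmax : ∀ y e b D F, Cl y e b D F → ¬ RkD D (b (e (p y))) (s + 1)) :
    ∀ᶠ x in 𝓝 (b (e (p y))), ¬ RkD D x (s + 1) :=
  ev_img hp hcl hC (Eventually.of_forall fun y' h => hmax y' e b D F h)

end

end Vale.Agent.P284.H812.NSF
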