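import Vale.Agent.P284.H812.NSF11
import Vale.Agent.P284.H378.CS

/-!
# P284 (helper812), module NS (f), part 12: linear algebra of the ranks, the V-alternative
-/

open scoped Manifold Topology ContDiff
open Filter

noncomputable section

set_option linter.unusedSectionVars false

namespace Vale.Agent.P284.H812.NSF

open Vale.Agent.P272.K Vale.Agent.P284.H625 Vale.Agent.P284.H573 Vale.Agent.P284.H338
  Vale.Agent.P284.H395 Vale.Agent.P284.H501 Vale.Agent.P284.H894.G Vale.Agent.P284.H894.W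
  Vale.Agent.P284.H619

section
variable {q r m s : ℕ} {H₁ H₂ H : Type} [NormedAddCommGroup H₁] [InnerProductSpace ℂ H₁]
  [CompleteSpace H₁] [NormedAddCommGroup H₂] [InnerProductSpace ℂ H₂] [CompleteSpace H₂]
  [NormedAddCommGroup H] [InnerProductSpace ℂ H] [CompleteSpace H]

/-- if no vertical vector is killed, the rank relative to all functions of `t` is maximal -/
theorem rkT_of_inj {Γ : NatOp q (q + r) H₁ H₂ m H} {D : Dat q (q + r) H₁ H₂} {x : Cm (q + r)}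
    (hD : D.An x) {δ : Fin s → H} (hi : Inj Γ δ D x) : RkT ⊤ Γ D x (q + r) := by
  set L : Cm (q + r) →ₗ[ℂ] (Fin s → ℂ) × Cm q := LinearMap.prod (LinearMap.pi fun i =>
    (fderiv ℂ (fun x => inner ℂ (δ i) (Γ.op D x)) x : Cm (q + r) →ₗ[ℂ] ℂ))
      (tqL q r : Cm (q + r) →ₗ[ℂ] Cm q) with hL
  have hLi : Function.Injective L := by
    rw [injective_iff_map_eq_zero]
    intro ξ hξ
    have h1 : (fun i => fderiv ℂ (fun x => inner ℂ (δ i) (Γ.op D x)) x ξ) = 0 :=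
      congrArg Prod.fst hξ
    have h2 : tqL q r ξ = 0 := congrArg Prod.snd hξ
    exact hi ξ (fun i => congrFun h1 i) h2
  obtain ⟨P, hP⟩ := L.exists_leftInverse_of_injective (LinearMap.ker_eq_bot.2 hLi)
  have hPL : ∀ ξ, P (L ξ) = ξ := fun ξ => LinearMap.congr_fun hP ξ
  set A : Fin (q + r) → Fin s → ℂ := fun i j => P (Pi.single j 1, 0) i with hA
  set B : Cm q →L[ℂ] Cm (q + r) := LinearMap.toContinuousLinearMap
    (P.comp (LinearMap.inr ℂ (Fin s → ℂ) (Cm q))) with hB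
  have hd := (Γ.anAt hD).differentiableAt
  refine ⟨fun i => ∑ j, (starRingEnd ℂ (A i j)) • δ j,
    fun i => (ContinuousLinearMap.proj (R := ℂ) (φ := fun _ : Fin (q + r) => ℂ) i).comp B,
    fun i => Submodule.mem_top, fun y => ⟨y, fun i => ?_⟩⟩
  rw [fderiv_inner_const' _ hd, sum_inner]
  have h3 : ∀ j, inner ℂ ((starRingEnd ℂ (A i j)) • δ j) (fderiv ℂ (Γ.op D) x y) =
      A i j * fderiv ℂ (fun x => inner ℂ (δ j) (Γ.op D x)) x y := by
    intro j
    rw [inner_smul_left, starRingEnd_self_apply, fderiv_inner_const' _ hd]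
  rw [Finset.sum_congr rfl fun j _ => h3 j]
  have h4 : P (L y) i = y i := by rw [hPL]
  have h5 : L y = (∑ j, fderiv ℂ (fun x => inner ℂ (δ j) (Γ.op D x)) x y •
      ((Pi.single j (1 : ℂ) : Fin s → ℂ), (0 : Cm q))) + (0, tqL q r y) := by
    refine Prod.ext ?_ ?_
    · rw [Prod.fst_add, Prod.fst_sum]
      funext j
      simp only [Prod.smul_fst, Finset.sum_apply, Pi.add_apply, Pi.smul_apply, smul_eq_mul,
        Pi.single_apply, Pi.zero_apply, add_zero]
      rw [Finset.sum_eq_single j]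
      · simp only [if_true, mul_one]
        rfl
      · intro b _ hb
        rw [if_neg (Ne.symm hb), mul_zero]
      · simp
    · rw [Prod.snd_add, Prod.snd_sum]
      simp only [Prod.smul_snd, smul_zero, Finset.sum_const_zero, zero_add]
      rfl
  rw [h5, map_add, map_sum] at h4
  rw [← h4]
  simp only [map_smul, Pi.add_apply, Finset.sum_apply, Pi.smul_apply, smul_eq_mul]
  congr 1
  exact Finset.sum_congr rfl fun j _ => mul_comm _ _

/-- conversely -/
theorem inj_of_rkT {Γ : NatOp q (q + r) H₁ H₂ m H} {D : Dat q (q + r) H₁ H₂} {x : Cm (q + r)}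
    {𝒯 : Submodule ℂ (Cm q →L[ℂ] ℂ)} (hr : RkT 𝒯 Γ D x (q + r)) {ξ : Cm (q + r)}
    (h1 : ∀ δ : H, fderiv ℂ (fun x => inner ℂ δ (Γ.op D x)) x ξ = 0) (h2 : tq ξ = 0) :
    ξ = 0 := by
  obtain ⟨δ, τ, hτ, hs⟩ := hr
  set L : Cm (q + r) →ₗ[ℂ] (Fin (q + r) → ℂ) := LinearMap.pi fun i =>
    ((fderiv ℂ (fun x => inner ℂ (δ i) (Γ.op D x)) x + (τ i).comp (tqL q r) :
      Cm (q + r) →L[ℂ] ℂ) : Cm (q + r) →ₗ[ℂ] ℂ) with hL
  have hsurj : Function.Surjective L := by
    intro y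
    obtain ⟨ξ, hξ⟩ := hs y
    exact ⟨ξ, funext hξ⟩
  have hinj : Function.Injective L := by
    rw [LinearMap.injective_iff_surjective_of_finrank_eq_finrank]
    · exact hsurj
    · simp
  apply hinj
  rw [map_zero]
  funext i
  show fderiv ℂ (fun x => inner ℂ (δ i) (Γ.op D x)) x ξ + τ i (tq ξ) = 0
  rw [h1, h2, map_zero, add_zero]

/-- rank bound: if all the functionals vanish on the kernel of `s` of them -/
theorem rkT_le {Γ : NatOp q (q + r) H₁ H₂ m H} {D : Dat q (q + r) H₁ H₂} {x : Cm (q + r)}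
    {𝒯 : Submodule ℂ (Cm q →L[ℂ] ℂ)} {A : Fin s → Cm (q + r) →L[ℂ] ℂ}
    (h1 : ∀ ξ, (∀ i, A i ξ = 0) → (∀ δ : H, fderiv ℂ (fun x => inner ℂ δ (Γ.op D x)) x ξ = 0) ∧
      ∀ τ ∈ 𝒯, τ (tq ξ) = 0) : ¬ RkT 𝒯 Γ D x (s + 1) := by
  rintro ⟨δ, τ, hτ, hs⟩
  set L : Cm (q + r) →ₗ[ℂ] (Fin (s + 1) → ℂ) := LinearMap.pi fun i =>
    ((fderiv ℂ (fun x => inner ℂ (δ i) (Γ.op D x)) x + (τ i).comp (tqL q r) :
      Cm (q + r) →L[ℂ] ℂ) : Cm (q + r) →ₗ[ℂ] ℂ) with hL
  set B : Cm (q + r) →ₗ[ℂ] (Fin s → ℂ) := LinearMap.pi fun i =>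
    (A i : Cm (q + r) →ₗ[ℂ] ℂ) with hB
  have hsurj : Function.Surjective L := by
    intro y
    obtain ⟨ξ, hξ⟩ := hs y
    exact ⟨ξ, funext hξ⟩
  have hker : LinearMap.ker B ≤ LinearMap.ker L := by
    intro ξ hξ
    rw [LinearMap.mem_ker] at hξ ⊢
    obtain ⟨k1, k2⟩ := h1 ξ fun i => congrFun hξ i
    funext i
    show fderiv ℂ (fun x => inner ℂ (δ i) (Γ.op D x)) x ξ + τ i (tq ξ) = 0
    rw [k1, k2 _ (hτ i), add_zero]
  have e1 := LinearMap.finrank_range_add_finrank_ker L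
  have e2 := LinearMap.finrank_range_add_finrank_ker B
  have e3 : Module.finrank ℂ (LinearMap.range L) = s + 1 := by
    rw [LinearMap.range_eq_top.2 hsurj, finrank_top]
    simp
  have e4 : Module.finrank ℂ (LinearMap.range B) ≤ s := by
    have := Submodule.finrank_le (LinearMap.range B)
    simpa using this
  have e5 := Submodule.finrank_mono hker
  omega

/-- adding a linear function of `t` which does not vanish on the kernel -/
theorem rkT_succ {Γ : NatOp q (q + r) H₁ H₂ m H} {D : Dat q (q + r) H₁ H₂} {x : Cm (q + r)}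
    (hD : D.An x) {𝒯 : Submodule ℂ (Cm q →L[ℂ] ℂ)} {δ : Fin s → H} (hI : Ind Γ δ D x)
    {τ : Cm q →L[ℂ] ℂ} (hτ : τ ∈ 𝒯) {ξ : Cm (q + r)}
    (h1 : ∀ i, fderiv ℂ (fun x => inner ℂ (δ i) (Γ.op D x)) x ξ = 0) (h2 : τ (tq ξ) ≠ 0) :
    RkT 𝒯 Γ D x (s + 1) := by
  have hd := (Γ.anAt hD).differentiableAt
  refine ⟨Fin.cons 0 δ, Fin.cons τ fun _ => 0, fun i => ?_, fun y => ?_⟩
  · refine Fin.cases ?_ (fun i => ?_) i
    · exact hτ
    · exact 𝒯.zero_mem
  · obtain ⟨ζ, hζ⟩ := hI fun i => y i.succ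
    refine ⟨ζ + ((τ (tq ξ))⁻¹ * (y 0 - τ (tq ζ))) • ξ, fun i => ?_⟩
    have e1 : ∀ (a : ℂ), tq (ζ + a • ξ) = tq ζ + a • tq ξ := fun a => rfl
    refine Fin.cases ?_ (fun i => ?_) i
    · simp only [Fin.cons_zero]
      rw [fderiv_inner_const' _ hd, inner_zero_left, zero_add, e1, map_add, map_smul, smul_eq_mul]
      field_simp
      ring
    · simp only [Fin.cons_succ]
      rw [map_add, map_smul, hζ i, h1 i]
      simp

end

end Vale.Agent.P284.H812.NSF
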