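import Vale.Agent.P284.H812.NSF12

/-!
# P284 (helper812), module NS (f), part 13: the V-alternative on the covering
-/

open scoped Manifold Topology ContDiff
open Filter

noncomputable section

set_option linter.unusedSectionVars false

namespace Vale.Agent.P284.H812.NSF

open Vale.Agent.P272.K Vale.Agent.P284.H625 Vale.Agent.P284.H573 Vale.Agent.P284.H338
  Vale.Agent.P284.H395 Vale.Agent.P284.H501 Vale.Agent.P284.H894.G Vale.Agent.P284.H894.W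
  Vale.Agent.P284.H619

section
variable {n q r m s : ℕ} {X E : Type} [TopologicalSpace X] [ChartedSpace (Cm n) X]
  [TopologicalSpace E] {p : E → X}
  {W T₂ T₁ T₀ H : Type} [NormedAddCommGroup W] [InnerProductSpace ℂ W] [CompleteSpace W]
  [NormedAddCommGroup T₂] [InnerProductSpace ℂ T₂]
  [NormedAddCommGroup T₁] [InnerProductSpace ℂ T₁] [CompleteSpace T₁]
  [NormedAddCommGroup T₀] [InnerProductSpace ℂ T₀] [CompleteSpace T₀]
  [NormedAddCommGroup H] [InnerProductSpace ℂ H] [CompleteSpace H]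
  {t : E → Cm q} {S : E → Chart n X → Cm n [⋀^Fin (q + 1)]→L[ℂ] W}
  {S₂ : TPow W T₂ (r + 2)} {S₁ : TPow W T₁ (r + 1)} {S₀ : TPow W T₀ r}
  {V : E → Chart n X → Cm n [⋀^Fin (q + (r + 1))]→L[ℂ] T₁}
  {V' : E → Chart n X → Cm n [⋀^Fin (q + r)]→L[ℂ] T₀} {Θ : E → Chart n X → (Cm n →L[ℂ] W)}

/-- `Θ` is the relative form of `S` at the regular points: `S = O ∧ Θ` on vertical vectors -/
def ThRel (p : E → X) (t : E → Cm q) (S : E → Chart n X → Cm n [⋀^Fin (q + 1)]→L[ℂ] W)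
    (Θ : E → Chart n X → (Cm n →L[ℂ] W)) : Prop :=
  ∀ y e f, At e (p y) → H501.Rep p t y e f → Function.Surjective (fderiv ℂ f (e (p y))) →
    ∀ Θ' : Cm n →L[ℂ] W, IsW (fderiv ℂ f (e (p y))) (S y e) Θ' →
    ∀ ξ, fderiv ℂ f (e (p y)) ξ = 0 → Θ y e ξ = Θ' ξ

/-- data of an adapted chart near the point -/
theorem adAt_ev (hp : IsLocalHomeomorph p) {f : Fin (r + 1) → W} {y : E} {e : Chart n X}
    {b : Cm n → Cm (q + (r + 1))} {D : Dat q (q + (r + 1)) T₁ T₀} {F : Cm (q + (r + 1)) → W}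
    (h : AdAt p t S S₁ S₀ V V' f y e b D F) :
    ∀ᶠ y' in 𝓝 y, At e (p y') ∧ H501.Rep p t y' e (fun z => tq (b z)) ∧
      fderiv ℂ (fun z => tq (b z)) (e (p y')) =
        (tqL q (r + 1)).comp (fderiv ℂ b (e (p y'))) ∧
      Function.Surjective (fderiv ℂ (fun z => tq (b z)) (e (p y'))) ∧
      Function.Surjective (fderiv ℂ b (e (p y'))) ∧
      IsW (fderiv ℂ (fun z => tq (b z)) (e (p y'))) (S y' e)
        (fderiv ℂ (fun z => F (b z)) (e (p y'))) ∧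
      fderiv ℂ (fun z => F (b z)) (e (p y')) =
        (fderiv ℂ F (b (e (p y')))).comp (fderiv ℂ b (e (p y'))) := by
  have hc : Tendsto (fun y' => b (e (p y'))) (𝓝 y) (𝓝 (b (e (p y)))) :=
    h.basic.ban.continuousAt.tendsto.comp (tend_ep hp h.basic.mem)
  have ht : ∀ᶠ y' in 𝓝 y, t y' = tq (b (e (p y'))) := by
    filter_upwards [h.basic.t_eq, hc.eventually h.t0] with y' h1 h2
    rw [h1, h2]
  filter_upwards [h.near hp, ht.eventually_nhds] with y' h1 h2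
  have hba := h1.basic.ban
  have hbd : HasFDerivAt b (fderiv ℂ b (e (p y'))) (e (p y')) :=
    hba.differentiableAt.hasFDerivAt
  have e1 : fderiv ℂ (fun z => tq (b z)) (e (p y')) =
        (tqL q (r + 1)).comp (fderiv ℂ b (e (p y'))) :=
    (((tqL q (r + 1)).hasFDerivAt).comp (e (p y')) hbd).fderiv
  refine ⟨h1.basic.mem, ⟨?_, h2⟩, e1, ?_, h1.surj, h1.rel.self_of_nhds, ?_⟩
  · exact ((tqL q (r + 1)).analyticAt _).comp hba
  · rw [e1]
    intro x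
    obtain ⟨v, hv⟩ := h1.surj (sec 0 x)
    refine ⟨v, ?_⟩
    show tq (fderiv ℂ b (e (p y')) v) = x
    rw [hv, tq_sec]
  · exact (h1.adc.F_an.differentiableAt.hasFDerivAt.comp (e (p y')) hbd).fderiv

/-- the potential of `Θ` in an adapted chart -/
theorem pot_of (hp : IsLocalHomeomorph p) (hΘ : ThRel p t S Θ) {f : Fin (r + 1) → W} {y : E}
    {e : Chart n X} {b : Cm n → Cm (q + (r + 1))} {D : Dat q (q + (r + 1)) T₁ T₀}
    {F : Cm (q + (r + 1)) → W} (h : AdAt p t S S₁ S₀ V V' f y e b D F) :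
    ∀ᶠ y' in 𝓝 y, ∀ ξ ∈ VS p t y' e, Θ y' e ξ = fderiv ℂ (fun z => F (b z)) (e (p y')) ξ := by
  filter_upwards [adAt_ev hp h] with y' ⟨h1, h2, h3, h4, h5, h6, h7⟩ ξ hξ
  exact hΘ y' e _ h1 h2 h4 _ h6 ξ (hξ _ h2.2)

/-- a vector killed by the functionals `f_a ∘ dF` and `tq` vanishes -/
theorem vert_zero {F : Cm (q + (r + 1)) → W} {x : Cm (q + (r + 1))} (hF : AnalyticAt ℂ F x)
    {f : Fin (r + 1) → W} (hd : ∀ᶠ x' in 𝓝 x, ∀ a, inner ℂ (f a) (F x') = x' (Fin.natAdd q a))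
    {ζ : Cm (q + (r + 1))} (h1 : tq ζ = 0) (h2 : fderiv ℂ F x ζ = 0) : ζ = 0 := by
  funext j
  refine Fin.addCases (fun i => ?_) (fun a => ?_) j
  · exact congrFun h1 i
  · rw [← fderiv_dual hF hd a ζ, h2, inner_zero_right]
    rfl

/-- **the V-alternative on the covering** (the hypothesis of NUL) -/
def VAlt (p : E → X) (t : E → Cm q) (Θ : E → Chart n X → (Cm n →L[ℂ] W)) (y : E) : Prop :=
  ∃ c : W, c ≠ 0 ∧ ∀ᶠ y' in 𝓝 y, t y' = t y → ∃ e, At e (p y') ∧ ∃ ξ ∈ VS p t y' e,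
    Θ y' e ξ = c

theorem valt_of (hp : IsCoveringMap p) (hΘ : ThRel p t S Θ) {f : Fin (r + 1) → W} {y : E}
    {e : Chart n X} {b : Cm n → Cm (q + (r + 1))} {D : Dat q (q + (r + 1)) T₁ T₀}
    {F : Cm (q + (r + 1)) → W} (h : AdAt p t S S₁ S₀ V V' f y e b D F)
    {ζ : Cm (q + (r + 1))} (h0 : ζ ≠ 0) (h1 : tq ζ = 0)
    (h2 : ∀ᶠ x in 𝓝 (b (e (p y))), tq x = tq (b (e (p y))) →
      fderiv ℂ F x ζ = fderiv ℂ F (b (e (p y))) ζ) : VAlt p t Θ y := by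
  have hl : IsLocalHomeomorph p := hp.isLocalHomeomorph
  refine ⟨fderiv ℂ F (b (e (p y))) ζ, fun h3 => h0 (vert_zero h.adc.F_an h.dual h1 h3), ?_⟩
  have hc : Tendsto (fun y' => b (e (p y'))) (𝓝 y) (𝓝 (b (e (p y)))) :=
    h.basic.ban.continuousAt.tendsto.comp (tend_ep hl h.basic.mem)
  have hy := (adAt_ev hl h).self_of_nhds.2.1.2.self_of_nhds
  filter_upwards [adAt_ev hl h, hc.eventually h2] with y' ⟨k1, k2, k3, k4, k5, k6, k7⟩ k8 k9
  obtain ⟨ξ, hξ⟩ := k5 ζ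
  have k10 : fderiv ℂ (fun z => tq (b z)) (e (p y')) ξ = 0 := by
    rw [k3]
    show tq (fderiv ℂ b (e (p y')) ξ) = 0
    rw [hξ, h1]
  refine ⟨e, k1, ξ, (mem_VS hp k1 k2.2).2 k10, ?_⟩
  rw [hΘ y' e _ k1 k2 k4 _ k6 ξ k10, k7]
  show fderiv ℂ F (b (e (p y'))) (fderiv ℂ b (e (p y')) ξ) = _
  rw [hξ]
  refine k8 ?_
  have k11 : t y' = tq (b (e (p y'))) := k2.2.self_of_nhds
  rw [← k11, k9]
  exact hy

end

end Vale.Agent.P284.H812.NSF
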