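import Vale.Agent.P284.H812.NSF13

/-!
# P284 (helper812), module NS (f), part 14: the leaf chart at a good point
-/

open scoped Manifold Topology ContDiff
open Filter

noncomputable section

set_option linter.unusedSectionVars false

namespace Vale.Agent.P284.H812.NSF

open Vale.Agent.P272.K Vale.Agent.P284.H625 Vale.Agent.P284.H573 Vale.Agent.P284.H338
  Vale.Agent.P284.H395 Vale.Agent.P284.H501 Vale.Agent.P284.H894.G Vale.Agent.P284.H894.W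
  Vale.Agent.P284.H619 Vale.Agent.P284.H378

section
variable {q r m s : ℕ} {H₁ H₂ H : Type} [NormedAddCommGroup H₁] [InnerProductSpace ℂ H₁]
  [CompleteSpace H₁] [NormedAddCommGroup H₂] [InnerProductSpace ℂ H₂] [CompleteSpace H₂]
  [NormedAddCommGroup H] [InnerProductSpace ℂ H] [CompleteSpace H]

/-- the components as a map to `ℂ^s` -/
def bet (Γ : NatOp q (q + r) H₁ H₂ m H) (δ : Fin s → H) (D : Dat q (q + r) H₁ H₂)
    (x : Cm (q + r)) : Cm s := fun i => inner ℂ (δ i) (Γ.op D x)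

theorem bet_an (Γ : NatOp q (q + r) H₁ H₂ m H) (δ : Fin s → H) {D : Dat q (q + r) H₁ H₂}
    {x : Cm (q + r)} (hD : D.An x) : AnalyticAt ℂ (bet Γ δ D) x :=
  analyticAt_pi_iff.2 fun i => inner_an Γ (δ i) hD

theorem fderiv_bet (Γ : NatOp q (q + r) H₁ H₂ m H) (δ : Fin s → H) {D : Dat q (q + r) H₁ H₂}
    {x : Cm (q + r)} (hD : D.An x) (ξ : Cm (q + r)) (i : Fin s) :
    fderiv ℂ (bet Γ δ D) x ξ i = fderiv ℂ (fun x => inner ℂ (δ i) (Γ.op D x)) x ξ := by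
  have h1 := hasFDerivAt_pi'.1 (bet_an Γ δ hD).differentiableAt.hasFDerivAt i
  rw [show (fun x => inner ℂ (δ i) (Γ.op D x)) = fun x => bet Γ δ D x i from rfl, h1.fderiv]
  rfl

theorem bet_surj {Γ : NatOp q (q + r) H₁ H₂ m H} {δ : Fin s → H} {D : Dat q (q + r) H₁ H₂}
    {x : Cm (q + r)} (hD : D.An x) (hI : Ind Γ δ D x) :
    Function.Surjective (fderiv ℂ (bet Γ δ D) x) := by
  intro y
  obtain ⟨ξ, hξ⟩ := hI y
  exact ⟨ξ, funext fun i => (fderiv_bet Γ δ hD ξ i).trans (hξ i)⟩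

/-- the normal form is immersive -/
theorem imm_of_sec {Γ : NatOp q (q + r) H₁ H₂ m H} (hΓ : Nrm Γ) {δ : Fin s → H}
    {D : Dat q (q + r) H₁ H₂} {x₀ : Cm (q + r)} (hD : D.An x₀)
    (h1 : ∃ ε : H₁, ∀ᶠ x in 𝓝 x₀, inner ℂ ε (D.v x) = 1) {σ : Cm s → Cm (q + r)} {b₀ : Cm s}
    (hσ : AnalyticAt ℂ σ b₀) (hσ0 : σ b₀ = x₀)
    (hσf : ∀ᶠ b in 𝓝 b₀, bet Γ δ D (σ b) = b) :
    AnalyticAt ℂ (fun b => Γ.op D (σ b)) b₀ ∧ ImmAt (fun b => Γ.op D (σ b)) b₀ := by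
  have hop : AnalyticAt ℂ (Γ.op D) x₀ := Γ.anAt hD
  have hγ : AnalyticAt ℂ (fun b => Γ.op D (σ b)) b₀ := by
    refine AnalyticAt.fun_comp (g := Γ.op D) ?_ hσ
    rw [hσ0]
    exact hop
  have hσt : Tendsto σ (𝓝 b₀) (𝓝 x₀) := by
    have := hσ.continuousAt.tendsto
    rwa [hσ0] at this
  obtain ⟨δ₀, hδ₀⟩ := hΓ.one hD h1
  refine ⟨hγ, fun h => ?_, fun η c hη => ?_⟩
  · have h1 := hδ₀.self_of_nhds
    have h' : Γ.op D (σ b₀) = 0 := h
    rw [hσ0] at h'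
    rw [h', inner_zero_right] at h1
    exact zero_ne_one h1
  · have e1 : (fun b => inner ℂ δ₀ (Γ.op D (σ b))) =ᶠ[𝓝 b₀] fun _ => (1 : ℂ) :=
      hσt.eventually hδ₀
    have e2 := fderiv_inner_const' δ₀ hγ.differentiableAt η
    have e1' : inner ℂ δ₀ (Γ.op D (σ b₀)) = 1 := e1.self_of_nhds
    rw [e1.fderiv_eq, hη, inner_smul_right, e1'] at e2
    have hc : c = 0 := by simpa using e2.symm
    funext i
    have e3 : (fun b => inner ℂ (δ i) (Γ.op D (σ b))) =ᶠ[𝓝 b₀] fun b => b i := by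
      filter_upwards [hσf] with b hb
      exact congrFun hb i
    have e4 := fderiv_inner_const' (δ i) hγ.differentiableAt η
    rw [e3.fderiv_eq, hη, hc, zero_smul, inner_zero_right] at e4
    have e5 : fderiv ℂ (fun b : Cm s => b i) b₀ η = η i := by
      have : HasFDerivAt (fun b : Cm s => b i)
          (ContinuousLinearMap.proj (R := ℂ) (φ := fun _ : Fin s => ℂ) i) b₀ :=
        (ContinuousLinearMap.proj (R := ℂ) (φ := fun _ : Fin s => ℂ) i).hasFDerivAt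
      rw [this.fderiv]
      rfl
    rw [e5] at e4
    exact e4

/-- the leaf space data in the case of full rank -/
theorem leaf_full {Γ : NatOp q (q + r) H₁ H₂ m H} (hΓ : Nrm Γ) {δ : Fin s → H}
    {D : Dat q (q + r) H₁ H₂} {x₀ : Cm (q + r)} (hD : D.An x₀)
    (h1 : ∃ ε : H₁, ∀ᶠ x in 𝓝 x₀, inner ℂ ε (D.v x) = 1) (hI : Ind Γ δ D x₀)
    (hs : s = q + r) : ∃ (γ : Cm s → H) (τ : Cm s → Cm q), AnalyticAt ℂ γ (bet Γ δ D x₀) ∧
      ImmAt γ (bet Γ δ D x₀) ∧ AnalyticAt ℂ τ (bet Γ δ D x₀) ∧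
      (∀ᶠ x in 𝓝 x₀, Γ.op D x = γ (bet Γ δ D x)) ∧ ∀ᶠ x in 𝓝 x₀, tq x = τ (bet Γ δ D x) := by
  subst hs
  have hinj : Function.Injective
      (fderiv ℂ (bet Γ δ D) x₀ : Cm (q + r) →ₗ[ℂ] Cm (q + r)) := by
    rw [LinearMap.injective_iff_surjective_of_finrank_eq_finrank]
    · exact bet_surj hD hI
    · simp
  obtain ⟨g, hg, hg0, hg1, hg2⟩ := exists_inv (bet_an Γ δ hD)
    (LinearEquiv.ofInjectiveEndo _ hinj).toContinuousLinearEquiv (by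
      ext v j
      rfl)
  obtain ⟨k1, k2⟩ := imm_of_sec hΓ hD h1 hg hg0 hg2
  refine ⟨fun b => Γ.op D (g b), fun b => tq (g b), k1, k2, ?_, ?_, ?_⟩
  · exact ((tqL q r).analyticAt _).comp hg
  · filter_upwards [hg1] with x hx
    rw [hx]
  · filter_upwards [hg1] with x hx
    rw [hx]

/-- the leaf space data in all cases -/
theorem leaf_all {W : Type} [NormedAddCommGroup W] [InnerProductSpace ℂ W] [CompleteSpace W]
    {Γ : NatOp q (q + r) H₁ H₂ m H} (hm : 1 ≤ m) (hΓ : Nrm Γ) {δ : Fin s → H}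
    {D : Dat q (q + r) H₁ H₂} {F : Cm (q + r) → W} {x₀ : Cm (q + r)} (hA : Adapted D F x₀)
    (hI : Ind Γ δ D x₀) (hi : Inj Γ δ D x₀)
    (hmax : ∀ᶠ x in 𝓝 x₀, ¬ RkD D x (s + 1)) {Q : Submodule ℂ (Cm q)}
    (hQ : ∀ ξ : Cm (q + r), (∀ i, fderiv ℂ (fun x => inner ℂ (δ i) (Γ.op D x)) x₀ ξ = 0) →
      tq ξ ∈ Q) :
    ∃ (γ : Cm s → H) (τ : Cm s → Cm q), AnalyticAt ℂ γ (bet Γ δ D x₀) ∧
      ImmAt γ (bet Γ δ D x₀) ∧ AnalyticAt ℂ τ (bet Γ δ D x₀) ∧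
      (∀ᶠ x in 𝓝 x₀, Γ.op D x = γ (bet Γ δ D x)) ∧
      ∀ᶠ x in 𝓝 x₀, tq x - τ (bet Γ δ D x) ∈ Q := by
  rcases Nat.lt_or_ge s (q + r) with hs | hs
  · have hiso := iso_of hA hm hΓ hI hmax hs hi
    obtain ⟨L, N, hN, hLN, hL0, k1, k2, k3⟩ := leaf_loc hA hm hΓ hI hiso
    obtain ⟨c, hc⟩ := hA.t_eq
    have hL0' : L.b₀ = bet Γ δ D x₀ := hL0
    refine ⟨L.γ, fun b => L.t b - c, ?_, ?_, ?_, k1, ?_⟩
    · rw [← hL0']
      exact L.γan
    · rw [← hL0']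
      exact L.imm
    · rw [← hL0']
      exact L.tan.sub analyticAt_const
    · filter_upwards [k2, hc] with x h1 h2
      obtain ⟨κ, hκ⟩ := h1
      obtain ⟨ζ, hζ1, hζ2⟩ := k3 κ
      have h3 : tq x - (L.t (bet Γ δ D x) - c) = tq ζ := by
        rw [hζ2, ← hκ, h2]
        show _ = tq x + c - L.t (bet Γ δ D x)
        abel
      rw [h3]
      exact hQ ζ hζ1
  · have hs' : s = q + r := le_antisymm hI.le hs
    obtain ⟨γ, τ, k1, k2, k3, k4, k5⟩ := leaf_full hΓ hA.an hA.one hI hs'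
    refine ⟨γ, τ, k1, k2, k3, k4, ?_⟩
    filter_upwards [k5] with x hx
    rw [hx, sub_self]
    exact Q.zero_mem

end

end Vale.Agent.P284.H812.NSF
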