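import Vale.Agent.P284.H812.NSF14
import Vale.Agent.P284.H338.Sheet2

/-!
# P284 (helper812), module NS (f), part 15: the leaf chart `LC` at a good point
-/

open scoped Manifold Topology ContDiff
open Filter

noncomputable section

set_option linter.unusedSectionVars false

namespace Vale.Agent.P284.H812.NSF

open Vale.Agent.P272.K Vale.Agent.P284.H625 Vale.Agent.P284.H573 Vale.Agent.P284.H338
  Vale.Agent.P284.H395 Vale.Agent.P284.H501 Vale.Agent.P284.H894.G Vale.Agent.P284.H894.W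
  Vale.Agent.P284.H619 Vale.Agent.P284.H378

section
variable {n q r m M s k : ℕ} {X E : Type} [TopologicalSpace X] [ChartedSpace (Cm n) X]
  [TopologicalSpace E] {p : E → X}
  {W T₂ T₁ T₀ H K : Type} [NormedAddCommGroup W] [InnerProductSpace ℂ W] [CompleteSpace W]
  [NormedAddCommGroup T₂] [InnerProductSpace ℂ T₂]
  [NormedAddCommGroup T₁] [InnerProductSpace ℂ T₁] [CompleteSpace T₁]
  [NormedAddCommGroup T₀] [InnerProductSpace ℂ T₀] [CompleteSpace T₀]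
  [NormedAddCommGroup H] [InnerProductSpace ℂ H] [CompleteSpace H]
  [NormedAddCommGroup K] [InnerProductSpace ℂ K] [CompleteSpace K]
  {t : E → Cm q} {S : E → Chart n X → Cm n [⋀^Fin (q + 1)]→L[ℂ] W}
  {S₂ : TPow W T₂ (r + 2)} {S₁ : TPow W T₁ (r + 1)} {S₀ : TPow W T₀ r}
  {V : E → Chart n X → Cm n [⋀^Fin (q + (r + 1))]→L[ℂ] T₁}
  {V' : E → Chart n X → Cm n [⋀^Fin (q + r)]→L[ℂ] T₀} {Θ : E → Chart n X → (Cm n →L[ℂ] W)}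
  [IsManifold 𝓘(ℂ, Cm n) ω X] {Gp : Type} [Group Gp] [MulAction Gp E]

/-- **the leaf chart at a good point** -/
theorem lc_of (hp : IsCoveringMap p) (hd : EDat (k := q + r) p t V V') (hΘ : ThRel p t S Θ)
    {f : Fin (r + 1) → W} {y : E} {e : Chart n X} {b : Cm n → Cm (q + (r + 1))}
    {F : Cm (q + (r + 1)) → W} (h : AdAt p t S S₁ S₀ V V' f y e b (exD q r S₁ S₀ F) F)
    (hM : 1 ≤ M) {Γ₀ : NatOp q (q + (r + 1)) T₁ T₀ m H} {Γ₁ : NatOp q (q + (r + 1)) T₁ T₀ M K}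
    (hΓ : Nrm Γ₀) (hN : Nxt Γ₀ Γ₁) {δ : Fin s → K}
    (hI : Ind Γ₁ δ (exD q r S₁ S₀ F) (b (e (p y))))
    (hi : Inj Γ₁ δ (exD q r S₁ S₀ F) (b (e (p y)))) {N : Cm k →L[ℂ] Cm q}
    {γ : Cm s → K} {τ : Cm s → Cm q}
    (hγ : AnalyticAt ℂ γ (bet Γ₁ δ (exD q r S₁ S₀ F) (b (e (p y)))))
    (himm : ImmAt γ (bet Γ₁ δ (exD q r S₁ S₀ F) (b (e (p y)))))
    (hτ : AnalyticAt ℂ τ (bet Γ₁ δ (exD q r S₁ S₀ F) (b (e (p y)))))
    (hop : ∀ᶠ x in 𝓝 (b (e (p y))), Γ₁.op (exD q r S₁ S₀ F) x =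
      γ (bet Γ₁ δ (exD q r S₁ S₀ F) x))
    (hleaf : ∀ᶠ x in 𝓝 (b (e (p y))), tq x - τ (bet Γ₁ δ (exD q r S₁ S₀ F) x) ∈
      LinearMap.range (N : Cm k →ₗ[ℂ] Cm q))
    (tr : ∀ᶠ x in 𝓝 (b (e (p y))), ∀ ξ, tq ξ = 0 →
      fderiv ℂ (Γ₀.op (exD q r S₁ S₀ F)) x ξ = 0 → ξ = 0)
    {π : Gp →* (W ≃ₗᵢ[ℂ] W)} {U : Gp → (K →ₗᵢ[ℂ] K)} {U₁ : Gp → (T₁ →ₗᵢ[ℂ] T₁)}
    {U₂ : Gp → (T₀ →ₗᵢ[ℂ] T₀)}
    (hU₁ : ∀ g a, U₁ g (S₁.μ a) = S₁.μ fun i => π g (a i))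
    (hU₂ : ∀ g a, U₂ g (S₀.μ a) = S₀.μ fun i => π g (a i))
    (hU : ∀ (g : Gp) (c : Cm q) (D : Dat q (q + (r + 1)) T₁ T₀) x, D.An x →
      Γ₁.op (D.act (U₁ g) (U₂ g) c) x = U g (Γ₁.op D x)) :
    LC (r := r + 1) p t M (natv (k := q + r) Γ₁ p t V V') U π Θ N y e b F
      (bet Γ₁ δ (exD q r S₁ S₀ F)) γ τ := by
  have hl : IsLocalHomeomorph p := hp.isLocalHomeomorph
  have hA := h.adc.adapted
  have hc : Tendsto (fun y' => b (e (p y'))) (𝓝 y) (𝓝 (b (e (p y)))) :=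
    h.basic.ban.continuousAt.tendsto.comp (tend_ep hl h.basic.mem)
  have hev : ∀ᶠ x in 𝓝 (b (e (p y))), AnalyticAt ℂ F x ∧
      (∀ᶠ x' in 𝓝 x, ∀ a : Fin (r + 1), inner ℂ (f a) (F x') = x' (Fin.natAdd q a)) ∧
      (∀ ξ, tq ξ = 0 → fderiv ℂ (Γ₀.op (exD q r S₁ S₀ F)) x ξ = 0 → ξ = 0) ∧
      (∀ᶠ x' in 𝓝 x, Γ₁.op (exD q r S₁ S₀ F) x' = γ (bet Γ₁ δ (exD q r S₁ S₀ F) x')) := by
    filter_upwards [h.adc.F_an.eventually_analyticAt, h.dual.eventually_nhds, tr,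
      hop.eventually_nhds] with x h1 h2 h3 h4
    exact ⟨h1, h2, h3, h4⟩
  refine ⟨h.basic.mem, h.basic.ban, h.surj, ?_, h.adc.F_an, pot_of hl hΘ h,
    fun ζ h1 h2 => vert_zero h.adc.F_an h.dual h1 h2, bet_an Γ₁ δ hA.an, bet_surj hA.an hI,
    ?_, hγ, himm, ?_, hτ, hleaf, ?_⟩
  · filter_upwards [h.basic.t_eq, hc.eventually h.t0] with y' h1 h2
    rw [h1, h2]
  · intro ζ h1 h2
    refine hi ζ (fun i => ?_) h1
    rw [← fderiv_bet Γ₁ δ hA.an ζ i, h2]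
    rfl
  · filter_upwards [h.basic.near hl, hc.eventually hop] with y' k1 k2 ξ
    rw [natv_basic hl hd Γ₁ k1 ξ, k2]
    rfl
  · obtain ⟨ρ, hρ, hB⟩ := Metric.eventually_nhds_iff_ball.1 hev
    refine ⟨ρ, hρ, fun g x₁ hx₁ ψ hψ hψx htt hUU => ?_⟩
    obtain ⟨c, hc'⟩ := htt
    obtain ⟨a1, a2, a3, a4⟩ := hB x₁ hx₁
    obtain ⟨b1, b2, b3, b4⟩ := hB (ψ x₁) hψx
    have key := sheet_iso (S₁ := S₁) (S₀ := S₀) hM hΓ hN a1 a2 hψ b1 b2 b3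
      (U := (π g).toLinearIsometry) (hU₁ g) (hU₂ g) (hU g) hc' (by
        filter_upwards [hUU, a4, hψ.continuousAt.eventually b4] with x k1 k2 k3
        obtain ⟨a, ha⟩ := k1
        refine ⟨a, ?_⟩
        rw [k2, k3]
        exact ha)
    exact key.2

end

end Vale.Agent.P284.H812.NSF
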