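import Vale.Agent.P284.H812.NSF15
import Vale.Agent.P284.H378.N0

/-!
# P284 (helper812), module NS (f), part 16: good points, the planes are constant
-/

open scoped Manifold Topology ContDiff
open Filter

noncomputable section

set_option linter.unusedSectionVars false

namespace Vale.Agent.P284.H812.NSF

open Vale.Agent.P272.K Vale.Agent.P284.H625 Vale.Agent.P284.H573 Vale.Agent.P284.H338
  Vale.Agent.P284.H395 Vale.Agent.P284.H501 Vale.Agent.P284.H894.G Vale.Agent.P284.H894.W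
  Vale.Agent.P284.H619 Vale.Agent.P284.H378

section
variable {q r s k m : ℕ} {W H₁ H₂ H : Type} [NormedAddCommGroup W] [InnerProductSpace ℂ W]
  [CompleteSpace W]
  [NormedAddCommGroup H₁] [InnerProductSpace ℂ H₁] [CompleteSpace H₁] [NormedAddCommGroup H₂]
  [InnerProductSpace ℂ H₂] [CompleteSpace H₂] [NormedAddCommGroup H] [InnerProductSpace ℂ H]
  [CompleteSpace H]

/-- the linear functions on `ℂ^q` which vanish on the range of `N` -/
def annN (N : Cm k →L[ℂ] Cm q) : Submodule ℂ (Cm q →L[ℂ] ℂ) where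
  carrier := {τ | ∀ y, τ (N y) = 0}
  add_mem' := fun {a b} ha hb y => by
    rw [ContinuousLinearMap.add_apply, ha y, hb y, add_zero]
  zero_mem' := fun y => by rw [ContinuousLinearMap.zero_apply]
  smul_mem' := fun c a ha y => by
    rw [ContinuousLinearMap.smul_apply, ha y, smul_zero]

theorem exists_ann {N : Cm k →L[ℂ] Cm q} {x : Cm q}
    (hx : x ∉ LinearMap.range (N : Cm k →ₗ[ℂ] Cm q)) : ∃ τ ∈ annN N, τ x ≠ 0 := by
  obtain ⟨f, hf, hf'⟩ := Submodule.exists_dual_map_eq_bot_of_notMem hx inferInstance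
  refine ⟨LinearMap.toContinuousLinearMap f, fun y => ?_, hf⟩
  have h1 : f (N y) ∈ (LinearMap.range (N : Cm k →ₗ[ℂ] Cm q)).map f :=
    ⟨N y, ⟨y, rfl⟩, rfl⟩
  rw [hf'] at h1
  exact (Submodule.mem_bot ℂ).1 h1

/-- the package in all cases -/
theorem iso_all {D : Dat q (q + r) H₁ H₂} {F : Cm (q + r) → W} {x₀ : Cm (q + r)}
    (hA : Adapted D F x₀) (hm : 1 ≤ m) {Γ : NatOp q (q + r) H₁ H₂ m H} (hΓ : Nrm Γ)
    {δ : Fin s → H} (h : Ind Γ δ D x₀) (hi : Inj Γ δ D x₀)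
    (hmax : ∀ᶠ x in 𝓝 x₀, ¬ RkD D x (s + 1)) (hk : q + r = s + k) :
    IsoPkgC q r k s W x₀ {g | NatFun D x₀ g} F (fun i x => inner ℂ (δ i) (Γ.op D x)) := by
  rcases Nat.eq_zero_or_pos k with h0 | h0
  · subst h0
    exact isoPkgC_zero (by omega) (fun i => inner_an Γ (δ i) hA.an) h
  · have hk' : k = q + r - s := by omega
    subst hk'
    exact iso_of hA hm hΓ h hmax (by omega) hi

/-- the planes at a point: `tq` of the common kernel lies in the range of `N` -/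
def Pln (Γ : NatOp q (q + r) H₁ H₂ m H) (δ : Fin s → H) (D : Dat q (q + r) H₁ H₂)
    (N : Cm k →L[ℂ] Cm q) (x : Cm (q + r)) : Prop :=
  ∀ ξ : Cm (q + r), (∀ i, fderiv ℂ (fun x => inner ℂ (δ i) (Γ.op D x)) x ξ = 0) →
    tq ξ ∈ LinearMap.range (N : Cm k →ₗ[ℂ] Cm q)

/-- the constant plane near a good point -/
theorem pln_near {D : Dat q (q + r) H₁ H₂} {F : Cm (q + r) → W} {x₀ : Cm (q + r)}
    (hA : Adapted D F x₀) (hm : 1 ≤ m) {Γ : NatOp q (q + r) H₁ H₂ m H} (hΓ : Nrm Γ)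
    {δ : Fin s → H} (h : Ind Γ δ D x₀) (hi : Inj Γ δ D x₀)
    (hmax : ∀ᶠ x in 𝓝 x₀, ¬ RkD D x (s + 1)) (hk : q + r = s + k) :
    ∃ N : Cm k →L[ℂ] Cm q, Function.Injective N ∧ ∀ᶠ x in 𝓝 x₀, Pln Γ δ D N x := by
  obtain ⟨N, Φ, C, hN, -, -, -, -, -, -, -, hlast⟩ := iso_all hA hm hΓ h hi hmax hk
  refine ⟨N, hN, ?_⟩
  filter_upwards [hlast] with x hx ξ hξ
  obtain ⟨y, hy⟩ := hx ξ hξ
  exact ⟨y, hy.symm⟩

/-- no larger rank relative to the annihilator of the plane -/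
theorem not_rkT {D : Dat q (q + r) H₁ H₂} {x₀ : Cm (q + r)} (hD : D.An x₀)
    (h1 : ∃ ε : H₁, ∀ᶠ x in 𝓝 x₀, inner ℂ ε (D.v x) = 1) (hm : 1 ≤ m)
    {Γ : NatOp q (q + r) H₁ H₂ m H} (hΓ : Nrm Γ) {δ : Fin s → H} (h : Ind Γ δ D x₀)
    (hmax : ∀ᶠ x in 𝓝 x₀, ¬ RkD D x (s + 1)) {N : Cm k →L[ℂ] Cm q}
    (hN : Pln Γ δ D N x₀) : ¬ RkT (annN N) Γ D x₀ (s + 1) := by
  refine rkT_le (A := fun i => fderiv ℂ (fun x => inner ℂ (δ i) (Γ.op D x)) x₀)
    fun ξ hξ => ⟨fun δ' => ?_, fun τ hτ => ?_⟩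
  · have hf : NatFun D x₀ fun x => inner ℂ δ' (Γ.op D x) :=
      ⟨m, hm, H, inferInstance, inferInstance, inferInstance, Γ, δ', hΓ,
        Eventually.of_forall fun x => rfl⟩
    exact (max_of hD h1 hm hΓ h hmax _ hf).self_of_nhds ξ hξ
  · obtain ⟨y, hy⟩ := hN ξ hξ
    rw [← hy]
    exact hτ y

/-- a killed vector transversal to the plane gives larger rank -/
theorem rkT_of_not_pln {D : Dat q (q + r) H₁ H₂} {x₀ : Cm (q + r)} (hD : D.An x₀)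
    {Γ : NatOp q (q + r) H₁ H₂ m H} {δ : Fin s → H} (h : Ind Γ δ D x₀)
    {N : Cm k →L[ℂ] Cm q} (hN : ¬ Pln Γ δ D N x₀) : RkT (annN N) Γ D x₀ (s + 1) := by
  simp only [Pln, not_forall] at hN
  obtain ⟨ξ, hξ, hx⟩ := hN
  obtain ⟨τ, hτ, hτx⟩ := exists_ann hx
  exact rkT_succ hD h hτ hξ hτx

end

section
variable {n q r m s k : ℕ} {X E : Type} [TopologicalSpace X] [ChartedSpace (Cm n) X]
  [TopologicalSpace E] {p : E → X}
  {W H₁ H₂ H : Type} [NormedAddCommGroup W] [InnerProductSpace ℂ W] [CompleteSpace W]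
  [NormedAddCommGroup H₁] [InnerProductSpace ℂ H₁] [CompleteSpace H₁]
  [NormedAddCommGroup H₂] [InnerProductSpace ℂ H₂] [CompleteSpace H₂]
  [NormedAddCommGroup H] [InnerProductSpace ℂ H] [CompleteSpace H]
  {t : E → Cm q} {V : E → Chart n X → Cm n [⋀^Fin (q + r + 1)]→L[ℂ] H₁}
  {W' : E → Chart n X → Cm n [⋀^Fin (q + r)]→L[ℂ] H₂}

variable [IsManifold 𝓘(ℂ, Cm n) ω X]

variable {Cl : E → Chart n X → (Cm n → Cm (q + (r + 1))) → Dat q (q + (r + 1)) H₁ H₂ →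
      (Cm (q + (r + 1)) → W) → Prop}

/-- the good points: rank `s`, no vertical vector killed -/
def Gd (p : E → X) (Cl : E → Chart n X → (Cm n → Cm (q + (r + 1))) →
      Dat q (q + (r + 1)) H₁ H₂ → (Cm (q + (r + 1)) → W) → Prop)
    (Γ : NatOp q (q + (r + 1)) H₁ H₂ m H) (s : ℕ) : Set E :=
  GdT p Cl ⊥ Γ s ∩ GdT p Cl ⊤ Γ (q + (r + 1))

/-- at the good points every frame of components kills no vertical vector -/
theorem inj_of_gd (hp : IsLocalHomeomorph p) (hcl : Cls p t V W' Cl) (hm : 1 ≤ m)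
    {Γ : NatOp q (q + (r + 1)) H₁ H₂ m H} (hΓ : Nrm Γ)
    (hmax : ∀ y e b D F, Cl y e b D F → ¬ RkD D (b (e (p y))) (s + 1)) {y : E}
    (hy : y ∈ Gd p Cl Γ s) {e : Chart n X} {b : Cm n → Cm (q + (r + 1))}
    {D : Dat q (q + (r + 1)) H₁ H₂} {F : Cm (q + (r + 1)) → W} (hC : Cl y e b D F)
    {δ : Fin s → H} (hI : Ind Γ δ D (b (e (p y)))) : Inj Γ δ D (b (e (p y))) := by
  intro ξ hξ h0
  refine inj_of_rkT (hy.2.2 e b D F hC) (fun δ' => ?_) h0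
  have hf : NatFun D (b (e (p y))) fun x => inner ℂ δ' (Γ.op D x) :=
    ⟨m, hm, H, inferInstance, inferInstance, inferInstance, Γ, δ', hΓ,
      Eventually.of_forall fun x => rfl⟩
  exact (max_of (hcl.ada hC).an (hcl.ada hC).one hm hΓ hI (max_near hp hcl hC hmax) _
    hf).self_of_nhds ξ hξ

/-- **the planes are constant on the set of good points** -/
theorem exists_plane [PreconnectedSpace E] (hp : IsLocalHomeomorph p) (hd : EDat p t V W')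
    (hcl : Cls p t V W' Cl) (hA : ThinC (n := n) p (Ad Cl)) (hm : 1 ≤ m)
    {Γ : NatOp q (q + (r + 1)) H₁ H₂ m H} (hΓ : Nrm Γ)
    (hmax : ∀ y e b D F, Cl y e b D F → ¬ RkD D (b (e (p y))) (s + 1))
    (hk : q + (r + 1) = s + k) (hne : (Gd p Cl Γ s).Nonempty) :
    ∃ N : Cm k →L[ℂ] Cm q, Function.Injective N ∧ ∀ y ∈ Gd p Cl Γ s, ∀ e b D F, Cl y e b D F →
      ∀ δ : Fin s → H, Ind Γ δ D (b (e (p y))) → Pln Γ δ D N (b (e (p y))) := by
  obtain ⟨y₁, hy₁⟩ := hne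
  obtain ⟨e₁, b₁, D₁, F₁, hC₁⟩ := hy₁.1.1
  obtain ⟨δ₁, hI₁⟩ := ind_iff.1 (hy₁.1.2 e₁ b₁ D₁ F₁ hC₁)
  obtain ⟨N, hN, hPl⟩ := pln_near (hcl.ada hC₁) hm hΓ hI₁
    (inj_of_gd hp hcl hm hΓ hmax hy₁ hC₁ hI₁) (max_near hp hcl hC₁ hmax) hk
  refine ⟨N, hN, fun y hy e b D F hC δ hI => ?_⟩
  by_contra hcon
  have h1 : y ∈ GdT p Cl (annN N) Γ (s + 1) :=
    mem_gd hp hd hcl hΓ hC (rkT_of_not_pln (hcl.ada hC).an hI hcon)
  have h2 : Dense (GdT p Cl (annN N) Γ (s + 1)) :=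
    (thin_gd hp hd hcl hA hΓ ⟨y, h1⟩).dense hp
  have hbt : Tendsto (fun y' => b₁ (e₁ (p y'))) (𝓝 y₁) (𝓝 (b₁ (e₁ (p y₁)))) :=
    (hcl.basic hC₁).ban.continuousAt.tendsto.comp (tend_ep hp (hcl.basic hC₁).mem)
  have h3 := h2 y₁
  rw [mem_closure_iff_frequently] at h3
  obtain ⟨y', h4, h5, h6, h7⟩ := (h3.and_eventually ((hcl.near hC₁).and
    ((hbt.eventually hPl).and (hbt.eventually (hI₁.near (hcl.ada hC₁).an))))).exists
  exact not_rkT (hcl.ada h5).an (hcl.ada h5).one hm hΓ h7 (max_near hp hcl h5 hmax) h6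
    (h4.2 e₁ b₁ D₁ F₁ h5)

end

end Vale.Agent.P284.H812.NSF
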