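import Vale.Agent.P284.H812.NSF16
import Vale.Agent.P284.H338.EAct
import Vale.Agent.P284.H501.Core.Th

/-!
# P284 (helper812), module NS (f), part 17: the leaf data or the V-alternative
-/

open scoped Manifold Topology ContDiff
open Filter

noncomputable section

set_option linter.unusedSectionVars false

namespace Vale.Agent.P284.H812.NSF

open Vale.Agent.P272.K Vale.Agent.P284.H625 Vale.Agent.P284.H573 Vale.Agent.P284.H338
  Vale.Agent.P284.H395 Vale.Agent.P284.H501 Vale.Agent.P284.H894.G Vale.Agent.P284.H894.W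
  Vale.Agent.P284.H619 Vale.Agent.P284.H378

section
variable {q r s m M : ℕ} {H₁ H₂ H K : Type} [NormedAddCommGroup H₁] [InnerProductSpace ℂ H₁]
  [CompleteSpace H₁] [NormedAddCommGroup H₂]
  [InnerProductSpace ℂ H₂] [CompleteSpace H₂] [NormedAddCommGroup H] [InnerProductSpace ℂ H]
  [CompleteSpace H] [NormedAddCommGroup K] [InnerProductSpace ℂ K] [CompleteSpace K]

/-- the components of `Γ₀` are components of `Γ₁`, near a point where a component of `v` is `1` -/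
theorem nxt_comp {Γ₀ : NatOp q (q + r) H₁ H₂ m H} {Γ₁ : NatOp q (q + r) H₁ H₂ M K}
    (hN : Nxt Γ₀ Γ₁) {D : Dat q (q + r) H₁ H₂} {x₀ : Cm (q + r)} (hD : D.An x₀)
    (h1 : ∃ ε : H₁, ∀ᶠ x in 𝓝 x₀, inner ℂ ε (D.v x) = 1) (δ : Fin s → H) :
    ∃ δ' : Fin s → K, ∀ i, (fun x => inner ℂ (δ' i) (Γ₁.op D x)) =ᶠ[𝓝 x₀]
      fun x => inner ℂ (δ i) (Γ₀.op D x) := by
  obtain ⟨ε, hε⟩ := h1
  choose δ' hδ' using fun i => hN.incl (δ i) ε
  refine ⟨δ', fun i => ?_⟩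
  filter_upwards [hε, hD.eventually] with x k1 k2
  rw [hδ' i D x k2, k1, one_pow, mul_one]

end

section
variable {n q r m s k : ℕ} {X E : Type} [TopologicalSpace X] [ChartedSpace (Cm n) X]
  [TopologicalSpace E] {p : E → X}
  {W T₂ T₁ T₀ H : Type} [NormedAddCommGroup W] [InnerProductSpace ℂ W] [CompleteSpace W]
  [NormedAddCommGroup T₂] [InnerProductSpace ℂ T₂]
  [NormedAddCommGroup T₁] [InnerProductSpace ℂ T₁] [CompleteSpace T₁]
  [NormedAddCommGroup T₀] [InnerProductSpace ℂ T₀] [CompleteSpace T₀]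
  [NormedAddCommGroup H] [InnerProductSpace ℂ H] [CompleteSpace H]
  {t : E → Cm q} {S : E → Chart n X → Cm n [⋀^Fin (q + 1)]→L[ℂ] W}
  {S₂ : TPow W T₂ (r + 2)} {S₁ : TPow W T₁ (r + 1)} {S₀ : TPow W T₀ r}
  {V : E → Chart n X → Cm n [⋀^Fin (q + (r + 1))]→L[ℂ] T₁}
  {V' : E → Chart n X → Cm n [⋀^Fin (q + r)]→L[ℂ] T₀} {Θ : E → Chart n X → (Cm n →L[ℂ] W)}
  [IsManifold 𝓘(ℂ, Cm n) ω X] {Gp : Type} [Group Gp] [MulAction Gp E]

/-- the good points of `SDat` are invariant -/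
theorem ad_act (hp : IsGalois Gp p) (h : SDat p t S S₂ S₁ S₀ V V') {c : Gp → Cm q}
    (ht : ∀ g y, t (g • y) = t y + c g) (ha : EqAct (k := q + r) Gp p t V V') (g : Gp) :
    ∀ y ∈ Ad (ClS p t S S₁ S₀ V V'), g • y ∈ Ad (ClS p t S S₁ S₀ V V') := by
  have hl : IsLocalHomeomorph p := hp.cov.isLocalHomeomorph
  have hpg : ∀ y : E, p (g • y) = p y := fun y => ((hp.orb y (g • y)).2 ⟨g, rfl⟩).symm
  intro y hy
  rw [ad_iff hl h] at hy ⊢
  obtain ⟨h1, e, he, ξ, hξ⟩ := hy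
  have he' : At e (p (g • y)) := by rw [hpg]; exact he
  obtain ⟨f, hf⟩ := h.rep y e he
  have hr := Core.rep_shift hp.cov hpg (hp.cont g) (ht g) h.rep he hf
  refine ⟨(reg_iff hl he' hr).2 ?_, e, he', ξ, ?_⟩
  · rw [hpg, fderiv_add_const]
    exact (reg_iff hl he hf).1 h1
  · obtain ⟨U₁, U₂, c', hU⟩ := ha g
    have h2 := ((hU y).2 e he).1 ξ
    intro h3
    rw [h2] at h3
    exact hξ ((map_eq_zero_iff U₁ U₁.injective).1 h3)

/-- **the leaf data on the good points** -/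
theorem leafE_of [PreconnectedSpace E] (hp : IsGalois Gp p) (h : SDat p t S S₂ S₁ S₀ V V')
    {π : Gp →* (W ≃ₗᵢ[ℂ] W)} {c : Gp → Cm q} (ht : ∀ g y, t (g • y) = t y + c g)
    (hS : ∀ (g : Gp) y e, At e (p y) → ∀ ξ, S (g • y) e ξ = π g (S y e ξ))
    (hΘ : ThRel p t S Θ) (hm : 1 ≤ m) {Γ₀ : NatOp q (q + (r + 1)) T₁ T₀ m H} (hΓ : Nrm Γ₀)
    (hmax : ∀ y e b D F, ClS p t S S₁ S₀ V V' y e b D F → ¬ RkD D (b (e (p y))) (s + 1))
    (hk : q + (r + 1) = s + k) (hne : (Gd p (ClS p t S S₁ S₀ V V') Γ₀ s).Nonempty) :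
    ∃ (M : ℕ) (K : Type) (_ : NormedAddCommGroup K) (_ : InnerProductSpace ℂ K)
      (_ : CompleteSpace K) (v : E → Chart n X → (Fin (q + (r + 1)) → Cm n) → K)
      (U : Gp → (K →ₗᵢ[ℂ] K)) (N : Cm k →L[ℂ] Cm q),
      LeafE (r := r + 1) s p t M v U π Θ N (Gd p (ClS p t S S₁ S₀ V V') Γ₀ s) := by
  have hl : IsLocalHomeomorph p := hp.cov.isLocalHomeomorph
  have hpg : ∀ (g : Gp) (y : E), p (g • y) = p y :=
    fun g y => ((hp.orb y (g • y)).2 ⟨g, rfl⟩).symm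
  have hd : EDat (k := q + r) p t V V' := h.edat locFormStmt hl
  have ha : EqAct (k := q + r) Gp p t V V' := h.eqAct hl hp.cont hpg fun g =>
    ⟨(π g).toLinearIsometry, c g, ht g, hS g⟩
  have hcl := cls_clS (S := S) (S₁ := S₁) (S₀ := S₀) (V := V) (V' := V') (t := t) hl
  have hA := thin_ad hl h
  obtain ⟨N, hN, hPl⟩ := exists_plane hl hd hcl hA hm hΓ hmax hk hne
  obtain ⟨M, hM, K, i1, i2, i3, Γ₁, hNx⟩ := exists_next hm Γ₀
  choose U₁ hU₁ using fun g : Gp => S₁.map (π g).toLinearIsometry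
  choose U₂ hU₂ using fun g : Gp => S₀.map (π g).toLinearIsometry
  choose U hU using fun g : Gp => Γ₁.iso (U₁ g) (U₂ g)
  refine ⟨M, K, i1, i2, i3, natv (k := q + r) Γ₁ p t V V', U, N, hform_natv hp hd ha Γ₁, hk, hM,
    hN, fun g y e he ξ => ?_, fun g hg y e he ξ => ?_, ⟨?_, ?_⟩, fun g y hy => ?_,
    fun y hy => ?_⟩
  · obtain ⟨D, hD, k1, k2⟩ := natv_act hl hp.cont hpg hd Γ₁ (g := g)
      (fun y => h.act hl (hp.cont g) (hpg g) (hU₁ g) (hU₂ g) (ht g) (hS g) y) he ξ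
    exact k2.trans ((hU g (c g) D 0 hD).trans (congrArg (U g) k1.symm))
  · refine natv_fix hl hp.cont hpg hd Γ₁ (g := g) (c := c g) (fun y => ?_) y e he ξ
    refine h.fix hl (hp.cont g) (hpg g) (ht g) (fun y e he ξ => ?_) y
    rw [hS g y e he ξ, hg]
    rfl
  · exact (open_gd hl hd hcl hΓ).inter (open_gd hl hd hcl hΓ)
  · exact (thin_gd hl hd hcl hA hΓ (hne.mono Set.inter_subset_left)).inter
      (thin_gd hl hd hcl hA hΓ (hne.mono Set.inter_subset_right))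
  · exact ⟨inv_gd hl hp.cont hpg hd hcl ha (fun g => ad_act hp h ht ha g) hΓ g hy.1,
      inv_gd hl hp.cont hpg hd hcl ha (fun g => ad_act hp h ht ha g) hΓ g hy.2⟩
  · obtain ⟨e, b, D, F, hC⟩ := hy.1.1
    obtain ⟨δ₀, hI₀⟩ := ind_iff.1 (hy.1.2 e b D F hC)
    have hi₀ := inj_of_gd hl hcl hm hΓ hmax hy hC hI₀
    have hP₀ := hPl y hy e b D F hC δ₀ hI₀
    have hAd := hcl.ada hC
    obtain ⟨δ, hδ⟩ := nxt_comp hNx hAd.an hAd.one δ₀
    have hfd : ∀ i, fderiv ℂ (fun x => inner ℂ (δ i) (Γ₁.op D x)) (b (e (p y))) =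
        fderiv ℂ (fun x => inner ℂ (δ₀ i) (Γ₀.op D x)) (b (e (p y))) := fun i =>
      (hδ i).fderiv_eq
    have hI : Ind Γ₁ δ D (b (e (p y))) := by
      intro z
      obtain ⟨ξ, hξ⟩ := hI₀ z
      exact ⟨ξ, fun i => by rw [hfd i]; exact hξ i⟩
    have hi : Inj Γ₁ δ D (b (e (p y))) := by
      intro ξ hξ
      exact hi₀ ξ fun i => by rw [← hfd i]; exact hξ i
    have hP : Pln Γ₁ δ D N (b (e (p y))) := by
      intro ξ hξ
      exact hP₀ ξ fun i => by rw [← hfd i]; exact hξ i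
    obtain ⟨γ, τ, c1, c2, c3, c4, c5⟩ := leaf_all hM hNx.nrm hAd hI hi
      (max_near hl hcl hC hmax) hP
    have htr : ∀ᶠ x in 𝓝 (b (e (p y))), ∀ ξ, tq ξ = 0 →
        fderiv ℂ (Γ₀.op D) x ξ = 0 → ξ = 0 := by
      have hy' : ∀ᶠ y' in 𝓝 y, y' ∈ Gd p (ClS p t S S₁ S₀ V V') Γ₀ s :=
        ((open_gd hl hd hcl hΓ).inter (open_gd hl hd hcl hΓ)).mem_nhds hy
      refine ev_img hl hcl hC ?_
      filter_upwards [hy'] with y' k1 k2 ξ k3 k4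
      obtain ⟨δ', hI'⟩ := ind_iff.1 (k1.1.2 e b D F k2)
      refine inj_of_gd hl hcl hm hΓ hmax k1 k2 hI' ξ (fun i => ?_) k3
      rw [fderiv_inner_const' _ (Γ₀.anAt (hcl.ada k2).an).differentiableAt, k4,
        inner_zero_right]
    obtain ⟨hD, f, hAt⟩ := hC
    subst hD
    exact ⟨e, b, F, bet Γ₁ δ (exD q r S₁ S₀ F), γ, τ, lc_of hp.cov hd hΘ hAt hM hΓ hNx hI hi
      c1 c2 c3 c4 c5 htr hU₁ hU₂ hU⟩

/-- **the leaf data, or the V-alternative on an open set** -/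
theorem ns_main [PreconnectedSpace E] (hp : IsGalois Gp p) (h : SDat p t S S₂ S₁ S₀ V V')
    {π : Gp →* (W ≃ₗᵢ[ℂ] W)} {c : Gp → Cm q} (ht : ∀ g y, t (g • y) = t y + c g)
    (hS : ∀ (g : Gp) y e, At e (p y) → ∀ ξ, S (g • y) e ξ = π g (S y e ξ))
    (hΘ : ThRel p t S Θ) :
    (∃ O : Set E, IsOpen O ∧ O.Nonempty ∧ ∀ y ∈ O, VAlt p t Θ y) ∨
    ∃ (s k M : ℕ) (K : Type) (_ : NormedAddCommGroup K) (_ : InnerProductSpace ℂ K)
      (_ : CompleteSpace K) (v : E → Chart n X → (Fin (q + (r + 1)) → Cm n) → K)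
      (U : Gp → (K →ₗᵢ[ℂ] K)) (N : Cm k →L[ℂ] Cm q) (𝒢 : Set E), 𝒢.Nonempty ∧
      LeafE (r := r + 1) s p t M v U π Θ N 𝒢 := by
  have hl : IsLocalHomeomorph p := hp.cov.isLocalHomeomorph
  have hd : EDat (k := q + r) p t V V' := h.edat locFormStmt hl
  have hcl := cls_clS (S := S) (S₁ := S₁) (S₀ := S₀) (V := V) (V' := V') (t := t) hl
  have hA := thin_ad hl h
  have hne : (Ad (ClS p t S S₁ S₀ V V')).Nonempty := by
    obtain ⟨y, -⟩ := h.ne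
    have : Nonempty E := ⟨y⟩
    exact (hA.dense hl).nonempty
  obtain ⟨s, hs, ⟨y₀, e₀, b₀, D₀, F₀, hC₀, m, hm, H, i1, i2, i3, Γ₀, δ₀, hΓ, hI₀⟩, hmax⟩ :=
    exists_max hcl hne
  have hy₀ : y₀ ∈ GdT p (ClS p t S S₁ S₀ V V') ⊥ Γ₀ s :=
    mem_gd hl hd hcl hΓ hC₀ (ind_iff.2 ⟨δ₀, hI₀⟩)
  by_cases hB : ∀ y ∈ GdT p (ClS p t S S₁ S₀ V V') ⊥ Γ₀ s, VAlt p t Θ y
  · exact Or.inl ⟨_, open_gd hl hd hcl hΓ, ⟨y₀, hy₀⟩, hB⟩
  · right
    push Not at hB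
    obtain ⟨y₁, hy₁, hV⟩ := hB
    obtain ⟨e, b, D, F, hC⟩ := hy₁.1
    obtain ⟨δ, hI⟩ := ind_iff.1 (hy₁.2 e b D F hC)
    have hAd := hcl.ada hC
    have hi : Inj Γ₀ δ D (b (e (p y₁))) := by
      by_contra hcon
      obtain ⟨ζ, z1, z2, z3⟩ := vert_of hAd hm hΓ hI (max_near hl hcl hC hmax) hcon
      obtain ⟨hD, f, hAt⟩ := hC
      exact hV (valt_of hp.cov hΘ hAt z1 z2 z3)
    have hy₁' : y₁ ∈ GdT p (ClS p t S S₁ S₀ V V') ⊤ Γ₀ (q + (r + 1)) :=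
      mem_gd hl hd hcl hΓ hC (rkT_of_inj hAd.an hi)
    have hG : (Gd p (ClS p t S S₁ S₀ V V') Γ₀ s).Nonempty := ⟨y₁, hy₁, hy₁'⟩
    obtain ⟨M, K, j1, j2, j3, v, U, N, hL⟩ := leafE_of hp h ht hS hΘ hm hΓ hmax
      (k := q + (r + 1) - s) (by omega) hG
    exact ⟨s, _, M, K, j1, j2, j3, v, U, N, _, hG, hL⟩

end

end Vale.Agent.P284.H812.NSF
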