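import Vale.Agent.P284.H812.NSF1
import Vale.Agent.P284.H338.EForm
import Vale.Agent.P284.H395.StkS
import Vale.Agent.P284.H625.NS.Sheet
import Mathlib.Analysis.Calculus.InverseFunctionTheorem.ContDiff
import Mathlib.Analysis.Analytic.Uniqueness

/-!
# P284 (helper812), module NS (f), part 2: the leaf normal form
-/

open scoped Topology ContDiff
open Filter

noncomputable section

set_option linter.unusedSectionVars false

namespace Vale.Agent.P284.H812.NSF

open Vale.Agent.P272.K Vale.Agent.P284.H625 Vale.Agent.P284.H573 Vale.Agent.P284.H338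
  Vale.Agent.P284.H395

/-- an analytic local section of a submersion -/
theorem exists_sec {V B : Type*} [NormedAddCommGroup V] [NormedSpace ℂ V] [CompleteSpace V]
    [NormedAddCommGroup B] [NormedSpace ℂ B] [FiniteDimensional ℂ B] {f : V → B} {x₀ : V}
    (hf : AnalyticAt ℂ f x₀) (hs : Function.Surjective (fderiv ℂ f x₀)) :
    ∃ σ : B → V, AnalyticAt ℂ σ (f x₀) ∧ σ (f x₀) = x₀ ∧ ∀ᶠ b in 𝓝 (f x₀), f (σ b) = b := by
  have : CompleteSpace B := FiniteDimensional.complete ℂ B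
  obtain ⟨M₀, hM₀⟩ := (fderiv ℂ f x₀ : V →ₗ[ℂ] B).exists_rightInverse_of_surjective
    (LinearMap.range_eq_top.2 hs)
  set M : B →L[ℂ] V := LinearMap.toContinuousLinearMap M₀ with hM
  have hMr : ∀ b, fderiv ℂ f x₀ (M b) = b := fun b => LinearMap.congr_fun hM₀ b
  set h : B → B := fun b => f (x₀ + M (b - f x₀)) with hh
  have ha : AnalyticAt ℂ (fun b => x₀ + M (b - f x₀)) (f x₀) :=
    analyticAt_const.add (AnalyticAt.fun_comp (g := M) (M.analyticAt _)
      (analyticAt_id.sub analyticAt_const))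
  have ha0 : x₀ + M (f x₀ - f x₀) = x₀ := by simp
  have hha : AnalyticAt ℂ h (f x₀) := by
    refine AnalyticAt.fun_comp (g := f) ?_ ha
    rw [ha0]
    exact hf
  have hd : HasFDerivAt h ((ContinuousLinearEquiv.refl ℂ B : B ≃L[ℂ] B) : B →L[ℂ] B) (f x₀) := by
    have h1 : HasFDerivAt (fun b => x₀ + M (b - f x₀)) M (f x₀) :=
      (M.hasFDerivAt.comp (f x₀) ((hasFDerivAt_id (f x₀)).sub_const (f x₀))).const_add x₀
    have h2 : HasFDerivAt f (fderiv ℂ f x₀) (x₀ + M (f x₀ - f x₀)) := by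
      rw [ha0]
      exact hf.differentiableAt.hasFDerivAt
    have h3 := h2.comp (f x₀) h1
    have h4 : (fderiv ℂ f x₀).comp M =
        ((ContinuousLinearEquiv.refl ℂ B : B ≃L[ℂ] B) : B →L[ℂ] B) := by
      ext b
      exact hMr b
    rw [h4] at h3
    exact h3
  have hn : (ω : WithTop ℕ∞) ≠ 0 := by simp
  have hh0 : h (f x₀) = f x₀ := by
    show f (x₀ + M (f x₀ - f x₀)) = f x₀
    rw [ha0]
  set Q := hha.contDiffAt.toOpenPartialHomeomorph h hd hn with hQ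
  have hQh : ∀ x, Q x = h x := fun x => rfl
  have hQs : f x₀ ∈ Q.source := ContDiffAt.mem_toOpenPartialHomeomorph_source hha.contDiffAt hd hn
  have hQt : h (f x₀) ∈ Q.target :=
    ContDiffAt.image_mem_toOpenPartialHomeomorph_target hha.contDiffAt hd hn
  have hQa : AnalyticAt ℂ Q.symm (f x₀) := by
    have : ContDiffAt ℂ ω Q.symm (h (f x₀)) := hha.contDiffAt.to_localInverse hd hn
    rw [hh0] at this
    exact this.analyticAt
  have hQ0 : Q.symm (f x₀) = f x₀ := by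
    have := Q.left_inv hQs
    rw [hQh, hh0] at this
    exact this
  refine ⟨fun b => x₀ + M (Q.symm b - f x₀), ?_, ?_, ?_⟩
  · exact analyticAt_const.add (AnalyticAt.fun_comp (g := M) (M.analyticAt _)
      (hQa.sub analyticAt_const))
  · show x₀ + M (Q.symm (f x₀) - f x₀) = x₀
    rw [hQ0, ha0]
  · rw [hh0] at hQt
    filter_upwards [Q.open_target.mem_nhds hQt] with b hb
    exact Q.right_inv hb

/-- an analytic Hilbert valued function all components of which vanish near a point -/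
theorem comp_zero {V H : Type*} [NormedAddCommGroup V] [NormedSpace ℂ V] [NormedAddCommGroup H]
    [InnerProductSpace ℂ H] [CompleteSpace H] {g : V → H} {p : V} (hg : AnalyticAt ℂ g p)
    (h : ∀ δ : H, ∀ᶠ p' in 𝓝 p, inner ℂ δ (g p') = 0) : ∀ᶠ p' in 𝓝 p, g p' = 0 := by
  obtain ⟨ρ, hρ, hB⟩ := Metric.eventually_nhds_iff_ball.1 hg.eventually_analyticAt
  filter_upwards [Metric.ball_mem_nhds p hρ] with p' hp'
  refine ext_inner_left ℂ fun δ => ?_
  rw [inner_zero_right]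
  have h1 : AnalyticOnNhd ℂ (fun p' => inner ℂ δ (g p')) (Metric.ball p ρ) := fun x hx =>
    ((innerSL ℂ δ).analyticAt _).comp_of_eq (hB x hx) rfl
  exact h1.eqOn_zero_of_preconnected_of_eventuallyEq_zero
    (convex_ball p ρ).isPreconnected (Metric.mem_ball_self hρ) (h δ) hp'

theorem fderiv_inner_const' {V H : Type*} [NormedAddCommGroup V] [NormedSpace ℂ V]
    [NormedAddCommGroup H] [InnerProductSpace ℂ H] (δ : H) {f : V → H} {x : V}
    (hf : DifferentiableAt ℂ f x) (ξ : V) :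
    fderiv ℂ (fun y => inner ℂ δ (f y)) x ξ = inner ℂ δ (fderiv ℂ f x ξ) := by
  have : HasFDerivAt (fun y => inner ℂ δ (f y)) ((innerSL ℂ δ).comp (fderiv ℂ f x)) x :=
    (innerSL ℂ δ).hasFDerivAt.comp x hf.hasFDerivAt
  rw [this.fderiv]
  simp

section
variable {q r s k m : ℕ} {W H₁ H₂ H : Type} [NormedAddCommGroup W] [InnerProductSpace ℂ W]
  [CompleteSpace W]
  [NormedAddCommGroup H₁] [InnerProductSpace ℂ H₁] [CompleteSpace H₁] [NormedAddCommGroup H₂]
  [InnerProductSpace ℂ H₂] [CompleteSpace H₂] [NormedAddCommGroup H] [InnerProductSpace ℂ H]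
  [CompleteSpace H]

/-- along the pairs of points with the same `f`, `Γ(D)` does not change and `t` moves in the plane -/
theorem pair_of {D : Dat q (q + r) H₁ H₂} {F : Cm (q + r) → W} {x₀ : Cm (q + r)}
    (hA : Adapted D F x₀) (hm : 1 ≤ m) {Γ : NatOp q (q + r) H₁ H₂ m H} (hΓ : Nrm Γ)
    {f : Fin s → Cm (q + r) → ℂ} {N : Cm k →L[ℂ] Cm q} {Φ : Cm (q + r) × Cm k → Cm (q + r)}
    (hN : Function.Injective N) (hΦ : AnalyticAt ℂ Φ (x₀, 0))
    (h0 : ∀ᶠ x in 𝓝 x₀, Φ (x, 0) = x)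
    (hg : ∀ g ∈ {g | NatFun D x₀ g}, ∀ᶠ p in 𝓝 ((x₀, 0) : Cm (q + r) × Cm k), g (Φ p) = g p.1)
    (hl : ∀ᶠ p in 𝓝 ((x₀, x₀) : Cm (q + r) × Cm (q + r)), (∀ i, f i p.1 = f i p.2) →
      ∃ y : Cm k, p.2 = Φ (p.1, y) ∧ tq p.2 = tq p.1 + N y) :
    ∀ᶠ p in 𝓝 ((x₀, x₀) : Cm (q + r) × Cm (q + r)), (∀ i, f i p.1 = f i p.2) →
      Γ.op D p.2 = Γ.op D p.1 ∧ ∃ y, tq p.2 = tq p.1 + N y := by
  have hΦ0 : Φ (x₀, 0) = x₀ := h0.self_of_nhds
  have hop : AnalyticAt ℂ (Γ.op D) x₀ := Γ.anAt hA.an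
  have h1 : ∀ᶠ p in 𝓝 ((x₀, 0) : Cm (q + r) × Cm k), Γ.op D (Φ p) - Γ.op D p.1 = 0 := by
    refine comp_zero ?_ fun δ => ?_
    · refine AnalyticAt.sub ?_ ?_
      · refine AnalyticAt.fun_comp (g := Γ.op D) ?_ hΦ
        rw [hΦ0]
        exact hop
      · exact AnalyticAt.fun_comp (g := Γ.op D) (f := fun p : Cm (q + r) × Cm k => p.1) hop
          ((ContinuousLinearMap.fst ℂ (Cm (q + r)) (Cm k)).analyticAt _)
    · have h2 : NatFun D x₀ fun x => inner ℂ δ (Γ.op D x) :=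
        ⟨m, hm, H, inferInstance, inferInstance, inferInstance, Γ, δ, hΓ,
          Eventually.of_forall fun x => rfl⟩
      filter_upwards [hg _ h2] with p hp
      rw [inner_sub_right, sub_eq_zero]
      exact hp
  obtain ⟨Ni, hNi⟩ := (N : Cm k →ₗ[ℂ] Cm q).exists_leftInverse_of_injective
    (LinearMap.ker_eq_bot.2 hN)
  set Nc : Cm q →L[ℂ] Cm k := LinearMap.toContinuousLinearMap Ni with hNc
  have hNy : ∀ y, Nc (N y) = y := fun y => LinearMap.congr_fun hNi y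
  have h3 : Tendsto (fun p : Cm (q + r) × Cm (q + r) => (p.1, Nc (tqL q r p.2 - tqL q r p.1)))
      (𝓝 (x₀, x₀)) (𝓝 (x₀, 0)) := by
    have : Continuous fun p : Cm (q + r) × Cm (q + r) =>
      (p.1, Nc (tqL q r p.2 - tqL q r p.1)) := by fun_prop
    have h4 := this.tendsto (x₀, x₀)
    simpa using h4
  filter_upwards [h3.eventually h1, hl] with p k1 k2 hp
  obtain ⟨y, hy1, hy2⟩ := k2 hp
  have hy3 : Nc (tqL q r p.2 - tqL q r p.1) = y := by
    rw [tqL_apply, tqL_apply, hy2]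
    simp [hNy]
  rw [hy3] at k1
  refine ⟨?_, y, hy2⟩
  rw [hy1]
  exact sub_eq_zero.1 k1

/-- the leaf space near a point of maximal rank with the isotriviality package -/
theorem leaf_loc {D : Dat q (q + r) H₁ H₂} {F : Cm (q + r) → W} {x₀ : Cm (q + r)}
    (hA : Adapted D F x₀) (hm : 1 ≤ m) {Γ : NatOp q (q + r) H₁ H₂ m H} (hΓ : Nrm Γ)
    {δ : Fin s → H} (hI : Ind Γ δ D x₀)
    (hiso : IsoPkgC q r k s W x₀ {g | NatFun D x₀ g} F fun i x => inner ℂ (δ i) (Γ.op D x)) :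
    ∃ (L : LeafDat q s k H) (N : Cm k →L[ℂ] Cm q), Function.Injective N ∧ (∀ b, L.N b = N) ∧
      L.b₀ = (fun i => inner ℂ (δ i) (Γ.op D x₀)) ∧
      (∀ᶠ x in 𝓝 x₀, Γ.op D x = L.γ fun i => inner ℂ (δ i) (Γ.op D x)) ∧
      (∀ᶠ x in 𝓝 x₀, ∃ y, D.t x - L.t (fun i => inner ℂ (δ i) (Γ.op D x)) = N y) ∧
      (∀ κ, ∃ ζ, (∀ i, fderiv ℂ (fun x => inner ℂ (δ i) (Γ.op D x)) x₀ ζ = 0) ∧
        tq ζ = N κ) := by
  obtain ⟨N, Φ, C, hN, hΦ, hC, h0, ht, hF, hg, hl, hk⟩ := hiso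
  set fv : Cm (q + r) → Cm s := fun x i => inner ℂ (δ i) (Γ.op D x) with hfv
  have hfa : AnalyticAt ℂ fv x₀ := analyticAt_pi_iff.2 fun i => inner_an Γ (δ i) hA.an
  have hfd : ∀ ξ i, fderiv ℂ fv x₀ ξ i = fderiv ℂ (fun x => inner ℂ (δ i) (Γ.op D x)) x₀ ξ := by
    intro ξ i
    have h1 := hasFDerivAt_pi'.1 hfa.differentiableAt.hasFDerivAt i
    rw [h1.fderiv]
    rfl
  have hfs : Function.Surjective (fderiv ℂ fv x₀) := by
    intro y
    obtain ⟨ξ, hξ⟩ := hI y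
    exact ⟨ξ, funext fun i => (hfd ξ i).trans (hξ i)⟩
  obtain ⟨σ, hσ, hσ0, hσf⟩ := exists_sec hfa hfs
  have hop : AnalyticAt ℂ (Γ.op D) x₀ := Γ.anAt hA.an
  have hγ : AnalyticAt ℂ (fun b => Γ.op D (σ b)) (fv x₀) := by
    refine AnalyticAt.fun_comp (g := Γ.op D) ?_ hσ
    rw [hσ0]
    exact hop
  have ht' : AnalyticAt ℂ (fun b => D.t (σ b)) (fv x₀) := by
    refine AnalyticAt.fun_comp (g := D.t) ?_ hσ
    rw [hσ0]
    exact hA.an.1
  have hσt : Tendsto σ (𝓝 (fv x₀)) (𝓝 x₀) := by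
    have := hσ.continuousAt.tendsto
    rwa [hσ0] at this
  obtain ⟨δ₀, hδ₀⟩ := hΓ.one hA.an hA.one
  have himm : ImmAt (fun b => Γ.op D (σ b)) (fv x₀) := by
    refine ⟨fun h => ?_, fun η c hη => ?_⟩
    · have h1 := hδ₀.self_of_nhds
      have h' : Γ.op D (σ (fv x₀)) = 0 := h
      rw [hσ0] at h'
      rw [h', inner_zero_right] at h1
      exact zero_ne_one h1
    · have e1 : (fun b => inner ℂ δ₀ (Γ.op D (σ b))) =ᶠ[𝓝 (fv x₀)] fun _ => (1 : ℂ) :=
        hσt.eventually hδ₀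
      have e2 := fderiv_inner_const' δ₀ hγ.differentiableAt η
      have e1' : inner ℂ δ₀ (Γ.op D (σ (fv x₀))) = 1 := e1.self_of_nhds
      rw [e1.fderiv_eq, hη, inner_smul_right, e1'] at e2
      have hc : c = 0 := by simpa using e2.symm
      funext i
      have e3 : (fun b => inner ℂ (δ i) (Γ.op D (σ b))) =ᶠ[𝓝 (fv x₀)] fun b => b i := by
        filter_upwards [hσf] with b hb
        exact congrFun hb i
      have e4 := fderiv_inner_const' (δ i) hγ.differentiableAt η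
      rw [e3.fderiv_eq, hη, hc, zero_smul, inner_zero_right] at e4
      have e5 : fderiv ℂ (fun b : Cm s => b i) (fv x₀) η = η i := by
        have : HasFDerivAt (fun b : Cm s => b i)
            (ContinuousLinearMap.proj (R := ℂ) (φ := fun _ : Fin s => ℂ) i) (fv x₀) :=
          (ContinuousLinearMap.proj (R := ℂ) (φ := fun _ : Fin s => ℂ) i).hasFDerivAt
        rw [this.fderiv]
        rfl
      rw [e5] at e4
      exact e4
  have hp := pair_of (f := fun i x => inner ℂ (δ i) (Γ.op D x)) hA hm hΓ hN hΦ h0 hg hl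
  have hpt : Tendsto (fun x => (x, σ (fv x))) (𝓝 x₀) (𝓝 (x₀, x₀)) := by
    refine tendsto_id.prodMk_nhds ?_
    exact hσt.comp hfa.continuousAt.tendsto
  refine ⟨⟨fv x₀, fun b => Γ.op D (σ b), fun b => D.t (σ b), fun _ => N, hγ, himm, ht',
    analyticAt_const, hN⟩, N, hN, fun _ => rfl, rfl, ?_, ?_, ?_⟩
  · filter_upwards [hpt.eventually hp, hfa.continuousAt.tendsto.eventually hσf] with x h1 h2
    exact (h1 fun i => (congrFun h2 i).symm).1.symm
  · obtain ⟨c, hc⟩ := hA.t_eq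
    filter_upwards [hpt.eventually hp, hfa.continuousAt.tendsto.eventually hσf, hc,
      (hσt.comp hfa.continuousAt.tendsto).eventually hc] with x h1 h2 h3 h4
    obtain ⟨y, hy⟩ := (h1 fun i => (congrFun h2 i).symm).2
    refine ⟨-y, ?_⟩
    show D.t x - D.t (σ (fv x)) = N (-y)
    have h5 : D.t (σ (fv x)) = tq (σ (fv x)) + c := h4
    rw [h3, h5, hy, map_neg]
    abel
  · intro κ
    have hΦd : HasFDerivAt Φ (fderiv ℂ Φ (x₀, 0)) (x₀, 0) := hΦ.differentiableAt.hasFDerivAt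
    have hinr : HasFDerivAt (fun y : Cm k => ((x₀, y) : Cm (q + r) × Cm k))
        (ContinuousLinearMap.inr ℂ (Cm (q + r)) (Cm k)) 0 := hasFDerivAt_prodMk_right x₀ 0
    have hcomp : HasFDerivAt (fun y : Cm k => Φ (x₀, y))
        ((fderiv ℂ Φ (x₀, 0)).comp (ContinuousLinearMap.inr ℂ (Cm (q + r)) (Cm k))) 0 :=
      hΦd.comp (0 : Cm k) hinr
    have hΦ0 : Φ (x₀, 0) = x₀ := h0.self_of_nhds
    have htd : Tendsto (fun y : Cm k => ((x₀, y) : Cm (q + r) × Cm k)) (𝓝 0) (𝓝 (x₀, 0)) :=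
      hinr.continuousAt.tendsto
    refine ⟨fderiv ℂ Φ (x₀, 0) (0, κ), fun i => ?_, ?_⟩
    · have h2 : NatFun D x₀ fun x => inner ℂ (δ i) (Γ.op D x) :=
        ⟨m, hm, H, inferInstance, inferInstance, inferInstance, Γ, δ i, hΓ,
          Eventually.of_forall fun x => rfl⟩
      have h3 : (fun y : Cm k => inner ℂ (δ i) (Γ.op D (Φ (x₀, y)))) =ᶠ[𝓝 0]
          fun _ => inner ℂ (δ i) (Γ.op D x₀) := htd.eventually (hg _ h2)
      have h4 : HasFDerivAt (fun x => inner ℂ (δ i) (Γ.op D x))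
          (fderiv ℂ (fun x => inner ℂ (δ i) (Γ.op D x)) x₀) (Φ (x₀, 0)) := by
        rw [hΦ0]
        exact (inner_an Γ (δ i) hA.an).differentiableAt.hasFDerivAt
      have h5 := h4.comp (0 : Cm k) hcomp
      have h6 : fderiv ℂ (fun y : Cm k => inner ℂ (δ i) (Γ.op D (Φ (x₀, y)))) 0 = 0 := by
        rw [h3.fderiv_eq]
        simp
      have h7 := congrArg (fun L : Cm k →L[ℂ] ℂ => L κ) (h5.fderiv.symm.trans h6)
      simpa using h7
    · have h3 : (fun y : Cm k => tqL q r (Φ (x₀, y))) =ᶠ[𝓝 0]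
          fun y => tqL q r x₀ + N y := htd.eventually ht
      have h5 := ((tqL q r).hasFDerivAt (x := Φ (x₀, 0))).comp (0 : Cm k) hcomp
      have h6 : HasFDerivAt (fun y : Cm k => tqL q r x₀ + N y) N 0 :=
        N.hasFDerivAt.const_add _
      have h7 := congrArg (fun L : Cm k →L[ℂ] Cm q => L κ)
        (h5.fderiv.symm.trans (h3.fderiv_eq.trans h6.fderiv))
      simpa [tqL_apply] using h7

end

end Vale.Agent.P284.H812.NSF
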