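import Vale.Agent.P284.H812.NSF2

/-!
# P284 (helper812), module NS (f), part 3: the leaf normal form on the covering
-/

open scoped Topology ContDiff
open Filter

noncomputable section

set_option linter.unusedSectionVars false

namespace Vale.Agent.P284.H812.NSF

open Vale.Agent.P272.K Vale.Agent.P284.H625 Vale.Agent.P284.H573 Vale.Agent.P284.H338
  Vale.Agent.P284.H395

section
variable {n q r s k m : ℕ} {X E : Type} [TopologicalSpace X] [ChartedSpace (Cm n) X]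
  [TopologicalSpace E] {p : E → X}
  {W H₁ H₂ H : Type} [NormedAddCommGroup W] [InnerProductSpace ℂ W] [CompleteSpace W]
  [NormedAddCommGroup H₁] [InnerProductSpace ℂ H₁] [CompleteSpace H₁]
  [NormedAddCommGroup H₂] [InnerProductSpace ℂ H₂] [CompleteSpace H₂]
  [NormedAddCommGroup H] [InnerProductSpace ℂ H] [CompleteSpace H]
  {t : E → Cm q} {V : E → Chart n X → Cm n [⋀^Fin (q + r + 1)]→L[ℂ] H₁}
  {W' : E → Chart n X → Cm n [⋀^Fin (q + r)]→L[ℂ] H₂}

/-- **LeafAt at a point of maximal rank with the package.** -/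
theorem leafAt_of (hp : IsLocalHomeomorph p) (hd : EDat p t V W') {y : E} {e : Chart n X}
    {b : Cm n → Cm (q + (r + 1))} {D : Dat q (q + (r + 1)) H₁ H₂} {F : Cm (q + (r + 1)) → W}
    (hb : BasicAt p t V W' y e b D) (hs : Function.Surjective (fderiv ℂ b (e (p y))))
    (hA : Adapted D F (b (e (p y)))) (hm : 1 ≤ m) {Γ : NatOp q (q + (r + 1)) H₁ H₂ m H}
    (hΓ : Nrm Γ) {δ : Fin s → H} (hI : Ind Γ δ D (b (e (p y))))
    (hiso : IsoPkgC q (r + 1) k s W (b (e (p y))) {g | NatFun D (b (e (p y))) g} F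
      fun i x => inner ℂ (δ i) (Γ.op D x)) :
    ∃ (L : LeafDat q s k H) (N : Cm k →L[ℂ] Cm q), Function.Injective N ∧ (∀ b, L.N b = N) ∧
      LeafAt m p (natv (k := q + r) Γ p t V W') t L y := by
  obtain ⟨L, N, hN, hLN, hL0, h1, h2, h3⟩ := leaf_loc hA hm hΓ hI hiso
  set x₀ := b (e (p y)) with hx₀
  set fv : Cm (q + (r + 1)) → Cm s := fun x i => inner ℂ (δ i) (Γ.op D x) with hfv
  have hfa : AnalyticAt ℂ fv x₀ := analyticAt_pi_iff.2 fun i => inner_an Γ (δ i) hA.an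
  have hfd : ∀ ξ i, fderiv ℂ fv x₀ ξ i = fderiv ℂ (fun x => inner ℂ (δ i) (Γ.op D x)) x₀ ξ := by
    intro ξ i
    have h1 := hasFDerivAt_pi'.1 hfa.differentiableAt.hasFDerivAt i
    rw [h1.fderiv]
    rfl
  have hfs : Function.Surjective (fderiv ℂ fv x₀) := by
    intro y
    obtain ⟨ξ, hξ⟩ := hI y
    exact ⟨ξ, funext fun i => (hfd ξ i).trans (hξ i)⟩
  have hbd : HasFDerivAt b (fderiv ℂ b (e (p y))) (e (p y)) := hb.ban.differentiableAt.hasFDerivAt
  have hβd : fderiv ℂ (fun z => fv (b z)) (e (p y)) =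
      (fderiv ℂ fv x₀).comp (fderiv ℂ b (e (p y))) :=
    (hfa.differentiableAt.hasFDerivAt.comp (e (p y)) hbd).fderiv
  have htd : fderiv ℂ (fun z => D.t (b z)) (e (p y)) =
      (fderiv ℂ D.t x₀).comp (fderiv ℂ b (e (p y))) :=
    (hA.an.1.differentiableAt.hasFDerivAt.comp (e (p y)) hbd).fderiv
  have hbt : Tendsto (fun y' => b (e (p y'))) (𝓝 y) (𝓝 x₀) :=
    hb.ban.continuousAt.tendsto.comp (tend_ep hp hb.mem)
  refine ⟨L, N, hN, hLN, e, b, fun z => fv (b z), fun z => D.t (b z), hb.mem, hb.ban, hs,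
    AnalyticAt.fun_comp (g := fv) hfa hb.ban, ?_, hL0.symm, hb.t_eq,
    AnalyticAt.fun_comp (g := D.t) hA.an.1 hb.ban, ?_, ?_, ?_⟩
  · rw [hβd]
    exact hfs.comp hs
  · filter_upwards [hb.near hp, hbt.eventually h1] with y' k1 k2 ξ
    rw [natv_basic hp hd Γ k1 ξ, k2]
    rfl
  · filter_upwards [hb.t_eq, hbt.eventually h2] with y' k1 k2
    obtain ⟨κ, hκ⟩ := k2
    refine ⟨κ, ?_⟩
    rw [k1, hLN]
    exact hκ.symm
  · intro x hx
    obtain ⟨κ, hκ⟩ := hx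
    rw [hLN] at hκ
    obtain ⟨ζ', hζ1, hζ2⟩ := h3 κ
    obtain ⟨ζ, hζ⟩ := hs ζ'
    refine ⟨ζ, ?_, ?_⟩
    · rw [hβd]
      show fderiv ℂ fv x₀ (fderiv ℂ b (e (p y)) ζ) = 0
      rw [hζ]
      funext i
      rw [hfd, hζ1]
      rfl
    · rw [htd]
      show fderiv ℂ D.t x₀ (fderiv ℂ b (e (p y)) ζ) = x
      rw [hζ]
      obtain ⟨c, hc⟩ := hA.t_eq
      have h4 : D.t =ᶠ[𝓝 x₀] fun x => tqL q (r + 1) x + c := hc
      have h5 : HasFDerivAt (fun x => tqL q (r + 1) x + c) (tqL q (r + 1)) x₀ :=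
        (tqL q (r + 1)).hasFDerivAt.add_const c
      rw [h4.fderiv_eq, h5.fderiv, tqL_apply, hζ2]
      exact hκ

end

end Vale.Agent.P284.H812.NSF
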