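import Vale.Agent.P284.H812.NSF3
import Vale.Agent.P284.H812.NSF4

/-!
# P284 (helper812), module NS (f), part 5: the rank criterion
-/

open scoped Topology ContDiff
open Filter

noncomputable section

set_option linter.unusedSectionVars false

namespace Vale.Agent.P284.H812.NSF

open Vale.Agent.P272.K Vale.Agent.P284.H625 Vale.Agent.P284.H573 Vale.Agent.P284.H338
  Vale.Agent.P284.H395

section
variable {q r m : ℕ} {H₁ H₂ H : Type} [NormedAddCommGroup H₁] [InnerProductSpace ℂ H₁]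
  [CompleteSpace H₁] [NormedAddCommGroup H₂] [InnerProductSpace ℂ H₂] [CompleteSpace H₂]
  [NormedAddCommGroup H] [InnerProductSpace ℂ H] [CompleteSpace H]

/-- among the differentials of the components of `Γ(D)` and the linear functions `τ ∈ 𝒯` of `t`, there
are `s` independent ones at `x` -/
def RkT (𝒯 : Submodule ℂ (Cm q →L[ℂ] ℂ)) (Γ : NatOp q (q + r) H₁ H₂ m H)
    (D : Dat q (q + r) H₁ H₂) (x : Cm (q + r)) (s : ℕ) : Prop :=
  ∃ (δ : Fin s → H) (τ : Fin s → (Cm q →L[ℂ] ℂ)), (∀ i, τ i ∈ 𝒯) ∧ ∀ y : Fin s → ℂ,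
    ∃ ξ : Cm (q + r), ∀ i, fderiv ℂ (fun x => inner ℂ (δ i) (Γ.op D x)) x ξ + τ i (tq ξ) = y i

theorem RkT.near {𝒯 : Submodule ℂ (Cm q →L[ℂ] ℂ)} {Γ : NatOp q (q + r) H₁ H₂ m H}
    {D : Dat q (q + r) H₁ H₂} {x : Cm (q + r)} {s : ℕ} (hD : D.An x) (h : RkT 𝒯 Γ D x s) :
    ∀ᶠ x' in 𝓝 x, RkT 𝒯 Γ D x' s := by
  obtain ⟨δ, τ, hτ, h⟩ := h
  have h1 := surj_near (P := Cm (q + r)) (p := x)
    (A := fun x' i => fderiv ℂ (fun x => inner ℂ (δ i) (Γ.op D x)) x' + (τ i).comp (tqL q r))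
    (fun i => ((inner_an Γ (δ i) hD).fderiv.continuousAt).add continuousAt_const) (fun y => by
      obtain ⟨ξ, hξ⟩ := h y
      exact ⟨ξ, fun i => hξ i⟩)
  filter_upwards [h1] with x' h2
  exact ⟨δ, τ, hτ, fun y => by
    obtain ⟨ξ, hξ⟩ := h2 y
    exact ⟨ξ, fun i => hξ i⟩⟩

theorem ind_iff {Γ : NatOp q (q + r) H₁ H₂ m H} {D : Dat q (q + r) H₁ H₂} {x : Cm (q + r)}
    {s : ℕ} : RkT ⊥ Γ D x s ↔ ∃ δ : Fin s → H, Ind Γ δ D x := by
  constructor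
  · rintro ⟨δ, τ, hτ, h⟩
    refine ⟨δ, fun y => ?_⟩
    obtain ⟨ξ, hξ⟩ := h y
    refine ⟨ξ, fun i => ?_⟩
    have := hξ i
    rwa [(Submodule.mem_bot ℂ).1 (hτ i), ContinuousLinearMap.zero_apply, add_zero] at this
  · rintro ⟨δ, h⟩
    refine ⟨δ, fun _ => 0, fun i => (Submodule.mem_bot ℂ).2 rfl, fun y => ?_⟩
    obtain ⟨ξ, hξ⟩ := h y
    exact ⟨ξ, fun i => by rw [ContinuousLinearMap.zero_apply, add_zero, hξ i]⟩

end

section
variable {n q : ℕ}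

/-- the row functionals -/
def Row (ft : Cm n → Cm q) (a c : Cm n → ℂ) (τ : Cm q →L[ℂ] ℂ) (z : Cm n) : Cm n →L[ℂ] ℂ :=
  a z • fderiv ℂ c z - c z • fderiv ℂ a z + (a z) ^ 2 • τ.comp (fderiv ℂ ft z)

/-- the critical functions -/
def crit {s R : ℕ} {H : Type} [NormedAddCommGroup H] [InnerProductSpace ℂ H]
    (G : Cm n → (Fin R → Cm n) → H) (ft : Cm n → Cm q) (ξ : Fin R → Cm n) (δ₀ : H)
    (δ : Fin s → H) (τ : Fin s → (Cm q →L[ℂ] ℂ)) (η : Fin s → Cm n) (z : Cm n) : ℂ :=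
  inner ℂ δ₀ (G z ξ) * (Matrix.of fun i j => Row ft (fun z => inner ℂ δ₀ (G z ξ))
    (fun z => inner ℂ (δ i) (G z ξ)) (τ i) z (η j)).det

theorem crit_an {s R : ℕ} {H : Type} [NormedAddCommGroup H] [InnerProductSpace ℂ H]
    {G : Cm n → (Fin R → Cm n) → H} {ft : Cm n → Cm q} {z : Cm n} (ξ : Fin R → Cm n)
    (hG : AnalyticAt ℂ (fun z => G z ξ) z) (hf : AnalyticAt ℂ ft z) (δ₀ : H)
    (δ : Fin s → H) (τ : Fin s → (Cm q →L[ℂ] ℂ)) (η : Fin s → Cm n) :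
    AnalyticAt ℂ (crit G ft ξ δ₀ δ τ η) z := by
  have ha : ∀ δ : H, AnalyticAt ℂ (fun z => inner ℂ δ (G z ξ)) z := fun δ =>
    ((innerSL ℂ δ).analyticAt _).comp_of_eq hG rfl
  refine (ha δ₀).mul ?_
  have hrow : ∀ i j, AnalyticAt ℂ (fun z => Row ft (fun z => inner ℂ δ₀ (G z ξ))
      (fun z => inner ℂ (δ i) (G z ξ)) (τ i) z (η j)) z := by
    intro i j
    have h1 : AnalyticAt ℂ (fun z => fderiv ℂ (fun z => inner ℂ (δ i) (G z ξ)) z (η j)) z :=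
      ((ContinuousLinearMap.apply ℂ ℂ (η j)).analyticAt _).comp_of_eq (ha (δ i)).fderiv rfl
    have h2 : AnalyticAt ℂ (fun z => fderiv ℂ (fun z => inner ℂ δ₀ (G z ξ)) z (η j)) z :=
      ((ContinuousLinearMap.apply ℂ ℂ (η j)).analyticAt _).comp_of_eq (ha δ₀).fderiv rfl
    have h3 : AnalyticAt ℂ (fun z => τ i (fderiv ℂ ft z (η j))) z :=
      (((τ i).comp (ContinuousLinearMap.apply ℂ (Cm q) (η j))).analyticAt _).comp_of_eq
        hf.fderiv rfl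
    exact (((ha δ₀).mul h1).sub ((ha (δ i)).mul h2)).add (((ha δ₀).pow 2).mul h3)
  have hdet : (fun z => (Matrix.of fun i j => Row ft (fun z => inner ℂ δ₀ (G z ξ))
      (fun z => inner ℂ (δ i) (G z ξ)) (τ i) z (η j)).det) = fun z =>
      ∑ σ : Equiv.Perm (Fin s), ((Equiv.Perm.sign σ : ℤ) : ℂ) * ∏ i,
        Row ft (fun z => inner ℂ δ₀ (G z ξ))
          (fun z => inner ℂ (δ (σ i)) (G z ξ)) (τ (σ i)) z (η i) := by
    funext z
    rw [Matrix.det_apply']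
    rfl
  rw [hdet]
  refine Finset.analyticAt_fun_sum _ fun σ _ => ?_
  exact analyticAt_const.mul (Finset.analyticAt_fun_prod _ fun i _ => hrow _ _)

/-- determinant nonzero implies surjectivity -/
theorem surj_of_det {s : ℕ} {V : Type*} [AddCommGroup V] [Module ℂ V] {A : Fin s → V →ₗ[ℂ] ℂ}
    {η : Fin s → V} (h : (Matrix.of fun i j => A i (η j)).det ≠ 0) (y : Fin s → ℂ) :
    ∃ v : V, ∀ i, A i v = y i := by
  set M : Matrix (Fin s) (Fin s) ℂ := Matrix.of fun i j => A i (η j) with hM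
  have hu : IsUnit M.det := isUnit_iff_ne_zero.2 h
  refine ⟨∑ j, (M⁻¹.mulVec y) j • η j, fun i => ?_⟩
  have h3 : M.mulVec (M⁻¹.mulVec y) = y := by
    rw [Matrix.mulVec_mulVec, Matrix.mul_nonsing_inv _ hu, Matrix.one_mulVec]
  have h4 := congrFun h3 i
  rw [map_sum]
  simp only [map_smul, smul_eq_mul]
  rw [← h4]
  simp only [Matrix.mulVec, dotProduct, hM, Matrix.of_apply]
  exact Finset.sum_congr rfl fun j _ => mul_comm _ _

end

section
variable {n q r m s : ℕ} {H₁ H₂ H : Type} [NormedAddCommGroup H₁] [InnerProductSpace ℂ H₁]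
  [CompleteSpace H₁] [NormedAddCommGroup H₂] [InnerProductSpace ℂ H₂] [CompleteSpace H₂]
  [NormedAddCommGroup H] [InnerProductSpace ℂ H] [CompleteSpace H]

/-- local representation of the section and of `t` by an adapted datum -/
structure LR (Γ : NatOp q (q + r) H₁ H₂ m H) (D : Dat q (q + r) H₁ H₂)
    (b : Cm n → Cm (q + r)) (G : Cm n → (Fin (q + r) → Cm n) → H) (ft : Cm n → Cm q)
    (z : Cm n) : Prop where
  ban : AnalyticAt ℂ b z
  bsurj : Function.Surjective (fderiv ℂ b z)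
  An : D.An (b z)
  t_eq : ∃ c : Cm q, ∀ᶠ z' in 𝓝 z, ft z' = tq (b z') + c
  G_eq : ∀ᶠ z' in 𝓝 z, ∀ ξ, G z' ξ = (dm b z' ξ).det ^ m • Γ.op D (b z')

/-- the determinant of the frame is differentiable -/
theorem dm_diff {R : ℕ} {b : Cm n → Cm R} {z : Cm n} (hb : AnalyticAt ℂ b z) (ξ : Fin R → Cm n) :
    DifferentiableAt ℂ (fun z' => (dm b z' ξ).det ^ m) z := by
  have h1 : ∀ i j, AnalyticAt ℂ (fun z' => fderiv ℂ b z' (ξ j) i) z := fun i j =>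
    (((ContinuousLinearMap.proj (R := ℂ) (φ := fun _ : Fin R => ℂ) i).comp
      (ContinuousLinearMap.apply ℂ (Cm R) (ξ j))).analyticAt _).comp_of_eq hb.fderiv rfl
  have hdet : (fun z' => (dm b z' ξ).det) = fun z' =>
      ∑ σ : Equiv.Perm (Fin R), ((Equiv.Perm.sign σ : ℤ) : ℂ) * ∏ i,
        fderiv ℂ b z' (ξ i) (σ i) := by
    funext z
    rw [Matrix.det_apply']
    rfl
  have h2 : AnalyticAt ℂ (fun z' => (dm b z' ξ).det) z := by
    rw [hdet]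
    refine Finset.analyticAt_fun_sum _ fun σ _ => ?_
    exact analyticAt_const.mul (Finset.analyticAt_fun_prod _ fun i _ => h1 _ _)
  exact (h2.pow m).differentiableAt

/-- the rows in terms of the datum -/
theorem LR.row {Γ : NatOp q (q + r) H₁ H₂ m H} {D : Dat q (q + r) H₁ H₂}
    {b : Cm n → Cm (q + r)} {G : Cm n → (Fin (q + r) → Cm n) → H} {ft : Cm n → Cm q} {z : Cm n}
    (h : LR Γ D b G ft z) (ξ : Fin (q + r) → Cm n) (δ₀ δ : H) (τ : Cm q →L[ℂ] ℂ) (v : Cm n) :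
    Row ft (fun z => inner ℂ δ₀ (G z ξ)) (fun z => inner ℂ δ (G z ξ)) τ z v =
      ((dm b z ξ).det ^ m) ^ 2 *
        (inner ℂ δ₀ (Γ.op D (b z)) *
            fderiv ℂ (fun x => inner ℂ δ (Γ.op D x)) (b z) (fderiv ℂ b z v) -
          inner ℂ δ (Γ.op D (b z)) *
            fderiv ℂ (fun x => inner ℂ δ₀ (Γ.op D x)) (b z) (fderiv ℂ b z v) +
          (inner ℂ δ₀ (Γ.op D (b z))) ^ 2 * τ (tq (fderiv ℂ b z v))) := by
  set u : Cm n → ℂ := fun z' => (dm b z' ξ).det ^ m with hu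
  have hud : HasFDerivAt u (fderiv ℂ u z) z := (dm_diff h.ban ξ).hasFDerivAt
  have hbd : HasFDerivAt b (fderiv ℂ b z) z := h.ban.differentiableAt.hasFDerivAt
  have key : ∀ δ : H, HasFDerivAt (fun z => inner ℂ δ (G z ξ))
      (u z • (fderiv ℂ (fun x => inner ℂ δ (Γ.op D x)) (b z)).comp (fderiv ℂ b z) +
        inner ℂ δ (Γ.op D (b z)) • fderiv ℂ u z) z := by
    intro δ
    have h1 : HasFDerivAt (fun x => inner ℂ δ (Γ.op D x))
        (fderiv ℂ (fun x => inner ℂ δ (Γ.op D x)) (b z)) (b z) :=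
      (inner_an Γ δ h.An).differentiableAt.hasFDerivAt
    have h2 := hud.mul (h1.comp z hbd)
    refine h2.congr_of_eventuallyEq ?_
    filter_upwards [h.G_eq] with z' hz'
    rw [hz' ξ, inner_smul_right]
    rfl
  have hval : ∀ δ : H, inner ℂ δ (G z ξ) = u z * inner ℂ δ (Γ.op D (b z)) := by
    intro δ
    rw [h.G_eq.self_of_nhds ξ, inner_smul_right]
  have hft : HasFDerivAt ft ((tqL q r).comp (fderiv ℂ b z)) z := by
    obtain ⟨c, hc⟩ := h.t_eq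
    have h2 := (((tqL q r).hasFDerivAt (x := b z)).comp z hbd).add_const c
    exact h2.congr_of_eventuallyEq hc
  have e1 : Row ft (fun z => inner ℂ δ₀ (G z ξ)) (fun z => inner ℂ δ (G z ξ)) τ z v =
      inner ℂ δ₀ (G z ξ) * fderiv ℂ (fun z => inner ℂ δ (G z ξ)) z v -
      inner ℂ δ (G z ξ) * fderiv ℂ (fun z => inner ℂ δ₀ (G z ξ)) z v +
      (inner ℂ δ₀ (G z ξ)) ^ 2 * τ (fderiv ℂ ft z v) := rfl
  rw [e1, (key δ).fderiv, (key δ₀).fderiv, hft.fderiv, hval δ, hval δ₀]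
  have e2 : ((tqL q r).comp (fderiv ℂ b z)) v = tq (fderiv ℂ b z v) := rfl
  rw [e2]
  simp only [ContinuousLinearMap.add_apply, ContinuousLinearMap.smul_apply, smul_eq_mul,
    ContinuousLinearMap.comp_apply]
  ring

/-- **rank implies a nonzero critical function** -/
theorem crit_of_rk {Γ : NatOp q (q + r) H₁ H₂ m H} (hΓ : Nrm Γ) {D : Dat q (q + r) H₁ H₂}
    {b : Cm n → Cm (q + r)} {G : Cm n → (Fin (q + r) → Cm n) → H} {ft : Cm n → Cm q} {z : Cm n}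
    (h : LR Γ D b G ft z) (h1 : ∃ ε : H₁, ∀ᶠ x in 𝓝 (b z), inner ℂ ε (D.v x) = 1)
    {𝒯 : Submodule ℂ (Cm q →L[ℂ] ℂ)} (hr : RkT 𝒯 Γ D (b z) s) :
    ∃ (ξ : Fin (q + r) → Cm n) (δ₀ : H) (δ : Fin s → H) (τ : Fin s → (Cm q →L[ℂ] ℂ))
      (η : Fin s → Cm n), (∀ i, τ i ∈ 𝒯) ∧ crit G ft ξ δ₀ δ τ η z ≠ 0 := by
  obtain ⟨δ, τ, hτ, hs⟩ := hr
  obtain ⟨δ₀, hδ₀⟩ := hΓ.one h.An h1
  choose ξ hξ using fun j : Fin (q + r) => h.bsurj (Pi.single j 1)
  choose ζ hζ using fun j : Fin s => hs (Pi.single j 1)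
  choose η hη using fun j : Fin s => h.bsurj (ζ j)
  have hdm : dm b z ξ = 1 := by
    ext i j
    simp only [dm, Matrix.of_apply, hξ, Matrix.one_apply, Pi.single_apply]
  have hδ₀' : inner ℂ δ₀ (Γ.op D (b z)) = 1 := hδ₀.self_of_nhds
  have hd0 : ∀ v, fderiv ℂ (fun x => inner ℂ δ₀ (Γ.op D x)) (b z) v = 0 := by
    intro v
    have : (fun x => inner ℂ δ₀ (Γ.op D x)) =ᶠ[𝓝 (b z)] fun _ => (1 : ℂ) := hδ₀
    rw [this.fderiv_eq]
    simp
  refine ⟨ξ, δ₀, δ, τ, η, hτ, ?_⟩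
  have hM : (Matrix.of fun i j => Row ft (fun z => inner ℂ δ₀ (G z ξ))
      (fun z => inner ℂ (δ i) (G z ξ)) (τ i) z (η j)) = 1 := by
    ext i j
    rw [Matrix.of_apply, h.row, hdm, hδ₀', hd0, hη]
    have := hζ j i
    simp only [Matrix.det_one, one_pow, one_mul, mul_zero, sub_zero]
    rw [this, Matrix.one_apply, Pi.single_apply]
  unfold crit
  rw [hM, Matrix.det_one, mul_one, h.G_eq.self_of_nhds ξ, inner_smul_right, hdm, hδ₀']
  simp

/-- **a nonzero critical function gives the rank** -/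
theorem rk_of_crit {Γ : NatOp q (q + r) H₁ H₂ m H} {D : Dat q (q + r) H₁ H₂}
    {b : Cm n → Cm (q + r)} {G : Cm n → (Fin (q + r) → Cm n) → H} {ft : Cm n → Cm q} {z : Cm n}
    (h : LR Γ D b G ft z) {𝒯 : Submodule ℂ (Cm q →L[ℂ] ℂ)} {ξ : Fin (q + r) → Cm n} {δ₀ : H}
    {δ : Fin s → H} {τ : Fin s → (Cm q →L[ℂ] ℂ)} {η : Fin s → Cm n} (hτ : ∀ i, τ i ∈ 𝒯)
    (hc : crit G ft ξ δ₀ δ τ η z ≠ 0) : RkT 𝒯 Γ D (b z) s := by
  have hdet := right_ne_zero_of_mul hc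
  have hud : (dm b z ξ).det ^ m ≠ 0 := by
    intro h0
    apply left_ne_zero_of_mul hc
    rw [h.G_eq.self_of_nhds ξ, inner_smul_right, h0, zero_mul]
  have hd := (Γ.anAt h.An).differentiableAt
  set g₀ : ℂ := inner ℂ δ₀ (Γ.op D (b z)) with hg₀
  refine ⟨fun i => (starRingEnd ℂ g₀) • δ i - (starRingEnd ℂ (inner ℂ (δ i) (Γ.op D (b z)))) • δ₀,
    fun i => g₀ ^ 2 • τ i, fun i => 𝒯.smul_mem _ (hτ i), fun y => ?_⟩
  have hsurj := surj_of_det (A := fun i => (Row ft (fun z => inner ℂ δ₀ (G z ξ))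
      (fun z => inner ℂ (δ i) (G z ξ)) (τ i) z : Cm n →ₗ[ℂ] ℂ)) hdet
      (fun i => ((dm b z ξ).det ^ m) ^ 2 * y i)
  obtain ⟨v, hv⟩ := hsurj
  refine ⟨fderiv ℂ b z v, fun i => ?_⟩
  have h1 := (h.row ξ δ₀ (δ i) (τ i) v).symm.trans (hv i)
  have h2 := mul_left_cancel₀ (pow_ne_zero 2 hud) h1
  rw [← h2, fderiv_inner_const' _ hd, fderiv_inner_const' _ hd, fderiv_inner_const' _ hd,
    inner_sub_left, inner_smul_left, inner_smul_left, starRingEnd_self_apply,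
    starRingEnd_self_apply]
  rfl

end

end Vale.Agent.P284.H812.NSF
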