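import Vale.Agent.P284.H812.NSF5
import Vale.Agent.P284.H221.Rk

/-!
# P284 (helper812), module NS (f), part 6: the rank on the covering
-/

open scoped Manifold Topology ContDiff
open Filter

noncomputable section

set_option linter.unusedSectionVars false

namespace Vale.Agent.P284.H812.NSF

open Vale.Agent.P272.K Vale.Agent.P284.H625 Vale.Agent.P284.H573 Vale.Agent.P284.H338
  Vale.Agent.P284.H395

section
variable {n q r m s : ℕ} {X E : Type} [TopologicalSpace X] [ChartedSpace (Cm n) X]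
  [TopologicalSpace E] {p : E → X}
  {W H₁ H₂ H : Type} [NormedAddCommGroup W] [InnerProductSpace ℂ W] [CompleteSpace W]
  [NormedAddCommGroup H₁] [InnerProductSpace ℂ H₁] [CompleteSpace H₁]
  [NormedAddCommGroup H₂] [InnerProductSpace ℂ H₂] [CompleteSpace H₂]
  [NormedAddCommGroup H] [InnerProductSpace ℂ H] [CompleteSpace H]
  {t : E → Cm q} {V : E → Chart n X → Cm n [⋀^Fin (q + r + 1)]→L[ℂ] H₁}
  {W' : E → Chart n X → Cm n [⋀^Fin (q + r)]→L[ℂ] H₂}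

/-- A class of adapted charts, stable under moving the point. -/
structure Cls (p : E → X) (t : E → Cm q) (V : E → Chart n X → Cm n [⋀^Fin (q + r + 1)]→L[ℂ] H₁)
    (W' : E → Chart n X → Cm n [⋀^Fin (q + r)]→L[ℂ] H₂)
    (Cl : E → Chart n X → (Cm n → Cm (q + (r + 1))) → Dat q (q + (r + 1)) H₁ H₂ →
      (Cm (q + (r + 1)) → W) → Prop) : Prop where
  basic : ∀ {y e b D F}, Cl y e b D F → BasicAt (k := q + r) p t V W' y e b D
  surj : ∀ {y e b D F}, Cl y e b D F → Function.Surjective (fderiv ℂ b (e (p y)))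
  ada : ∀ {y e b D F}, Cl y e b D F → Adapted D F (b (e (p y)))
  near : ∀ {y e b D F}, Cl y e b D F → ∀ᶠ y' in 𝓝 y, Cl y' e b D F

/-- the points with an adapted chart -/
def Ad (Cl : E → Chart n X → (Cm n → Cm (q + (r + 1))) → Dat q (q + (r + 1)) H₁ H₂ →
      (Cm (q + (r + 1)) → W) → Prop) : Set E :=
  {y | ∃ e b D F, Cl y e b D F}

/-- the points of `Ad` where `Γ` has rank at least `s` relative to `𝒯` -/
def GdT (p : E → X) (Cl : E → Chart n X → (Cm n → Cm (q + (r + 1))) →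
      Dat q (q + (r + 1)) H₁ H₂ → (Cm (q + (r + 1)) → W) → Prop)
    (𝒯 : Submodule ℂ (Cm q →L[ℂ] ℂ)) (Γ : NatOp q (q + (r + 1)) H₁ H₂ m H) (s : ℕ) : Set E :=
  {y | y ∈ Ad Cl ∧ ∀ e b D F, Cl y e b D F → RkT 𝒯 Γ D (b (e (p y))) s}

/-- the image of a neighbourhood under `b ∘ e ∘ p` -/
theorem img_near (hp : IsLocalHomeomorph p) {y : E} {e : Chart n X} (he : At e (p y)) {R : ℕ}
    {b : Cm n → Cm R} (hb : AnalyticAt ℂ b (e (p y)))
    (hs : Function.Surjective (fderiv ℂ b (e (p y)))) {P : E → Prop} (hP : ∀ᶠ y' in 𝓝 y, P y') :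
    ∀ᶠ x in 𝓝 (b (e (p y))), ∃ y', P y' ∧ b (e (p y')) = x := by
  have h1 : Filter.map b (𝓝 (e (p y))) = 𝓝 (b (e (p y))) :=
    hb.hasStrictFDerivAt.map_nhds_eq_of_surj (LinearMap.range_eq_top.2 hs)
  have h2 : Filter.map (fun y' => b (e (p y'))) (𝓝 y) = 𝓝 (b (e (p y))) := by
    rw [← h1, ← map_ep hp he, Filter.map_map]
    rfl
  rw [← h2]
  have h3 : (fun y' => b (e (p y'))) '' {y' | P y'} ∈
      Filter.map (fun y' => b (e (p y'))) (𝓝 y) := Filter.image_mem_map hP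
  filter_upwards [h3] with x hx
  obtain ⟨y', h4, h5⟩ := hx
  exact ⟨y', h4, h5⟩

variable [IsManifold 𝓘(ℂ, Cm n) ω X]

/-- the local representation at a basic point, in any chart -/
theorem lr_of (hp : IsLocalHomeomorph p) (hd : EDat p t V W')
    (Γ : NatOp q (q + (r + 1)) H₁ H₂ m H) {y : E} {e e₁ : Chart n X} (he : At e (p y))
    {b : Cm n → Cm (q + (r + 1))} {D : Dat q (q + (r + 1)) H₁ H₂} {F : Cm (q + (r + 1)) → W}
    (hb : BasicAt (k := q + r) p t V W' y e₁ b D)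
    (hs : Function.Surjective (fderiv ℂ b (e₁ (p y))))
    (hA : Adapted D F (b (e₁ (p y)))) {ft : Cm n → Cm q}
    {fV : Cm n → Cm n [⋀^Fin (q + r + 1)]→L[ℂ] H₁} {fW : Cm n → Cm n [⋀^Fin (q + r)]→L[ℂ] H₂}
    (ht : Rep p e y ft t) (hV : Rep p e y fV fun y' => V y' e)
    (hW : Rep p e y fW fun y' => W' y' e) :
    LR Γ D (fun z => b (e₁ (e.symm z))) (fun z ξ => Γ.op (asl (k := q + r) ft fV fW z ξ) 0) ft
      (e (p y)) := by
  have hb' := hb.chart hp hd.hV hd.hW he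
  have e1 : e₁ (e.symm (e (p y))) = e₁ (p y) := by rw [e.left_inv he.2]
  refine ⟨hb'.ban, ?_, hb'.Dan, ?_, ?_⟩
  · have h5 := fderiv_fun_comp (𝕜 := ℂ) (g := b) (f := fun z => e₁ (e.symm z)) (e (p y))
      (by rw [e1]; exact hb.ban.differentiableAt) (transition_differentiableAt he hb.mem)
    rw [h5, e1]
    exact hs.comp (H221.transition_surjective he hb.mem)
  · obtain ⟨c, hc⟩ := hA.t_eq
    refine ⟨c, (ev_iff hp he).1 ?_⟩
    have hbt : Tendsto (fun y' => b (e₁ (p y'))) (𝓝 y) (𝓝 (b (e₁ (p y)))) :=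
      hb.ban.continuousAt.tendsto.comp (tend_ep hp hb.mem)
    filter_upwards [ht.eq, hb.t_eq, hbt.eventually hc, at_near hp he] with y' h1 h2 h3 h4
    rw [e.left_inv h4.2, ← h1, h2, h3]
  · refine (ev_iff hp he).1 ?_
    filter_upwards [hb'.near hp, ht.near hp he, hV.near hp he, hW.near hp he,
      at_near hp he] with y' h1 h2 h3 h4 h5 ξ
    rw [← natv_basic hp hd Γ h1 ξ, natv_eq hp Γ h5 h2 h3 h4]

variable {Cl : E → Chart n X → (Cm n → Cm (q + (r + 1))) → Dat q (q + (r + 1)) H₁ H₂ →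
      (Cm (q + (r + 1)) → W) → Prop}

/-- the rank does not depend on the adapted chart -/
theorem rk_indep (hp : IsLocalHomeomorph p) (hd : EDat p t V W') (hc : Cls p t V W' Cl)
    {Γ : NatOp q (q + (r + 1)) H₁ H₂ m H} (hΓ : Nrm Γ) {𝒯 : Submodule ℂ (Cm q →L[ℂ] ℂ)}
    {y : E} {e e' : Chart n X} {b b' : Cm n → Cm (q + (r + 1))}
    {D D' : Dat q (q + (r + 1)) H₁ H₂} {F F' : Cm (q + (r + 1)) → W} (h : Cl y e b D F)
    (h' : Cl y e' b' D' F') (hr : RkT 𝒯 Γ D (b (e (p y))) s) :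
    RkT 𝒯 Γ D' (b' (e' (p y))) s := by
  have he := (hc.basic h).mem
  obtain ⟨ft, ht⟩ := hd.ht y e he
  obtain ⟨fV, hV⟩ := hd.hV.holo y e he
  obtain ⟨fW, hW⟩ := hd.hW.holo y e he
  have h1 := lr_of hp hd Γ he (hc.basic h) (hc.surj h) (hc.ada h) ht hV hW
  have h2 := lr_of hp hd Γ he (hc.basic h') (hc.surj h') (hc.ada h') ht hV hW
  have e1 : e.symm (e (p y)) = p y := e.left_inv he.2
  obtain ⟨ξ, δ₀, δ, τ, η, hτ, hcr⟩ := crit_of_rk hΓ h1 (by
    simp only [e1]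
    exact (hc.ada h).one) (by simp only [e1]; exact hr)
  have h3 := rk_of_crit h2 hτ hcr
  simp only [e1] at h3
  exact h3

/-- **thin complement of the set of points of given rank** -/
theorem thin_gd [PreconnectedSpace E] (hp : IsLocalHomeomorph p) (hd : EDat p t V W')
    (hc : Cls p t V W' Cl) (hA : ThinC (n := n) p (Ad Cl)) {Γ : NatOp q (q + (r + 1)) H₁ H₂ m H}
    (hΓ : Nrm Γ) {𝒯 : Submodule ℂ (Cm q →L[ℂ] ℂ)} (hne : (GdT p Cl 𝒯 Γ s).Nonempty) :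
    ThinC (n := n) p (GdT p Cl 𝒯 Γ s) := by
  refine thin_prop hp hA hne fun y e he => ?_
  obtain ⟨ft, ht⟩ := hd.ht y e he
  obtain ⟨fV, hV⟩ := hd.hV.holo y e he
  obtain ⟨fW, hW⟩ := hd.hW.holo y e he
  obtain ⟨ρ, hρ, hB⟩ := Metric.eventually_nhds_iff_ball.1
    ((ht.an.eventually_analyticAt.and hV.an.eventually_analyticAt).and
      hW.an.eventually_analyticAt)
  set G : Cm n → (Fin (q + (r + 1)) → Cm n) → H :=
    fun z ξ => Γ.op (asl (k := q + r) ft fV fW z ξ) 0 with hG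
  refine ⟨{h | ∃ (ξ : Fin (q + (r + 1)) → Cm n) (δ₀ : H) (δ : Fin s → H)
    (τ : Fin s → (Cm q →L[ℂ] ℂ)) (η : Fin s → Cm n), (∀ i, τ i ∈ 𝒯) ∧
      h = crit G ft ξ δ₀ δ τ η}, ρ, hρ, ?_, ?_⟩
  · rintro h ⟨ξ, δ₀, δ, τ, η, hτ, rfl⟩ z hz
    obtain ⟨⟨k1, k2⟩, k3⟩ := hB z hz
    refine crit_an ξ ?_ k1 δ₀ δ τ η
    have h1 := op_asl_an (k := q + r) Γ k1 k2 k3 ξ
    have hs : AnalyticAt ℂ (fun z : Cm n => ((z, ξ) : Cm n × (Fin (q + r + 1) → Cm n))) z :=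
      analyticAt_id.prod analyticAt_const
    exact AnalyticAt.fun_comp (f := fun z : Cm n => ((z, ξ) : Cm n × (Fin (q + r + 1) → Cm n)))
      (g := fun a : Cm n × (Fin (q + r + 1) → Cm n) =>
        Γ.op (asl (k := q + r) ft fV fW a.1 a.2) 0) h1 hs
  · filter_upwards [ht.near hp he, hV.near hp he, hW.near hp he, at_near hp he] with
      y' k1 k2 k3 k4
    have e1 : e.symm (e (p y')) = p y' := e.left_inv k4.2
    refine ⟨fun hy' => ?_, fun hy' hh => ⟨hy', fun e₁ b D F hcl => ?_⟩⟩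
    · obtain ⟨⟨e₁, b, D, F, hcl⟩, hall⟩ := hy'
      have h1 := lr_of hp hd Γ k4 (hc.basic hcl) (hc.surj hcl) (hc.ada hcl) k1 k2 k3
      obtain ⟨ξ, δ₀, δ, τ, η, hτ, hcr⟩ := crit_of_rk (s := s) (𝒯 := 𝒯) hΓ h1 (by
        simp only [e1]
        exact (hc.ada hcl).one) (by simp only [e1]; exact hall e₁ b D F hcl)
      exact ⟨_, ⟨ξ, δ₀, δ, τ, η, hτ, rfl⟩, hcr⟩
    · obtain ⟨h, ⟨ξ, δ₀, δ, τ, η, hτ, rfl⟩, hcr⟩ := hh
      have h1 := lr_of hp hd Γ k4 (hc.basic hcl) (hc.surj hcl) (hc.ada hcl) k1 k2 k3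
      have h3 := rk_of_crit h1 hτ hcr
      simp only [e1] at h3
      exact h3

/-- the set of points of given rank is open -/
theorem open_gd (hp : IsLocalHomeomorph p) (hd : EDat p t V W') (hc : Cls p t V W' Cl)
    {Γ : NatOp q (q + (r + 1)) H₁ H₂ m H} (hΓ : Nrm Γ) {𝒯 : Submodule ℂ (Cm q →L[ℂ] ℂ)} :
    IsOpen (GdT p Cl 𝒯 Γ s) := by
  refine isOpen_iff_mem_nhds.2 fun y hy => ?_
  obtain ⟨⟨e, b, D, F, hcl⟩, hall⟩ := hy
  have hbt : Tendsto (fun y' => b (e (p y'))) (𝓝 y) (𝓝 (b (e (p y)))) :=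
    (hc.basic hcl).ban.continuousAt.tendsto.comp (tend_ep hp (hc.basic hcl).mem)
  filter_upwards [hc.near hcl, hbt.eventually ((hall e b D F hcl).near (hc.basic hcl).Dan)]
    with y' h1 h2
  exact ⟨⟨e, b, D, F, h1⟩, fun e' b' D' F' h3 => rk_indep hp hd hc hΓ h1 h3 h2⟩

theorem mem_gd (hp : IsLocalHomeomorph p) (hd : EDat p t V W') (hc : Cls p t V W' Cl)
    {Γ : NatOp q (q + (r + 1)) H₁ H₂ m H} (hΓ : Nrm Γ) {𝒯 : Submodule ℂ (Cm q →L[ℂ] ℂ)}
    {y : E} {e : Chart n X} {b : Cm n → Cm (q + (r + 1))}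
    {D : Dat q (q + (r + 1)) H₁ H₂} {F : Cm (q + (r + 1)) → W} (h : Cl y e b D F)
    (hr : RkT 𝒯 Γ D (b (e (p y))) s) : y ∈ GdT p Cl 𝒯 Γ s :=
  ⟨⟨e, b, D, F, h⟩, fun _ _ _ _ h' => rk_indep hp hd hc hΓ h h' hr⟩

end

end Vale.Agent.P284.H812.NSF
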