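import Vale.Agent.P284.H812.NSF2
import Vale.Agent.P284.H338.EDatS
import Vale.Agent.P284.H338.EAct

/-!
# P284 (helper812), module NS (f), part 7: the sheet property up to scalars, in adapted coordinates
-/

open scoped Topology ContDiff
open Filter

noncomputable section

set_option linter.unusedSectionVars false

namespace Vale.Agent.P284.H812.NSF

open Vale.Agent.P272.K Vale.Agent.P284.H625 Vale.Agent.P284.H573 Vale.Agent.P284.H338
  Vale.Agent.P284.H501

/-- the analytic local inverse -/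
theorem exists_inv {V : Type*} [NormedAddCommGroup V] [NormedSpace ℂ V] [CompleteSpace V]
    {f : V → V} {x₀ : V} (hf : AnalyticAt ℂ f x₀) (T : V ≃L[ℂ] V)
    (hT : fderiv ℂ f x₀ = (T : V →L[ℂ] V)) :
    ∃ g : V → V, AnalyticAt ℂ g (f x₀) ∧ g (f x₀) = x₀ ∧ (∀ᶠ x in 𝓝 x₀, g (f x) = x) ∧
      ∀ᶠ y in 𝓝 (f x₀), f (g y) = y := by
  have hd : HasFDerivAt f (T : V →L[ℂ] V) x₀ := by
    rw [← hT]
    exact hf.differentiableAt.hasFDerivAt
  have hn : (ω : WithTop ℕ∞) ≠ 0 := by simp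
  set Q := hf.contDiffAt.toOpenPartialHomeomorph f hd hn with hQ
  have hQs : x₀ ∈ Q.source := ContDiffAt.mem_toOpenPartialHomeomorph_source hf.contDiffAt hd hn
  have hQt : f x₀ ∈ Q.target :=
    ContDiffAt.image_mem_toOpenPartialHomeomorph_target hf.contDiffAt hd hn
  have hQa : AnalyticAt ℂ Q.symm (f x₀) := by
    have : ContDiffAt ℂ ω Q.symm (f x₀) := hf.contDiffAt.to_localInverse hd hn
    exact this.analyticAt
  refine ⟨Q.symm, hQa, Q.left_inv hQs, ?_, ?_⟩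
  · filter_upwards [Q.open_source.mem_nhds hQs] with x hx
    exact Q.left_inv hx
  · filter_upwards [Q.open_target.mem_nhds hQt] with y hy
    exact Q.right_inv hy

section
variable {q r : ℕ} {W T₁ T₀ : Type} [NormedAddCommGroup W] [InnerProductSpace ℂ W]
  [CompleteSpace W] [NormedAddCommGroup T₁] [InnerProductSpace ℂ T₁] [CompleteSpace T₁]
  [NormedAddCommGroup T₀] [InnerProductSpace ℂ T₀] [CompleteSpace T₀]
  {S₁ : TPow W T₁ (r + 1)} {S₀ : TPow W T₀ r}

theorem fderiv_dual {F : Cm (q + (r + 1)) → W} {x : Cm (q + (r + 1))} (hF : AnalyticAt ℂ F x)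
    {f : Fin (r + 1) → W} (hd : ∀ᶠ x' in 𝓝 x, ∀ a, inner ℂ (f a) (F x') = x' (Fin.natAdd q a))
    (a : Fin (r + 1)) (v : Cm (q + (r + 1))) :
    inner ℂ (f a) (fderiv ℂ F x v) = v (Fin.natAdd q a) := by
  have h3 : (fun x => inner ℂ (f a) (F x)) =ᶠ[𝓝 x] fun x => x (Fin.natAdd q a) := by
    filter_upwards [hd] with x' hx'
    exact hx' a
  rw [← fderiv_inner_const' (f a) hF.differentiableAt, h3.fderiv_eq]
  have h5 : fderiv ℂ (fun x : Cm (q + (r + 1)) => x (Fin.natAdd q a)) x =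
      ContinuousLinearMap.proj (R := ℂ) (φ := fun _ : Fin (q + (r + 1)) => ℂ) (Fin.natAdd q a) :=
    (ContinuousLinearMap.proj (R := ℂ) (φ := fun _ : Fin (q + (r + 1)) => ℂ)
      (Fin.natAdd q a)).hasFDerivAt.fderiv
  rw [h5]
  rfl

variable (S₁ S₀) in
/-- the exterior model is adapted -/
theorem exD_adC {F : Cm (q + (r + 1)) → W} {x₀ : Cm (q + (r + 1))} (hF : AnalyticAt ℂ F x₀)
    {f : Fin (r + 1) → W}
    (hd : ∀ᶠ x in 𝓝 x₀, ∀ a, inner ℂ (f a) (F x) = x (Fin.natAdd q a)) :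
    AdC (exD q r S₁ S₀ F) F x₀ (S₁.μ f)
      (fun a => ((-1 : ℂ) ^ (q + (a : ℕ))) • S₀.μ (f ∘ a.succAbove))
      (fun a h => S₁.μ (Function.update f a h)) := by
  refine adC_of S₁ S₀ (exD_an hF) ⟨0, Eventually.of_forall fun x => (add_zero _).symm⟩ hF f ?_
      (Eventually.of_forall fun _ => rfl) (Eventually.of_forall fun _ _ => rfl)
  filter_upwards [hd.eventually_nhds, hF.eventually_analyticAt] with x h1 h2 a c
  rw [fderiv_dual h2 h1]
  simp [Pi.single_apply]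

/-- naturality of the exterior model -/
theorem exD_pull {F : Cm (q + (r + 1)) → W} {κ : Cm (q + (r + 1)) → Cm (q + (r + 1))}
    {x : Cm (q + (r + 1))} (hF : AnalyticAt ℂ F (κ x)) (hκ : AnalyticAt ℂ κ x)
    (ht : ∀ᶠ x' in 𝓝 x, tq (κ x') = tq x') :
    (exD q r S₁ S₀ fun x => F (κ x)).Eqv ((exD q r S₁ S₀ F).pull κ) x := by
  have hd : ∀ᶠ x' in 𝓝 x, fderiv ℂ (fun x => F (κ x)) x' =
      (fderiv ℂ F (κ x')).comp (fderiv ℂ κ x') ∧
      tqL q (r + 1) = (tqL q (r + 1)).comp (fderiv ℂ κ x') := by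
    filter_upwards [hκ.eventually_analyticAt,
      hκ.continuousAt.eventually hF.eventually_analyticAt, ht.eventually_nhds] with x' h1 h2 h3
    refine ⟨fderiv_fun_comp (g := F) x' h2.differentiableAt h1.differentiableAt, ?_⟩
    have h4 : (fun x => tqL q (r + 1) (κ x)) =ᶠ[𝓝 x'] fun x => tqL q (r + 1) x := h3
    have h5 := h4.fderiv_eq (𝕜 := ℂ)
    have h6 : fderiv ℂ (fun x => tqL q (r + 1) (κ x)) x' =
        (tqL q (r + 1)).comp (fderiv ℂ κ x') :=
      (((tqL q (r + 1)).hasFDerivAt).comp x' h1.differentiableAt.hasFDerivAt).fderiv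
    rw [h6] at h5
    rw [h5]
    exact ((tqL q (r + 1)).hasFDerivAt).fderiv.symm
  refine ⟨?_, ?_, ?_⟩
  · filter_upwards [ht] with x' h1
    exact h1.symm
  · filter_upwards [hd] with x' h1
    show gf (r + 1) (tqL q (r + 1)) (fun v => fderiv ℂ (fun x => F (κ x)) x' v) S₁.μ
      (fun c => Pi.single c 1) = (jac κ x').det • gf (r + 1) (tqL q (r + 1))
        (fun v => fderiv ℂ F (κ x') v) S₁.μ fun c => Pi.single c 1
    have h2 := alt_cols (gfA (tqL q (r + 1)) (fderiv ℂ F (κ x') : _ →ₗ[ℂ] W)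
      S₁.μ.toMultilinearMap) fun c => fderiv ℂ κ x' (Pi.single c 1)
    simp only [gfA_apply] at h2
    refine Eq.trans ?_ h2
    rw [h1.1]
    conv_lhs => rw [h1.2]
    rfl
  · filter_upwards [hd] with x' h1
    funext i
    show ((-1 : ℂ) ^ (i : ℕ)) • gf r (tqL q (r + 1)) (fun v => fderiv ℂ (fun x => F (κ x)) x' v)
      S₀.μ (fun c : Fin (q + r) => (Pi.single ((i : Fin (q + r + 1)).succAbove c) 1 :
        Cm (q + r + 1))) = ∑ j, (jac κ x').adjugate i j • (((-1 : ℂ) ^ (j : ℕ)) •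
        gf r (tqL q (r + 1)) (fun v => fderiv ℂ F (κ x') v) S₀.μ
        fun c : Fin (q + r) => (Pi.single ((j : Fin (q + r + 1)).succAbove c) 1 :
          Cm (q + r + 1)))
    have h2 := alt_cols' (k := q + r) (gfA (tqL q (r + 1))
      (fderiv ℂ F (κ x') : _ →ₗ[ℂ] W) S₀.μ.toMultilinearMap)
      (fun c => fderiv ℂ κ x' (Pi.single c 1)) i
    simp only [gfA_apply] at h2
    refine Eq.trans ?_ h2
    rw [h1.1]
    conv_lhs => rw [h1.2]
    rfl

/-- equivariance of the exterior model under isometries -/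
theorem exD_act {F : Cm (q + (r + 1)) → W} {x : Cm (q + (r + 1))} (hF : AnalyticAt ℂ F x)
    (U : W →ₗᵢ[ℂ] W) {U₁ : T₁ →ₗᵢ[ℂ] T₁} {U₂ : T₀ →ₗᵢ[ℂ] T₀}
    (h₁ : ∀ a, U₁ (S₁.μ a) = S₁.μ fun i => U (a i))
    (h₂ : ∀ a, U₂ (S₀.μ a) = S₀.μ fun i => U (a i)) :
    (exD q r S₁ S₀ fun x => U (F x)).Eqv ((exD q r S₁ S₀ F).act U₁ U₂ 0) x := by
  have hd : ∀ᶠ x' in 𝓝 x, fderiv ℂ (fun x => U (F x)) x' =
      (U.toContinuousLinearMap).comp (fderiv ℂ F x') := by
    filter_upwards [hF.eventually_analyticAt] with x' h1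
    exact ((U.toContinuousLinearMap.hasFDerivAt).comp x' h1.differentiableAt.hasFDerivAt).fderiv
  refine ⟨?_, ?_, ?_⟩
  · exact Eventually.of_forall fun x' => (add_zero _).symm
  · filter_upwards [hd] with x' h1
    show gf (r + 1) (tqL q (r + 1)) (fun v => fderiv ℂ (fun x => U (F x)) x' v) S₁.μ
      (fun c => Pi.single c 1) = U₁ (gf (r + 1) (tqL q (r + 1)) (fun v => fderiv ℂ F x' v) S₁.μ
        fun c => Pi.single c 1)
    rw [h1]
    exact gf_map (tqL q (r + 1)) (fun v => fderiv ℂ F x' v) S₁.μ S₁.μ U U₁.toLinearMap h₁ _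
  · filter_upwards [hd] with x' h1
    funext i
    show ((-1 : ℂ) ^ (i : ℕ)) • gf r (tqL q (r + 1)) (fun v => fderiv ℂ (fun x => U (F x)) x' v)
      S₀.μ (fun c : Fin (q + r) => (Pi.single ((i : Fin (q + r + 1)).succAbove c) 1 :
        Cm (q + r + 1))) = U₂ (((-1 : ℂ) ^ (i : ℕ)) • gf r (tqL q (r + 1))
        (fun v => fderiv ℂ F x' v) S₀.μ
        (fun c : Fin (q + r) => (Pi.single ((i : Fin (q + r + 1)).succAbove c) 1 :
        Cm (q + r + 1))))
    rw [h1, map_smul]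
    congr 1
    exact gf_map (tqL q (r + 1)) (fun v => fderiv ℂ F x' v) S₀.μ S₀.μ U U₂.toLinearMap h₂ _

end

end Vale.Agent.P284.H812.NSF
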