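import Vale.Agent.P284.H812.NSF7

/-!
# P284 (helper812), module NS (f), part 8: the sheet property up to scalars
-/

open scoped Topology ContDiff
open Filter

noncomputable section

set_option linter.unusedSectionVars false

namespace Vale.Agent.P284.H812.NSF

open Vale.Agent.P272.K Vale.Agent.P284.H625 Vale.Agent.P284.H573 Vale.Agent.P284.H338
  Vale.Agent.P284.H501

section
variable {q r : ℕ} {W T₁ T₀ : Type} [NormedAddCommGroup W] [InnerProductSpace ℂ W]
  [CompleteSpace W] [NormedAddCommGroup T₁] [InnerProductSpace ℂ T₁] [CompleteSpace T₁]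
  [NormedAddCommGroup T₀] [InnerProductSpace ℂ T₀] [CompleteSpace T₀]
  {S₁ : TPow W T₁ (r + 1)} {S₀ : TPow W T₀ r}

/-- the map `(t, ⟨f', F⟩)` -/
def kap (f : Fin (r + 1) → W) (F : Cm (q + (r + 1)) → W) (x : Cm (q + (r + 1))) :
    Cm (q + (r + 1)) :=
  Fin.append (tq x) fun a => inner ℂ (f a) (F x)

theorem tq_kap (f : Fin (r + 1) → W) (F : Cm (q + (r + 1)) → W) (x : Cm (q + (r + 1))) :
    tq (kap f F x) = tq x := by
  funext j
  simp [kap, tq]

theorem kap_natAdd (f : Fin (r + 1) → W) (F : Cm (q + (r + 1)) → W) (x : Cm (q + (r + 1)))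
    (a : Fin (r + 1)) : kap f F x (Fin.natAdd q a) = inner ℂ (f a) (F x) := by
  simp [kap]

theorem kap_an {f : Fin (r + 1) → W} {F : Cm (q + (r + 1)) → W} {x : Cm (q + (r + 1))}
    (hF : AnalyticAt ℂ F x) : AnalyticAt ℂ (kap f F) x := by
  rw [analyticAt_pi_iff]
  intro j
  refine Fin.addCases (fun i => ?_) (fun i => ?_) j
  · simp only [kap, Fin.append_left]
    exact ((ContinuousLinearMap.proj (R := ℂ) (φ := fun _ : Fin q => ℂ) i).comp
      (tqL q (r + 1))).analyticAt x
  · simp only [kap, Fin.append_right]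
    exact ((innerSL ℂ (f i)).analyticAt _).comp_of_eq hF rfl

theorem fderiv_kap {f : Fin (r + 1) → W} {F : Cm (q + (r + 1)) → W} {x : Cm (q + (r + 1))}
    (hF : AnalyticAt ℂ F x) (v : Cm (q + (r + 1))) :
    fderiv ℂ (kap f F) x v = Fin.append (tq v) fun a => inner ℂ (f a) (fderiv ℂ F x v) := by
  funext j
  have h1 := hasFDerivAt_pi'.1 (kap_an (f := f) hF).differentiableAt.hasFDerivAt j
  have h2 : fderiv ℂ (kap f F) x v j = fderiv ℂ (fun x => kap f F x j) x v := by
    rw [h1.fderiv]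
    rfl
  rw [h2]
  refine Fin.addCases (fun i => ?_) (fun i => ?_) j
  · have h3 : (fun x => kap f F x (Fin.castAdd (r + 1) i)) =
        fun x => ((ContinuousLinearMap.proj (R := ℂ) (φ := fun _ : Fin q => ℂ) i).comp
      (tqL q (r + 1))) x := by
      funext x
      simp only [kap, Fin.append_left]
      rfl
    rw [h3, ContinuousLinearMap.fderiv, Fin.append_left]
    rfl
  · have h3 : (fun x => kap f F x (Fin.natAdd q i)) = fun x => inner ℂ (f i) (F x) := by
      funext x
      exact kap_natAdd f F x i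
    rw [h3, Fin.append_right, fderiv_inner_const' (f i) hF.differentiableAt]

/-- the Jacobian determinant of `kap` is a component of `v` -/
theorem jac_kap (S₁ : TPow W T₁ (r + 1)) (S₀ : TPow W T₀ r) {f : Fin (r + 1) → W}
    {F : Cm (q + (r + 1)) → W} {x : Cm (q + (r + 1))} (hF : AnalyticAt ℂ F x) :
    (jac (kap f F) x).det = inner ℂ (S₁.μ f) ((exD q r S₁ S₀ F).v x) := by
  have h1 : (exD q r S₁ S₀ F).v x = gf (r + 1) (tqL q (r + 1)) (fun v => fderiv ℂ F x v) S₁.μ
    fun c => Pi.single c 1 := rfl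
  rw [h1, inner_gf]
  congr 1
  ext i c
  simp only [jac, Matrix.of_apply, gfM, fderiv_kap hF]
  refine Fin.addCases (fun j => ?_) (fun a => ?_) i
  · rw [Fin.append_left, Fin.addCases_left]
    rfl
  · rw [Fin.append_right, Fin.addCases_right]

/-- the change of adapted coordinates -/
theorem exists_change (S₁ : TPow W T₁ (r + 1)) (S₀ : TPow W T₀ r) {f : Fin (r + 1) → W}
    {F : Cm (q + (r + 1)) → W} {x : Cm (q + (r + 1))} (hF : AnalyticAt ℂ F x)
    (h : inner ℂ (S₁.μ f) ((exD q r S₁ S₀ F).v x) ≠ 0) :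
    ∃ l : Cm (q + (r + 1)) → Cm (q + (r + 1)), AnalyticAt ℂ l (kap f F x) ∧
      l (kap f F x) = x ∧ (∀ᶠ x' in 𝓝 x, l (kap f F x') = x') ∧
      ∀ᶠ x' in 𝓝 (kap f F x), kap f F (l x') = x' := by
  rw [← jac_kap S₁ S₀ hF] at h
  have hinj : Function.Injective
      (fderiv ℂ (kap f F) x : Cm (q + (r + 1)) →ₗ[ℂ] Cm (q + (r + 1))) := by
    have h1 : (Matrix.toLin' (jac (kap f F) x)) =
        (fderiv ℂ (kap f F) x : Cm (q + (r + 1)) →ₗ[ℂ] Cm (q + (r + 1))) := by
      refine LinearMap.pi_ext' fun j => LinearMap.ext_ring ?_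
      ext i
      simp [jac, Matrix.toLin'_apply, Matrix.mulVec_single]
    rw [← h1]
    have h2 : IsUnit (jac (kap f F) x) := by
      rw [Matrix.isUnit_iff_isUnit_det]
      exact isUnit_iff_ne_zero.2 h
    rw [Matrix.toLin'_apply']
    exact Matrix.mulVec_injective_iff_isUnit.2 h2
  set T : Cm (q + (r + 1)) ≃L[ℂ] Cm (q + (r + 1)) :=
    (LinearEquiv.ofInjectiveEndo _ hinj).toContinuousLinearEquiv with hT
  exact exists_inv (kap_an hF) T (by
    ext v j
    rfl)

end

end Vale.Agent.P284.H812.NSF
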