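import Vale.Agent.P284.H812.Br
import Mathlib.LinearAlgebra.Matrix.Trace

/-!
# P284 (helper812): the curvature of a branch
-/

open scoped Manifold Topology ComplexConjugate InnerProductSpace ContDiff ComplexOrder
open Filter Set Metric

noncomputable section

namespace Vale.Agent.P284.H812

open Vale.Agent.P272.K Vale.Agent.P272.KOD

section alg
variable {n : ℕ}

theorem trace_eq_quad (W J : Matrix (Fin n) (Fin n) ℂ) :
    Matrix.trace (J.transpose * W * J.map (starRingEnd ℂ)) = ∑ j, quad W fun p => J p j := by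
  rw [Matrix.trace]
  refine Finset.sum_congr rfl fun j _ => ?_
  rw [Matrix.diag_apply, Matrix.mul_apply, quad, Finset.sum_comm]
  refine Finset.sum_congr rfl fun q _ => ?_
  rw [Matrix.mul_apply, Finset.sum_mul]
  refine Finset.sum_congr rfl fun p _ => ?_
  rw [Matrix.transpose_apply, Matrix.map_apply]
  show J p j * W p q * (starRingEnd ℂ) (J q j) = W p q * (J p j * (starRingEnd ℂ) (J q j))
  ring

theorem trace_lower {W J : Matrix (Fin n) (Fin n) ℂ} {lam : ℝ}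
    (h : ∀ ξ : Cm n, lam * ∑ p, ‖ξ p‖ ^ 2 ≤ (quad W ξ).re) :
    lam * ∑ j, ∑ p, ‖J p j‖ ^ 2 ≤ (Matrix.trace (J.transpose * W * J.map (starRingEnd ℂ))).re := by
  rw [trace_eq_quad, Complex.re_sum, Finset.mul_sum]
  exact Finset.sum_le_sum fun j _ => h _

theorem det_bound (J : Matrix (Fin n) (Fin n) ℂ) :
    ‖J.det‖ ^ 2 ≤ (n.factorial : ℝ) ^ 2 * (∑ j, ∑ p, ‖J p j‖ ^ 2) ^ n := by
  set S : ℝ := ∑ j, ∑ p, ‖J p j‖ ^ 2 with hS
  have hS0 : 0 ≤ S := Finset.sum_nonneg fun _ _ => Finset.sum_nonneg fun _ _ => by positivity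
  have h1 : ∀ p j, ‖J p j‖ ≤ √S := by
    intro p j
    refine Real.le_sqrt_of_sq_le ?_
    have k1 : ‖J p j‖ ^ 2 ≤ ∑ p, ‖J p j‖ ^ 2 :=
      Finset.single_le_sum (f := fun p => ‖J p j‖ ^ 2) (fun _ _ => by positivity) (Finset.mem_univ p)
    have k2 : ∑ p, ‖J p j‖ ^ 2 ≤ S := Finset.single_le_sum (f := fun j => ∑ p, ‖J p j‖ ^ 2)
      (fun _ _ => Finset.sum_nonneg fun _ _ => by positivity) (Finset.mem_univ j)
    exact k1.trans k2
  have h2 : ‖J.det‖ ≤ n.factorial * (√S) ^ n := by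
    rw [Matrix.det_apply]
    refine (norm_sum_le _ _).trans ?_
    have h3 : ∀ σ : Equiv.Perm (Fin n), ‖Equiv.Perm.sign σ • ∏ i, J (σ i) i‖ ≤ (√S) ^ n := by
      intro σ
      have h4 : ‖Equiv.Perm.sign σ • ∏ i, J (σ i) i‖ = ∏ i, ‖J (σ i) i‖ := by
        rcases Int.units_eq_one_or (Equiv.Perm.sign σ) with h5 | h5
        · rw [h5, one_smul, norm_prod]
        · rw [h5]
          simp [norm_prod]
      rw [h4]
      refine (Finset.prod_le_prod (fun _ _ => norm_nonneg _) fun i _ => h1 _ _).trans ?_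
      simp
    refine (Finset.sum_le_sum fun σ _ => h3 σ).trans (le_of_eq ?_)
    rw [Finset.sum_const, Finset.card_univ, Fintype.card_perm, Fintype.card_fin, nsmul_eq_mul]
  calc ‖J.det‖ ^ 2 ≤ (n.factorial * (√S) ^ n) ^ 2 := by gcongr
    _ = (n.factorial : ℝ) ^ 2 * ((√S) ^ 2) ^ n := by rw [mul_pow, ← pow_mul, ← pow_mul, mul_comm n 2]
    _ = _ := by rw [Real.sq_sqrt hS0]

end alg

section
variable {n : ℕ} {Z : Type*} [TopologicalSpace Z] [ChartedSpace (Cm n) Z]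

/-- the logarithm of a branch of the section `τ`, weighted by `w` -/
def uF {M : ℕ} (τ : PSec n M Z) (w : Chart n Z → Cm n → ℝ) (e : Chart n Z) (f : Cm n → Cm n)
    (z : Cm n) : ℝ := Real.log (Pv τ w e f z) / (M + 1)

variable {M : ℕ} {τ : PSec n M Z} {w : Chart n Z → Cm n → ℝ} {e : Chart n Z} {f : Cm n → Cm n}
  {z₀ : Cm n}

/-- the curvature inequality, local form -/
theorem trace_local (hn : 1 ≤ n) {lam B : ℝ} (hlam : 0 < lam) (hB : 1 ≤ B)
    (hf : AnalyticAt ℂ f z₀)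
    (hτ : AnalyticAt ℂ (τ.coeff e) (f z₀)) (hw : ContDiffAt ℝ ∞ (w e) (f z₀))
    (h1 : ∀ ξ : Cm n, lam * ∑ p, ‖ξ p‖ ^ 2 ≤ (quad (cHess (w e) (f z₀)) ξ).re)
    (h2 : ‖τ.coeff e (f z₀)‖ ^ 2 * Real.exp (w e (f z₀)) ≤ B) (hP : Pv τ w e f z₀ ≠ 0) :
    ContDiffAt ℝ 2 (uF τ w e f) z₀ ∧
      lam / ((M + 1) * (B * (n.factorial : ℝ) ^ 2)) * Real.exp (uF τ w e f z₀ / n) ≤
        (Matrix.trace (cHess (uF τ w e f) z₀)).re := by
  set g : Cm n → ℂ := fun z => τ.coeff e (f z) * (fderiv ℂ f z).det ^ (M + 1) with hg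
  have hM : (0 : ℝ) < M + 1 := by positivity
  have hPg : ∀ z, Pv τ w e f z = ‖g z‖ ^ 2 * Real.exp (w e (f z)) := by
    intro z
    rw [Pv, hg]
    simp only [norm_mul, norm_pow, mul_pow]
    rw [← pow_mul, ← pow_mul, mul_comm (M + 1) 2]
    ring
  have hg0 : g z₀ ≠ 0 := by
    intro h0
    apply hP
    rw [hPg, h0]; simp
  have hga : AnalyticAt ℂ g z₀ := (hτ.comp hf).mul ((analyticAt_det hf).pow _)
  have hgc : ContDiffAt ℂ ω g z₀ := hga.contDiffAt
  have hfc : ContDiffAt ℂ ω f z₀ := hf.contDiffAt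
  have hw2 : ContDiffAt ℝ 2 (w e) (f z₀) := hw.of_le (WithTop.coe_le_coe.2 le_top : ((2 : ℕ∞) : WithTop ℕ∞) ≤ ((⊤ : ℕ∞) : WithTop ℕ∞))
  have c1 : ContDiffAt ℝ 2 (fun z => Real.log (‖g z‖ ^ 2)) z₀ := by
    have hd : ContDiffAt ℝ 2 g z₀ := (hgc.restrict_scalars ℝ).of_le (by exact le_top)
    refine (hd.norm_sq ℝ).log ?_
    exact pow_ne_zero 2 (norm_ne_zero_iff.2 hg0)
  have c2 : ContDiffAt ℝ 2 (fun z => w e (f z)) z₀ :=
    ContDiffAt.comp z₀ hw2 ((hfc.restrict_scalars ℝ).of_le (by exact le_top))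
  have hu : uF τ w e f =ᶠ[𝓝 z₀]
      fun z => (M + 1 : ℝ)⁻¹ * (Real.log (‖g z‖ ^ 2) + w e (f z)) := by
    filter_upwards [hga.continuousAt.eventually_ne hg0] with z hz
    rw [uF, hPg, Real.log_mul (by positivity) (Real.exp_pos _).ne', Real.log_exp, div_eq_inv_mul]
  refine ⟨(contDiffAt_const.mul (c1.add c2)).congr_of_eventuallyEq hu, ?_⟩
  have hH : cHess (uF τ w e f) z₀ = (((M + 1 : ℝ)⁻¹ : ℝ) : ℂ) •
      ((jmat f z₀).transpose * cHess (w e) (f z₀) * (jmat f z₀).map (starRingEnd ℂ)) := by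
    rw [cHess_congr hu, cHess_const_mul _ (c1.add c2), cHess_add c1 c2,
      cHess_log_norm_sq hgc hg0, zero_add, cHess_comp hw2 hfc]
  rw [hH, Matrix.trace_smul, smul_eq_mul, Complex.re_ofReal_mul]
  have hT := trace_lower (J := jmat f z₀) h1
  set S : ℝ := ∑ j, ∑ p, ‖jmat f z₀ p j‖ ^ 2 with hS
  have hS0 : 0 ≤ S := Finset.sum_nonneg fun _ _ => Finset.sum_nonneg fun _ _ => by positivity
  -- `exp (u / n) ≤ B (n!)² S`
  have hdet : (fderiv ℂ f z₀).det = (jmat f z₀).det := by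
    rw [det_eq]
    congr 1
    ext p i
    rw [Matrix.of_apply, jmat_apply hf.differentiableAt]
  have hD := det_bound (jmat f z₀)
  rw [← hS, ← hdet] at hD
  have hF : (1 : ℝ) ≤ n.factorial := by exact_mod_cast Nat.succ_le_of_lt (Nat.factorial_pos n)
  have hF2 : (1 : ℝ) ≤ (n.factorial : ℝ) ^ 2 := one_le_pow₀ hF
  set D : ℝ := ‖(fderiv ℂ f z₀).det‖ ^ 2 with hDdef
  have hD0 : 0 ≤ D := by positivity
  have hPpos : 0 < Pv τ w e f z₀ := lt_of_le_of_ne (Pv_nonneg τ w e f z₀) hP.symm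
  have e1 : Real.exp (uF τ w e f z₀) ^ (M + 1) ≤ (B * D) ^ (M + 1) := by
    rw [← Real.exp_nat_mul]
    have : ((M + 1 : ℕ) : ℝ) * uF τ w e f z₀ = Real.log (Pv τ w e f z₀) := by
      rw [uF]; push_cast; field_simp
    rw [this, Real.exp_log hPpos, Pv, mul_pow]
    refine mul_le_mul_of_nonneg_right (h2.trans ?_) (by positivity)
    exact le_self_pow₀ hB (by omega)
  have e2 : Real.exp (uF τ w e f z₀) ≤ B * D :=
    le_of_pow_le_pow_left₀ (by omega) (by positivity) e1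
  have e3 : Real.exp (uF τ w e f z₀) ≤ (B * (n.factorial : ℝ) ^ 2 * S) ^ n := by
    refine e2.trans ?_
    rw [mul_pow]
    have k1 : 1 ≤ B * (n.factorial : ℝ) ^ 2 := by nlinarith
    calc B * D ≤ B * ((n.factorial : ℝ) ^ 2 * S ^ n) := by gcongr
      _ = B * (n.factorial : ℝ) ^ 2 * S ^ n := by ring
      _ ≤ _ := by
        refine mul_le_mul_of_nonneg_right (le_self_pow₀ k1 (by omega)) (by positivity)
  have hn0 : (n : ℝ) ≠ 0 := by exact_mod_cast (by omega : n ≠ 0)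
  have e4 : Real.exp (uF τ w e f z₀ / n) ≤ B * (n.factorial : ℝ) ^ 2 * S := by
    refine le_of_pow_le_pow_left₀ (n := n) (by omega) (by positivity) ?_
    rw [← Real.exp_nat_mul, mul_div_cancel₀ _ hn0]
    exact e3
  have hk : 0 < B * (n.factorial : ℝ) ^ 2 := by nlinarith
  calc lam / ((M + 1) * (B * (n.factorial : ℝ) ^ 2)) * Real.exp (uF τ w e f z₀ / n)
      ≤ lam / ((M + 1) * (B * (n.factorial : ℝ) ^ 2)) * (B * (n.factorial : ℝ) ^ 2 * S) := by
        gcongr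
    _ = (M + 1 : ℝ)⁻¹ * (lam * S) := by field_simp
    _ ≤ _ := by gcongr

end

end Vale.Agent.P284.H812
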